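import Vale.Agent.Kap.Defs

namespace Vale.Agent.Kap

variable {V E E' S : Type}

theorem Frame.graph_folded (F : Frame V E E' S) {β : E ≃ E'} (hβ : F.IsMatching β) :
    (F.graph β).Folded := by
  refine ⟨fun e e' h1 h2 => F.inj e e' h1 h2, fun e e' h1 h2 => ?_⟩
  apply β.injective
  apply F.inj' _ _ h1
  rw [(hβ e).1, (hβ e').1]
  exact h2

theorem Frame.graph_bip (F : Frame V E E' S) (β : E ≃ E') : (F.graph β).Bip := by
  intro e e' h
  have h1 := F.side_src e
  have h2 := F.side_tg (β e')
  have h3 : F.src e = F.tg (β e') := h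
  rw [h3, h2] at h1
  exact Bool.noConfusion h1

lemma alg_path_append (Γ : LG V E S) {x y z : V} {l l' : List (E × Bool)} (h : Γ.IsPath x l y)
    (h' : Γ.IsPath y l' z) : Γ.IsPath x (l ++ l') z := by
  induction h with
  | nil x => exact h'
  | cons o _ ih => exact LG.IsPath.cons o (ih h')

lemma alg_ini_rev (Γ : LG V E S) (o : E × Bool) : Γ.ini (rev o) = Γ.ter o := by
  rcases o with ⟨e, b⟩; cases b <;> rfl

lemma alg_ter_rev (Γ : LG V E S) (o : E × Bool) : Γ.ter (rev o) = Γ.ini o := by
  rcases o with ⟨e, b⟩; cases b <;> rfl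

lemma alg_path_single (Γ : LG V E S) (o : E × Bool) : Γ.IsPath (Γ.ini o) [o] (Γ.ter o) :=
  LG.IsPath.cons o (LG.IsPath.nil _)

lemma alg_path_reverse (Γ : LG V E S) {x y : V} {l : List (E × Bool)} (h : Γ.IsPath x l y) :
    Γ.IsPath y (l.map rev).reverse x := by
  induction h with
  | nil x => exact LG.IsPath.nil x
  | cons o _ ih =>
    rw [List.map_cons, List.reverse_cons]
    refine alg_path_append Γ ih ?_
    have := alg_path_single Γ (rev o)
    rwa [alg_ini_rev, alg_ter_rev] at this

lemma alg_word_reverse (Γ : LG V E S) (l : List (E × Bool)) :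
    Γ.word (l.map rev).reverse = FreeGroup.invRev (Γ.word l) := by
  simp only [LG.word, FreeGroup.invRev, List.map_reverse, List.map_map]
  rfl

lemma alg_word_append (Γ : LG V E S) (l l' : List (E × Bool)) :
    FreeGroup.mk (Γ.word (l ++ l')) = FreeGroup.mk (Γ.word l) * FreeGroup.mk (Γ.word l') := by
  simp [LG.word, FreeGroup.mul_mk]

lemma alg_proj_eq (Γ : LG V E S) {x y : V} {l l' : List (E × Bool)} (h : Γ.IsPath x l y)
    (h' : Γ.IsPath x l' y) :
    Γ.proj (FreeGroup.mk (Γ.word l)) = Γ.proj (FreeGroup.mk (Γ.word l')) := by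
  apply PresentedGroup.mk_eq_mk_of_mul_inv_mem
  refine ⟨x, l ++ (l'.map rev).reverse, alg_path_append Γ h (alg_path_reverse Γ h'), ?_⟩
  rw [alg_word_append, alg_word_reverse, FreeGroup.inv_mk]

theorem LG.exists_isPos (Γ : LG V E S) : ∃ pos : V → Γ.Grp, Γ.IsPos pos := by
  let st : Setoid V :=
    { r := fun x y => ∃ l, Γ.IsPath x l y
      iseqv :=
        ⟨fun x => ⟨[], LG.IsPath.nil x⟩, fun ⟨_, h⟩ => ⟨_, alg_path_reverse Γ h⟩,
          fun ⟨_, h⟩ ⟨_, h'⟩ => ⟨_, alg_path_append Γ h h'⟩⟩ }
  have hex : ∀ v, ∃ l, Γ.IsPath (Quotient.out (Quotient.mk st v)) l v := fun v =>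
    Quotient.exact (Quotient.out_eq (Quotient.mk st v))
  choose p hp using hex
  refine ⟨fun v => Γ.proj (FreeGroup.mk (Γ.word (p v))), fun e => ?_⟩
  have he : Γ.IsPath (Γ.src e) [(e, true)] (Γ.tgt e) := alg_path_single Γ (e, true)
  have hq : Quotient.mk st (Γ.src e) = Quotient.mk st (Γ.tgt e) := Quotient.sound ⟨_, he⟩
  have h1 := alg_path_append Γ (hp (Γ.src e)) he
  rw [hq] at h1
  change Γ.proj _ = Γ.proj _ * Γ.proj _
  rw [alg_proj_eq Γ (hp (Γ.tgt e)) h1, alg_word_append, map_mul]
  rfl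

lemma alg_pos_path (Γ : LG V E S) {pos : V → Γ.Grp} (hpos : Γ.IsPos pos) {x y : V}
    {l : List (E × Bool)} (h : Γ.IsPath x l y) :
    pos y = pos x * Γ.proj (FreeGroup.mk (Γ.word l)) := by
  induction h with
  | nil x =>
    have : FreeGroup.mk (Γ.word []) = 1 := rfl
    rw [this, map_one, mul_one]
  | @cons o l y _ ih =>
    have h1 : FreeGroup.mk (Γ.word (o :: l)) =
        FreeGroup.mk [Γ.ltr o] * FreeGroup.mk (Γ.word l) := by
      simp [LG.word, FreeGroup.mul_mk]
    rw [ih, h1, map_mul, ← mul_assoc]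
    congr 1
    rcases o with ⟨e, b⟩
    cases b
    · have h2 : FreeGroup.mk [Γ.ltr (e, false)] = (FreeGroup.of (Γ.lab e))⁻¹ := rfl
      change pos (Γ.src e) = pos (Γ.tgt e) * _
      rw [h2, hpos e, map_inv, mul_inv_cancel_right]
    · exact hpos e

lemma alg_nsmul {A : Type} [AddCommGroup A] [Module (ZMod 2) A] (n : ℕ) (a : A) :
    n • a = if Odd n then a else 0 := by
  rw [← Nat.cast_smul_eq_nsmul (ZMod 2)]
  split_ifs with h
  · rw [(ZMod.natCast_eq_one_iff_odd).2 h, one_smul]
  · rw [(ZMod.natCast_eq_zero_iff_even).2 (Nat.not_odd_iff_even.1 h), zero_smul]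

open Classical in
lemma alg_fiber {A : Type} [AddCommGroup A] [Module (ZMod 2) A] [Fintype V] [Fintype E]
    (src : E → V) (lab : E → S) (f : V × V → A) :
    ∑ q ∈ Finset.univ.filter (fun q : E × E => lab q.1 = lab q.2), f (src q.1, src q.2) =
      ∑ v : V × V, if Odd (Finset.univ.filter fun q : E × E =>
        src q.1 = v.1 ∧ src q.2 = v.2 ∧ lab q.1 = lab q.2).card then f v else 0 := by
  rw [← Finset.sum_fiberwise (Finset.univ.filter (fun q : E × E => lab q.1 = lab q.2))
    (fun q => (src q.1, src q.2))]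
  refine Finset.sum_congr rfl fun v _ => ?_
  rw [← alg_nsmul, Finset.sum_congr rfl (g := fun _ => f v)
    (fun q hq => by rw [(Finset.mem_filter.1 hq).2]), Finset.sum_const]
  congr 2
  ext q
  simp only [Finset.mem_filter, Finset.mem_univ, true_and, Prod.ext_iff]
  tauto

open Classical in
lemma alg_double_count {A : Type} [AddCommGroup A] [Module (ZMod 2) A]
    [Fintype V] [Fintype E] [Fintype E'] (F : Frame V E E' S) {u0 x0 : V}
    (hP : F.Parity u0 x0) {β : E ≃ E'} (hβ : F.IsMatching β) (f : V × V → A)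
    (hf : ∀ e e', F.lab e = F.lab e' → f (F.src e, F.src e') = f (F.tg (β e), F.tg (β e'))) :
    ∑ x ∈ Finset.univ.filter (fun x => F.side x = false),
      ∑ x' ∈ Finset.univ.filter (fun x => F.side x = false), f (x, x') = f (u0, u0) := by
  have h1 : ∑ x ∈ Finset.univ.filter (fun x => F.side x = false),
      ∑ x' ∈ Finset.univ.filter (fun x => F.side x = false), f (x, x') =
      ∑ q ∈ Finset.univ.filter (fun q : E × E => F.lab q.1 = F.lab q.2),
        f (F.src q.1, F.src q.2) := by
    rw [alg_fiber F.src F.lab f, Fintype.sum_prod_type, Finset.sum_filter]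
    refine Finset.sum_congr rfl fun x _ => ?_
    split_ifs with hx
    · rw [Finset.sum_filter]
      refine Finset.sum_congr rfl fun x' _ => ?_
      by_cases hx' : F.side x' = false
      · rw [if_pos hx', if_pos (hP.odd x x' hx hx')]
      · rw [if_neg hx', if_neg]
        rw [Finset.filter_eq_empty_iff.2]
        · simp
        · rintro q - ⟨-, h, -⟩
          exact hx' ((show F.src q.2 = x' from h) ▸ F.side_src _)
    · symm
      refine Finset.sum_eq_zero fun x' _ => ?_
      rw [if_neg]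
      rw [Finset.filter_eq_empty_iff.2]
      · simp
      · rintro q - ⟨h, -, -⟩
        exact hx ((show F.src q.1 = x from h) ▸ F.side_src _)
  have h2 : ∑ q ∈ Finset.univ.filter (fun q : E × E => F.lab q.1 = F.lab q.2),
        f (F.src q.1, F.src q.2) =
      ∑ q ∈ Finset.univ.filter (fun q : E' × E' => F.lab' q.1 = F.lab' q.2),
        f (F.tg q.1, F.tg q.2) := by
    refine Finset.sum_equiv (β.prodCongr β) (fun q => ?_) (fun q hq => ?_)
    · simp [(hβ q.1).1, (hβ q.2).1]
    · exact hf _ _ (Finset.mem_filter.1 hq).2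
  rw [h1, h2, alg_fiber F.tg F.lab' f, Finset.sum_eq_single (u0, u0)]
  · rw [if_pos ((hP.even u0 u0 hP.side_u0 hP.side_u0).2 ⟨rfl, rfl⟩)]
  · rintro ⟨y, y'⟩ - hne
    rw [if_neg]
    intro hodd
    have hne' : (Finset.univ.filter fun q : E' × E' =>
        F.tg q.1 = y ∧ F.tg q.2 = y' ∧ F.lab' q.1 = F.lab' q.2).Nonempty := by
      rw [← Finset.card_pos]; exact hodd.pos
    obtain ⟨q, hq⟩ := hne'
    obtain ⟨-, h3, h4, -⟩ := Finset.mem_filter.1 hq
    have := (hP.even y y' (by rw [← h3]; exact F.side_tg _) (by rw [← h4]; exact F.side_tg _)).1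
      hodd
    exact hne (by rw [this.1, this.2])
  · intro h; exact absurd (Finset.mem_univ _) h

/-- The elements `a, b, c` of the group algebra. -/
theorem exists_abc [Fintype V] [Fintype E] [Fintype E'] (F : Frame V E E' S) {u0 x0 : V}
    (hP : F.Parity u0 x0) {β : E ≃ E'} (hβ : F.IsMatching β) (hroot : (F.graph β).RootInj x0) :
    ∃ a b c : MonoidAlgebra (ZMod 2) (F.graph β).Grp, a * b = 1 ∧ a * c = 0 ∧ c ≠ 0 := by
  classical
  obtain ⟨pos, hpos⟩ := (F.graph β).exists_isPos
  have hpos' : ∀ e, pos (F.tg (β e)) =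
      pos (F.src e) * (F.graph β).proj (FreeGroup.of (F.lab e)) := hpos
  have hkey : ∀ e e', F.lab e = F.lab e' →
      pos (F.src e) * (pos (F.src e'))⁻¹ = pos (F.tg (β e)) * (pos (F.tg (β e')))⁻¹ := by
    intro e e' h
    rw [hpos', hpos', h]; group
  let R : V → Prop := fun z => ∃ l, (F.graph β).IsPath x0 l z
  have hR : ∀ e, R (F.src e) ↔ R (F.tg (β e)) := by
    intro e
    have he : (F.graph β).IsPath (F.src e) [(e, true)] (F.tg (β e)) :=
      alg_path_single (F.graph β) (e, true)
    exact ⟨fun ⟨_, h⟩ => ⟨_, alg_path_append _ h he⟩,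
      fun ⟨_, h⟩ => ⟨_, alg_path_append _ h (alg_path_reverse _ he)⟩⟩
  have hsrt : ∀ {x y : V} {l : List (E × Bool)}, (F.graph β).IsPath x l y → F.srt y = F.srt x := by
    intro x y l h
    induction h with
    | nil x => rfl
    | cons o _ ih =>
      rw [ih]
      rcases o with ⟨e, b⟩
      cases b
      · exact (hβ e).2.symm
      · exact (hβ e).2
  have hu0 : ¬ R u0 := by
    rintro ⟨l, h⟩
    have := hsrt h
    rw [hP.srt_u0, hP.srt_x0] at this
    exact Bool.noConfusion this
  let W := Finset.univ.filter (fun x => F.side x = false)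
  refine ⟨∑ x ∈ W, MonoidAlgebra.single (pos x) 1, ∑ x ∈ W, MonoidAlgebra.single (pos x)⁻¹ 1,
    ∑ x ∈ W, if R x then MonoidAlgebra.single (pos x)⁻¹ 1 else 0, ?_, ?_, ?_⟩
  · rw [Finset.sum_mul_sum]
    have := alg_double_count F hP hβ
      (fun v => MonoidAlgebra.single (pos v.1 * (pos v.2)⁻¹) (1 : ZMod 2))
      (fun e e' h => by simp only [hkey e e' h])
    simp only [MonoidAlgebra.single_mul_single, mul_one]
    rw [this, mul_inv_cancel, MonoidAlgebra.one_def]
  · rw [Finset.sum_mul_sum]
    have := alg_double_count F hP hβ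
      (fun v => if R v.2 then MonoidAlgebra.single (pos v.1 * (pos v.2)⁻¹) (1 : ZMod 2) else 0)
      (fun e e' h => by simp only [hkey e e' h, hR e'])
    simp only [mul_ite, MonoidAlgebra.single_mul_single, mul_one, mul_zero]
    rw [this, if_neg hu0]
  · intro h
    have h1 := congrArg (fun t => t.coeff (pos x0)⁻¹) h
    simp only [MonoidAlgebra.coeff_sum, Finsupp.finsetSum_apply] at h1
    rw [Finset.sum_eq_single x0] at h1
    · rw [if_pos ⟨[], LG.IsPath.nil x0⟩] at h1
      simp at h1
    · intro z hz hne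
      split_ifs with hRz
      · obtain ⟨l, hl⟩ := hRz
        have h2 := hroot l z hl hne (fun e he => by
          have h3 := F.side_tg (β e)
          have h4 : F.tg (β e) = z := he
          rw [h4, (Finset.mem_filter.1 hz).2] at h3
          exact Bool.noConfusion h3)
        have h5 := alg_pos_path _ hpos hl
        rw [MonoidAlgebra.coeff_single, Finsupp.single_eq_of_ne]
        intro h6
        apply h2
        rw [inv_inj] at h6
        rw [← h6] at h5
        exact (left_eq_mul.1 h5)
      · simp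
    · intro h
      exact (h (by simp [W, hP.side_x0])).elim

/-- Group algebras of residually finite groups over `ZMod 2` are directly finite. -/
theorem mul_eq_one_symm_of_residuallyFinite {G : Type} [Group G] [Group.ResiduallyFinite G]
    (a b : MonoidAlgebra (ZMod 2) G) (h : a * b = 1) : b * a = 1 := by
  classical
  have hex : ∀ T : Finset G, ∃ H : FiniteIndexNormalSubgroup G, ∀ g ∈ T, g ≠ 1 → g ∉ H := by
    intro T
    induction T using Finset.induction_on with
    | empty => exact ⟨⟨⊤, inferInstance, inferInstance⟩, by simp⟩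
    | insert g T _ ih =>
      obtain ⟨H, hH⟩ := ih
      by_cases hg : g = 1
      · refine ⟨H, fun g' hg' h1 => ?_⟩
        rcases Finset.mem_insert.1 hg' with rfl | h2
        · exact absurd hg h1
        · exact hH g' h2 h1
      · obtain ⟨K, hK⟩ := Group.exists_finiteIndexNormalSubgroup_notMem g hg
        refine ⟨H ⊓ K, fun g' hg' h1 h3 => ?_⟩
        rcases Finset.mem_insert.1 hg' with rfl | h2
        · exact hK ((inf_le_right : H ⊓ K ≤ K) h3)
        · exact hH g' h2 h1 ((inf_le_left : H ⊓ K ≤ H) h3)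
  let T : Finset G := insert 1 (b * a).coeff.support
  obtain ⟨H, hH⟩ := hex ((T ×ˢ T).image fun p => p.1⁻¹ * p.2)
  let π : G →* G ⧸ H.toSubgroup := QuotientGroup.mk' H.toSubgroup
  have hinj : Set.InjOn π (T : Set G) := by
    intro g hg g' hg' hgg
    by_contra hne
    refine hH (g⁻¹ * g') (Finset.mem_image.2 ⟨(g, g'), Finset.mem_product.2 ⟨hg, hg'⟩, rfl⟩)
      (fun h1 => hne (eq_of_inv_mul_eq_one h1)) ?_
    exact QuotientGroup.eq.1 hgg
  have : Finite (G ⧸ H.toSubgroup) := Subgroup.finite_quotient_of_finiteIndex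
  have : Finite ((G ⧸ H.toSubgroup) →₀ ZMod 2) :=
    Finite.of_injective _ (DFunLike.coe_injective (F := (G ⧸ H.toSubgroup) →₀ ZMod 2))
  have : Finite (MonoidAlgebra (ZMod 2) (G ⧸ H.toSubgroup)) :=
    Finite.of_equiv _ MonoidAlgebra.coeffEquiv.symm
  let Φ := MonoidAlgebra.mapDomainRingHom (ZMod 2) π
  have h1 : Φ a * Φ b = 1 := by rw [← map_mul, h, map_one]
  have h2 : Φ (b * a) = Φ 1 := by rw [map_mul, map_one]; exact mul_eq_one_symm h1
  have h3 : Finsupp.mapDomain π (b * a).coeff =
      Finsupp.mapDomain π (1 : MonoidAlgebra (ZMod 2) G).coeff := congrArg MonoidAlgebra.coeff h2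
  apply MonoidAlgebra.coeff_injective
  refine Finsupp.mapDomain_injOn (T : Set G) hinj ?_ ?_ h3
  · intro g hg
    exact Finset.mem_insert_of_mem hg
  · intro g hg
    rw [MonoidAlgebra.one_def, MonoidAlgebra.coeff_single] at hg
    have := Finsupp.support_single_subset hg
    rw [Finset.mem_singleton] at this
    rw [this]
    exact Finset.mem_insert_self _ _

end Vale.Agent.Kap
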