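import Mathlib

/-!
Shared definitions for the joint project P194 / P201 / P186 (graphical presentation whose group
algebra over `ZMod 2` is not directly finite).
-/

namespace Vale.Agent.Kap

/-- A labelled oriented multigraph. -/
structure LG (V E S : Type) where
  src : E → V
  tgt : E → V
  lab : E → S

/-- Reverse of an oriented edge; also the inverse of a letter `S × Bool`. -/
def rev {E : Type} (o : E × Bool) : E × Bool := (o.1, !o.2)

/-- A list of oriented edges without backtracking. -/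
def Reduced {E : Type} (l : List (E × Bool)) : Prop := l.IsChain (fun o o' => o' ≠ rev o)

namespace LG

variable {V E S : Type} (Γ : LG V E S)

/-- Initial vertex of an oriented edge (`true` means: traversed from `src` to `tgt`). -/
def ini (o : E × Bool) : V := if o.2 = true then Γ.src o.1 else Γ.tgt o.1

/-- Terminal vertex of an oriented edge. -/
def ter (o : E × Bool) : V := if o.2 = true then Γ.tgt o.1 else Γ.src o.1

/-- The letter read along an oriented edge. -/
def ltr (o : E × Bool) : S × Bool := (Γ.lab o.1, o.2)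

/-- `IsPath x l y`: the list `l` of oriented edges is a path from `x` to `y`. -/
inductive IsPath : V → List (E × Bool) → V → Prop
  | nil (x : V) : IsPath x [] x
  | cons (o : E × Bool) {l : List (E × Bool)} {y : V} :
      IsPath (Γ.ter o) l y → IsPath (Γ.ini o) (o :: l) y

/-- The word read along a path. -/
def word (l : List (E × Bool)) : List (S × Bool) := l.map Γ.ltr

/-- The labelling is an immersion. -/
def Folded : Prop :=
  (∀ e e', Γ.src e = Γ.src e' → Γ.lab e = Γ.lab e' → e = e') ∧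
  (∀ e e', Γ.tgt e = Γ.tgt e' → Γ.lab e = Γ.lab e' → e = e')

/-- No vertex is both a source and a target. -/
def Bip : Prop := ∀ e e', Γ.src e ≠ Γ.tgt e'

/-- Every nonempty closed path without backtracking has length at least `g`. -/
def Girth (g : ℕ) : Prop :=
  ∀ (x : V) (l : List (E × Bool)), Γ.IsPath x l x → Reduced l → l ≠ [] → g ≤ l.length

/-- Relators: the labels of all closed paths. -/
def rels : Set (FreeGroup S) := {f | ∃ x l, Γ.IsPath x l x ∧ f = FreeGroup.mk (Γ.word l)}

/-- The group of the graphical presentation. -/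
abbrev Grp : Type := PresentedGroup Γ.rels

/-- The quotient map. -/
def proj : FreeGroup S →* Γ.Grp := PresentedGroup.mk Γ.rels

/-- A developing map of the vertices to the group. -/
def IsPos (pos : V → Γ.Grp) : Prop :=
  ∀ e, pos (Γ.tgt e) = pos (Γ.src e) * Γ.proj (FreeGroup.of (Γ.lab e))

/-- The chain of a path in the copy of `Γ` with index `t`. -/
noncomputable def ch (t : Γ.Grp) (l : List (E × Bool)) : (Γ.Grp × E) →₀ ℤ :=
  (l.map fun o => Finsupp.single (t, o.1) (if o.2 = true then (1 : ℤ) else -1)).sum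

/-- `Fill pos f c`: `f` is a product of conjugates of relators with total chain `c`. -/
inductive Fill (pos : V → Γ.Grp) : FreeGroup S → ((Γ.Grp × E) →₀ ℤ) → Prop
  | one : Fill pos 1 0
  | rel (u : FreeGroup S) (x : V) (l : List (E × Bool)) (h : Γ.IsPath x l x) :
      Fill pos (u * FreeGroup.mk (Γ.word l) * u⁻¹) (Γ.ch (Γ.proj u * (pos x)⁻¹) l)
  | mul {f f' : FreeGroup S} {c c' : (Γ.Grp × E) →₀ ℤ} :
      Fill pos f c → Fill pos f' c' → Fill pos (f * f') (c + c')

/-- Linear bound on filling chains (for `w = []` this is uniqueness of fillings). -/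
def FillBound (pos : V → Γ.Grp) (C : ℕ) : Prop :=
  ∀ (w : List (S × Bool)) (c : (Γ.Grp × E) →₀ ℤ), Γ.Fill pos (FreeGroup.mk w) c →
    (∑ x ∈ c.support, (c x).natAbs) ≤ C * w.length

/-- The root is not identified in the group with another non-target vertex. -/
def RootInj (x0 : V) : Prop :=
  ∀ (l : List (E × Bool)) (y : V), Γ.IsPath x0 l y → y ≠ x0 → (∀ e, Γ.tgt e ≠ y) →
    Γ.proj (FreeGroup.mk (Γ.word l)) ≠ 1

/-- Two paths glued (with opposite directions) along a diagram edge, nowhere along the same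
edge of `Γ`. -/
def Paired (l l' : List (E × Bool)) : Prop :=
  List.Forall₂ (fun o o' => Γ.ltr o' = rev (Γ.ltr o) ∧ o'.1 ≠ o.1) l l'.reverse

/-- The local isoperimetric inequality for at most `K` paths of length at most `lam`.
`Gl` = paths glued to a successor, `Pa` = paired paths, `ρ = 1` only if a path starts at the root. -/
def LocalIso (x0 : V) (K lam : ℕ) (κ A B η : ℝ) : Prop :=
  ∀ (δ : Type) [DecidableEq δ] (W Gl Pa : Finset δ) (p : δ → List (E × Bool)) (φ ι : δ → δ)
    (ρ : ℕ), W.card ≤ K →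
    (∀ z ∈ W, p z ≠ [] ∧ (p z).length ≤ lam ∧ Reduced (p z) ∧ ∃ x y, Γ.IsPath x (p z) y) →
    Gl ⊆ W →
    (∀ z ∈ Gl, φ z ∈ W ∧ Reduced (p z ++ p (φ z)) ∧ ∃ x y, Γ.IsPath x (p z ++ p (φ z)) y) →
    Set.InjOn φ Gl →
    Pa ⊆ W →
    (∀ z ∈ Pa, ι z ∈ Pa ∧ ι (ι z) = z ∧ Γ.Paired (p z) (p (ι z))) →
    (ρ = 0 ∨ (ρ = 1 ∧ ∃ z ∈ W, ∃ y, Γ.IsPath x0 (p z) y)) →
    κ * (∑ z ∈ W, ((p z).length : ℝ)) ≤
      A * ((W.card : ℝ) - Gl.card - ρ) + B * (∑ z ∈ W \ Pa, ((p z).length : ℝ)) + η * lam

end LG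

/-- A planar combinatorial map on the finite set `Ω` of darts: `φ` is the successor along faces,
`ι` is the opposite side of an edge; planarity is vanishing of the first `ZMod 2` cohomology. -/
structure PMap (δ : Type) where
  Ω : Finset δ
  φ : Equiv.Perm δ
  ι : Equiv.Perm δ
  φ_mem : ∀ z, φ z ∈ Ω ↔ z ∈ Ω
  ι_mem : ∀ z, ι z ∈ Ω ↔ z ∈ Ω
  ι_ι : ∀ z ∈ Ω, ι (ι z) = z
  ι_ne : ∀ z ∈ Ω, ι z ≠ z
  planar : ∀ g : δ → ZMod 2, (∀ z ∈ Ω, g (φ z) + g z = g (φ (ι z)) + g (ι z)) →
    ∃ h : δ → ZMod 2, ∀ z ∈ Ω, h (φ z) = h (ι z) ∧ h (ι z) + h z = g (φ z) + g z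

/-- The cubic graph of a map. -/
def PMap.graph {δ : Type} (M : PMap δ) : SimpleGraph δ :=
  SimpleGraph.fromRel (fun u v => u ∈ M.Ω ∧ (v = M.φ u ∨ v = M.ι u))

/-- A `K_{3,3}` minor model. -/
def HasK33 {δ : Type} (G : SimpleGraph δ) : Prop :=
  ∃ X : Bool × Fin 3 → Set δ,
    (∀ a, ∀ u ∈ X a, ∀ v ∈ X a,
      Relation.ReflTransGen (fun x y => G.Adj x y ∧ x ∈ X a ∧ y ∈ X a) u v) ∧
    (∀ a b, a ≠ b → Disjoint (X a) (X b)) ∧
    ∀ i j : Fin 3, ∃ u ∈ X (false, i), ∃ v ∈ X (true, j), G.Adj u v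

/-- A planar diagram over `Γ`: darts in `O` are outer, the other darts are lifted to oriented
edges of `Γ`, continuously along faces except at one possible break, after which the face
restarts at the root `x0`. -/
structure Diagram {V E S : Type} (Γ : LG V E S) (x0 : V) (δ : Type) extends PMap δ where
  O : Finset δ
  O_sub : O ⊆ Ω
  O_φ : ∀ z, φ z ∈ O ↔ z ∈ O
  Bk : Finset δ
  Bk_card : Bk.card ≤ 1
  e : δ → E × Bool
  ltr_ι : ∀ z ∈ Ω, z ∉ O → ι z ∉ O → Γ.ltr (e (ι z)) = rev (Γ.ltr (e z))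
  cont : ∀ z ∈ Ω, z ∉ O → z ∉ Bk → Γ.ter (e z) = Γ.ini (e (φ z))
  brk : ∀ z ∈ Bk, z ∈ Ω ∧ z ∉ O ∧ Γ.ini (e (φ z)) = x0

/-- Reduced diagrams. -/
def Diagram.IsReduced {V E S : Type} {Γ : LG V E S} {x0 : V} {δ : Type}
    (D : Diagram Γ x0 δ) : Prop :=
  (∀ z ∈ D.Ω, z ∉ D.O → z ∉ D.Bk → D.e (D.φ z) ≠ rev (D.e z)) ∧
  (∀ z ∈ D.Ω, z ∉ D.O → D.ι z ∉ D.O → D.e (D.ι z) ≠ rev (D.e z))

/-- The global linear isoperimetric inequality for reduced diagrams. -/
def LG.IsoIneq {V E S : Type} (Γ : LG V E S) (x0 : V) (C : ℕ) : Prop :=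
  ∀ (δ : Type) [DecidableEq δ] (D : Diagram Γ x0 δ), D.IsReduced →
    (D.Ω \ D.O).card ≤ C * D.O.card

/-- The frame from which the random graph is drawn: `E` are the flags (vertex, label) on side
`false`, `E'` the flags on side `true`; a matching is a colour preserving bijection `E ≃ E'`. -/
structure Frame (V E E' S : Type) where
  src : E → V
  tg : E' → V
  lab : E → S
  lab' : E' → S
  side : V → Bool
  srt : V → Bool
  side_src : ∀ e, side (src e) = false
  side_tg : ∀ e', side (tg e') = true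
  inj : ∀ e₁ e₂, src e₁ = src e₂ → lab e₁ = lab e₂ → e₁ = e₂
  inj' : ∀ e₁ e₂, tg e₁ = tg e₂ → lab' e₁ = lab' e₂ → e₁ = e₂

namespace Frame

variable {V E E' S : Type} (F : Frame V E E' S)

/-- Colour preserving bijections. -/
def IsMatching (β : E ≃ E') : Prop :=
  ∀ e, F.lab' (β e) = F.lab e ∧ F.srt (F.tg (β e)) = F.srt (F.src e)

/-- The labelled graph of a matching. -/
def graph (β : E ≃ E') : LG V E S := ⟨F.src, fun e => F.tg (β e), F.lab⟩

open Classical in
/-- Matchings of girth at least `g`. -/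
noncomputable def good [Fintype E] [Fintype E'] (g : ℕ) : Finset (E ≃ E') :=
  Finset.univ.filter fun β => F.IsMatching β ∧ (F.graph β).Girth g

open Classical in
/-- Counting data: colour classes have between `r` and `r'` elements on both sides, two labels
lie together at no more than `m` vertices of side `false` of each sort, and the pairs of labels
that meet at a vertex of side `true` lie in `D`. -/
structure Counts [Fintype V] [Fintype E] [Fintype E'] (r r' m : ℕ) (D : Finset (S × S)) :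
    Prop where
  eq : ∀ b s, (Finset.univ.filter fun e => F.srt (F.src e) = b ∧ F.lab e = s).card =
    (Finset.univ.filter fun e' => F.srt (F.tg e') = b ∧ F.lab' e' = s).card
  lower : ∀ b s, r ≤ (Finset.univ.filter fun e => F.srt (F.src e) = b ∧ F.lab e = s).card
  upper : ∀ b s, (Finset.univ.filter fun e => F.srt (F.src e) = b ∧ F.lab e = s).card ≤ r'
  pairs : ∀ b s t, s ≠ t → (Finset.univ.filter fun x => F.srt x = b ∧
    (∃ e, F.src e = x ∧ F.lab e = s) ∧ (∃ e, F.src e = x ∧ F.lab e = t)).card ≤ m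
  dirs : ∀ e₁ e₂, e₁ ≠ e₂ → F.tg e₁ = F.tg e₂ → (F.lab' e₁, F.lab' e₂) ∈ D

open Classical in
/-- Parity data: two vertices of side `false` share an odd number of labels, two vertices of side
`true` share an even number of labels except for the pair `(u0, u0)`. -/
structure Parity [Fintype E] [Fintype E'] (u0 x0 : V) : Prop where
  odd : ∀ x x', F.side x = false → F.side x' = false →
    Odd (Finset.univ.filter fun q : E × E =>
      F.src q.1 = x ∧ F.src q.2 = x' ∧ F.lab q.1 = F.lab q.2).card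
  even : ∀ y y', F.side y = true → F.side y' = true →
    (Odd (Finset.univ.filter fun q : E' × E' =>
      F.tg q.1 = y ∧ F.tg q.2 = y' ∧ F.lab' q.1 = F.lab' q.2).card ↔ (y = u0 ∧ y' = u0))
  side_u0 : F.side u0 = true
  srt_u0 : F.srt u0 = true
  side_x0 : F.side x0 = false
  srt_x0 : F.srt x0 = false

end Frame

/-- Edge chain of the path that reads `w` from `u` in the Cayley graph of `gen`; the edge `(u, s)`
goes from `u` to `u * gen s`. -/
noncomputable def pc {G S : Type} [Group G] (gen : S → G) : G → List (S × Bool) → (G × S) →₀ ℤ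
  | _, [] => 0
  | u, (s, true) :: w => Finsupp.single (u, s) 1 + pc gen (u * gen s) w
  | u, (s, false) :: w => Finsupp.single (u * (gen s)⁻¹, s) (-1) + pc gen (u * (gen s)⁻¹) w

/-- Boundary of an edge chain of the Cayley graph. -/
noncomputable def bd {G S : Type} [Group G] (gen : S → G) (z : (G × S) →₀ ℤ) : G →₀ ℤ :=
  z.sum fun x n => Finsupp.single (x.1 * gen x.2) n - Finsupp.single x.1 n

/-- Linear homological filling of loops of the Cayley graph by cycles of bounded diameter. -/
def HomFill {G S : Type} [Group G] (gen : S → G) (C ρ : ℕ) : Prop :=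
  ∀ w : List (S × Bool), FreeGroup.lift gen (FreeGroup.mk w) = 1 →
    ∃ (T : Finset G) (z : G → (G × S) →₀ ℤ),
      (∀ t ∈ T, bd gen (z t) = 0) ∧
      (∀ t ∈ T, ∀ x ∈ (z t).support, (SimpleGraph.mulCayley (Set.range gen)).dist t x.1 ≤ ρ) ∧
      (∑ t ∈ T, (z t).support.card) ≤ C * w.length ∧
      ∑ t ∈ T, z t = pc gen 1 w

end Vale.Agent.Kap
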