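import Vale.Agent.Kap.Defs

namespace Vale.Agent.Kap

open Finset

/-- The projective plane of order 64 on an arbitrary point set of the right size. -/
lemma des_plane (S : Type) [Fintype S] [DecidableEq S] (hS : Fintype.card S = 4161) :
    ∃ (L : Type) (_ : Fintype L) (ln : L → Finset S), Nonempty L ∧
      (∀ s, (univ.filter fun l => s ∈ ln l).card = 65) ∧
      (∀ l l', Odd (ln l ∩ ln l').card) ∧
      (∀ s t, s ≠ t → (univ.filter fun l => s ∈ ln l ∧ t ∈ ln l).card ≤ 1) := by
  classical
  let K := GaloisField 2 6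
  let P := Projectivization K (Fin 3 → K)
  have hK : Nat.card K = 64 := by
    have := GaloisField.card 2 6 (by norm_num)
    rw [this]; norm_num
  have hP : Nat.card P = 4161 := by
    have := Projectivization.card_of_finrank K (Fin 3 → K) (n := 3) (by simp)
    rw [this, hK]; norm_num [Finset.sum_range_succ]
  have : Finite P := Nat.finite_of_card_ne_zero (by rw [hP]; norm_num)
  let _ : Fintype P := Fintype.ofFinite P
  have hP' : Fintype.card P = 4161 := by rw [← Nat.card_eq_fintype_card, hP]
  have hord : Configuration.ProjectivePlane.order P P = 64 := by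
    have h := Configuration.ProjectivePlane.card_points P P
    rw [hP'] at h
    generalize Configuration.ProjectivePlane.order P P = n at h
    rcases lt_trichotomy n 64 with h1 | h1 | h1
    · nlinarith
    · exact h1
    · nlinarith
  let e : S ≃ P := Fintype.equivOfCardEq (by rw [hS, hP'])
  refine ⟨P, inferInstance, fun l => univ.filter fun s => e s ∈ l, ?_, ?_, ?_, ?_⟩
  · exact Fintype.card_pos_iff.1 (by rw [hP']; norm_num)
  · intro s
    have h := Configuration.ProjectivePlane.lineCount_eq P (e s)
    rw [hord, Configuration.lineCount, Nat.card_eq_fintype_card, Fintype.card_subtype] at h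
    simpa using h
  · intro l l'
    by_cases hl : l = l'
    · subst hl
      have h := Configuration.ProjectivePlane.pointCount_eq P l
      rw [hord, Configuration.pointCount, Nat.card_eq_fintype_card, Fintype.card_subtype] at h
      have h2 : (univ.filter fun s => e s ∈ l).card = (univ.filter fun p : P => p ∈ l).card :=
        Finset.card_equiv e (by simp)
      rw [inter_self, h2, h]
      decide
    · obtain ⟨p, hp, hu⟩ := Configuration.HasPoints.existsUnique_point P P l l' hl
      have : (univ.filter fun s => e s ∈ l) ∩ (univ.filter fun s => e s ∈ l') = {e.symm p} := by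
        ext s
        simp only [mem_inter, mem_filter, mem_univ, true_and, mem_singleton]
        constructor
        · intro h
          rw [← hu _ h, Equiv.symm_apply_apply]
        · rintro rfl
          simpa using hp
      rw [this, card_singleton]
      exact odd_one
  · intro s t hst
    rw [Finset.card_le_one]
    intro l hl l' hl'
    simp only [mem_filter, mem_univ, true_and] at hl hl'
    exact (Configuration.Nondegenerate.eq_or_eq hl.1 hl.2 hl'.1 hl'.2).resolve_left
      (fun h => hst (e.injective h))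

section OfTypes

variable {V S : Type} [Fintype V] [Fintype S] [DecidableEq S]

/-- The frame given by a type (a set of labels) at each vertex. -/
def desFrame (T : V → Finset S) (side srt : V → Bool) :
    Frame V {p : V × S // side p.1 = false ∧ p.2 ∈ T p.1}
      {p : V × S // side p.1 = true ∧ p.2 ∈ T p.1} S where
  src e := e.1.1
  tg e := e.1.1
  lab e := e.1.2
  lab' e := e.1.2
  side := side
  srt := srt
  side_src e := e.2.1
  side_tg e := e.2.1
  inj _ _ h1 h2 := Subtype.ext (Prod.ext h1 h2)
  inj' _ _ h1 h2 := Subtype.ext (Prod.ext h1 h2)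

omit [Fintype S] in
lemma des_count (T : V → Finset S) (side srt : V → Bool) (c b : Bool) (s : S)
    (W : Finset {p : V × S // side p.1 = c ∧ p.2 ∈ T p.1})
    (hW : ∀ e, e ∈ W ↔ srt e.1.1 = b ∧ e.1.2 = s) :
    W.card = (univ.filter fun v => side v = c ∧ srt v = b ∧ s ∈ T v).card := by
  refine Finset.card_bij (fun e _ => e.1.1) ?_ ?_ ?_
  · intro e he
    obtain ⟨h1, h2⟩ := (hW e).1 he
    exact mem_filter.2 ⟨mem_univ _, e.2.1, h1, h2 ▸ e.2.2⟩
  · intro e he e' he' h
    exact Subtype.ext (Prod.ext h (((hW e).1 he).2.trans ((hW e').1 he').2.symm))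
  · intro v hv
    obtain ⟨h1, h2, h3⟩ := (mem_filter.1 hv).2
    exact ⟨⟨(v, s), h1, h3⟩, (hW _).2 ⟨h2, rfl⟩, rfl⟩

omit [Fintype V] [Fintype S] in
lemma des_pairs (T : V → Finset S) (side : V → Bool) (c : Bool) (x x' : V)
    (hx : side x = c) (hx' : side x' = c)
    (W : Finset ({p : V × S // side p.1 = c ∧ p.2 ∈ T p.1} ×
      {p : V × S // side p.1 = c ∧ p.2 ∈ T p.1}))
    (hW : ∀ q, q ∈ W ↔ q.1.1.1 = x ∧ q.2.1.1 = x' ∧ q.1.1.2 = q.2.1.2) :
    W.card = (T x ∩ T x').card := by
  refine Finset.card_bij (fun q _ => q.1.1.2) ?_ ?_ ?_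
  · intro q hq
    obtain ⟨h1, h2, h3⟩ := (hW q).1 hq
    exact mem_inter.2 ⟨h1 ▸ q.1.2.2, h2 ▸ h3 ▸ q.2.2.2⟩
  · intro q hq q' hq' h
    obtain ⟨h1, h2, h3⟩ := (hW q).1 hq
    obtain ⟨h1', h2', h3'⟩ := (hW q').1 hq'
    exact Prod.ext (Subtype.ext (Prod.ext (h1.trans h1'.symm) h))
      (Subtype.ext (Prod.ext (h2.trans h2'.symm) (h3.symm.trans (h.trans h3'))))
  · intro s hs
    obtain ⟨h1, h2⟩ := mem_inter.1 hs
    exact ⟨(⟨(x, s), hx, h1⟩, ⟨(x', s), hx', h2⟩), (hW _).2 ⟨rfl, rfl, rfl⟩, rfl⟩

lemma des_mem {α : Type} [Fintype α] (p : α → Prop) (h : DecidablePred p) (a : α) :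
    a ∈ @Finset.filter α p h univ ↔ p a := by simp

omit [Fintype S] in
lemma des_of_types (T : V → Finset S) (side srt : V → Bool) (r r' m : ℕ) (D : Finset (S × S))
    [Fintype {p : V × S // side p.1 = false ∧ p.2 ∈ T p.1}]
    [Fintype {p : V × S // side p.1 = true ∧ p.2 ∈ T p.1}]
    (u0 x0 : V) (N : Bool → ℕ) (hN : ∀ b, r ≤ N b ∧ N b ≤ r')
    (h1 : ∀ c b s, (univ.filter fun v => side v = c ∧ srt v = b ∧ s ∈ T v).card = N b)
    (h2 : ∀ b s t, s ≠ t →
      (univ.filter fun v => side v = false ∧ srt v = b ∧ s ∈ T v ∧ t ∈ T v).card ≤ m)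
    (h3 : ∀ v s t, side v = true → s ∈ T v → t ∈ T v → s ≠ t → (s, t) ∈ D)
    (h4 : ∀ x x', side x = false → side x' = false → Odd (T x ∩ T x').card)
    (h5 : ∀ y y', side y = true → side y' = true →
      (Odd (T y ∩ T y').card ↔ (y = u0 ∧ y' = u0)))
    (h6 : side u0 = true ∧ srt u0 = true ∧ side x0 = false ∧ srt x0 = false) :
    (desFrame T side srt).Counts r r' m D ∧ (desFrame T side srt).Parity u0 x0 := by
  refine ⟨⟨fun b s => ?_, fun b s => ?_, fun b s => ?_, fun b s t hst => ?_, ?_⟩,
    ⟨fun x x' hx hx' => ?_, fun y y' hy hy' => ?_, h6.1, h6.2.1, h6.2.2.1, h6.2.2.2⟩⟩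
  · exact (des_count T side srt false b s _ (fun e => des_mem _ _ e)).trans
      ((h1 false b s).trans ((h1 true b s).symm.trans
        (des_count T side srt true b s _ (fun e => des_mem _ _ e)).symm))
  · exact (hN b).1.trans (le_of_eq ((des_count T side srt false b s _
      (fun e => des_mem _ _ e)).trans (h1 false b s)).symm)
  · exact (le_of_eq ((des_count T side srt false b s _
      (fun e => des_mem _ _ e)).trans (h1 false b s))).trans (hN b).2
  · refine le_trans (card_le_card fun v hv => ?_) (h2 b s t hst)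
    obtain ⟨h, ⟨e, he, hs⟩, ⟨e', he', ht⟩⟩ := (des_mem _ _ _).1 hv
    have he1 : e.1.1 = v := he
    have he2 : e'.1.1 = v := he'
    have hs1 : e.1.2 = s := hs
    have ht1 : e'.1.2 = t := ht
    exact mem_filter.2 ⟨mem_univ _, he1 ▸ e.2.1, h, he1 ▸ hs1 ▸ e.2.2, he2 ▸ ht1 ▸ e'.2.2⟩
  · intro e e' hne h
    have h' : e.1.1 = e'.1.1 := h
    refine h3 e.1.1 _ _ e.2.1 e.2.2 (h' ▸ e'.2.2) fun hl => hne ?_
    exact Subtype.ext (Prod.ext h' hl)
  · exact (congrArg Odd (des_pairs T side false x x' hx hx' _
      (fun q => des_mem _ _ q))).mpr (h4 x x' hx hx')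
  · exact (iff_of_eq (congrArg Odd (des_pairs T side true y y' hy hy' _
      (fun q => des_mem _ _ q)))).trans (h5 y y' hy hy')

end OfTypes

/-- Complements of the lines of the Fano plane. -/
def desFano (i : Fin 7) : Finset (Fin 7) := {i + 2, i + 4, i + 5, i + 6}

lemma desFano_count : ∀ j : Fin 7, (univ.filter fun i => j ∈ desFano i).card = 4 := by decide

lemma desFano_even : ∀ i j : Fin 7, ¬ Odd (desFano i ∩ desFano j).card := by decide

lemma desFano_card : ∀ i : Fin 7, ¬ Odd (desFano i).card := by decide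

abbrev DesS := Fin 7 ⊕ (Fin 2077 × Bool)

abbrev DesV (L : Type) (M : ℕ) :=
  (Σ b : Bool, L × Fin (4 * M + b.toNat)) ⊕
    ((Σ b : Bool, Fin 2077 × Fin (260 * M + 65 * b.toNat)) ⊕
      ((Σ b : Bool, Fin 7 × Fin (65 * M + 16 * b.toNat)) ⊕ Unit))

def desT {L : Type} {M : ℕ} (ln : L → Finset DesS) : DesV L M → Finset DesS
  | .inl v => ln v.2.1
  | .inr (.inl v) => {.inr (v.2.1, false), .inr (v.2.1, true)}
  | .inr (.inr (.inl v)) => (desFano v.2.1).map Function.Embedding.inl
  | .inr (.inr (.inr _)) => (univ : Finset (Fin 7)).map Function.Embedding.inl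

def desSide {L : Type} {M : ℕ} : DesV L M → Bool
  | .inl _ => false
  | .inr _ => true

def desSrt {L : Type} {M : ℕ} : DesV L M → Bool
  | .inl v => v.1
  | .inr (.inl v) => v.1
  | .inr (.inr (.inl v)) => v.1
  | .inr (.inr (.inr _)) => true

lemma des_sigma_count {A : Type} [Fintype A] (n : Bool → ℕ) (b : Bool) (P : A → Prop)
    [DecidablePred P] :
    (∑ v : (Σ b : Bool, A × Fin (n b)), if v.1 = b ∧ P v.2.1 then 1 else 0) =
      (univ.filter P).card * n b := by
  rw [Fintype.sum_sigma, Finset.sum_eq_single b]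
  · rw [Fintype.sum_prod_type, card_filter, Finset.sum_mul]
    refine Finset.sum_congr rfl fun a _ => ?_
    by_cases h : P a <;> simp [h]
  · intro b' _ h
    simp [h]
  · intro h; exact absurd (mem_univ _) h

lemma des_D (n : ℕ) : ∃ D : Finset ((Fin 7 ⊕ (Fin n × Bool)) × (Fin 7 ⊕ (Fin n × Bool))),
    D.card ≤ n * 2 + 42 ∧ (∀ i d, (Sum.inr (i, d), Sum.inr (i, !d)) ∈ D) ∧
      ∀ i j : Fin 7, i ≠ j → (Sum.inl i, Sum.inl j) ∈ D := by
  classical
  refine ⟨(univ.image fun p : Fin n × Bool => (Sum.inr p, Sum.inr (p.1, !p.2))) ∪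
      ((univ : Finset (Fin 7)).offDiag.image fun q => (Sum.inl q.1, Sum.inl q.2)), ?_, ?_, ?_⟩
  · refine (card_union_le _ _).trans (Nat.add_le_add (card_image_le.trans ?_)
      (card_image_le.trans ?_))
    · simp
    · rw [offDiag_card]; simp
  · intro i d
    exact mem_union_left _ (mem_image.2 ⟨(i, d), mem_univ _, rfl⟩)
  · intro i j h
    exact mem_union_right _ (mem_image.2 ⟨(i, j), mem_offDiag.2 ⟨mem_univ _, mem_univ _, h⟩, rfl⟩)

/-- The design built from the projective plane of order 64 and the Fano plane. -/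
theorem exists_design (M : ℕ) (hM : 1 ≤ M) :
    ∃ (V E E' S : Type) (_ : Fintype V) (_ : Fintype E) (_ : Fintype E') (_ : Fintype S)
      (F : Frame V E E' S) (D : Finset (S × S)) (u0 x0 : V),
      Fintype.card S = 4161 ∧ D.card ≤ 4196 ∧
      F.Counts (260 * M) (260 * M + 65) (4 * M + 1) D ∧ F.Parity u0 x0 := by
  classical
  have hS : Fintype.card DesS = 4161 := by simp
  obtain ⟨L, _, ln, ⟨l0⟩, hl1, hl2, hl3⟩ := des_plane DesS hS
  obtain ⟨D, hD, hD1, hoff⟩ := des_D 2077
  replace hD : D.card ≤ 4196 := hD
  refine ⟨DesV L M, _, _, DesS, inferInstance, inferInstance, inferInstance, inferInstance,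
    desFrame (desT ln) desSide desSrt, D, .inr (.inr (.inr ())),
    .inl ⟨false, l0, ⟨0, by omega⟩⟩, hS, hD, ?_⟩
  refine des_of_types (desT ln) desSide desSrt _ _ _ D _ _ (fun b => 260 * M + 65 * b.toNat)
    ?_ ?_ ?_ ?_ ?_ ?_ ⟨rfl, rfl, rfl, rfl⟩
  · intro b; cases b <;> simp
  · intro c b s
    rw [card_filter, Fintype.sum_sum_type, Fintype.sum_sum_type, Fintype.sum_sum_type]
    cases c
    · have := des_sigma_count (fun b => 4 * M + b.toNat) b (fun l => s ∈ ln l)
      rw [hl1] at this
      simp only [desSide, desSrt, desT, true_and, Bool.true_eq_false, false_and, if_false,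
        sum_const_zero, add_zero]
      rw [show 260 * M + 65 * b.toNat = 65 * (4 * M + b.toNat) by ring, ← this]
    · have h1 := des_sigma_count (fun b => 260 * M + 65 * b.toNat) b
        (fun i : Fin 2077 => s ∈ ({.inr (i, false), .inr (i, true)} : Finset DesS))
      have h2 := des_sigma_count (fun b => 65 * M + 16 * b.toNat) b
        (fun i : Fin 7 => s ∈ (desFano i).map (Function.Embedding.inl : Fin 7 ↪ DesS))
      simp only [desSide, desSrt, desT, true_and, Bool.false_eq_true, false_and, if_false,
        sum_const_zero, zero_add]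
      rw [h1, h2]
      rcases s with j | ⟨i, d⟩
      · have h3 : (univ.filter fun i : Fin 7 => (Sum.inl j : DesS) ∈
            (desFano i).map (Function.Embedding.inl : Fin 7 ↪ DesS)).card = 4 := by
          rw [← desFano_count j]
          refine congrArg Finset.card (Finset.filter_congr fun i _ => ?_)
          exact Finset.mem_map' _
        rw [h3]
        cases b <;> simp <;> ring
      · have h3 : (univ.filter fun i' : Fin 2077 => (Sum.inr (i, d) : DesS) ∈
            ({.inr (i', false), .inr (i', true)} : Finset DesS)) = {i} := by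
          ext i'
          cases d <;> simp [eq_comm]
        rw [h3]
        simp
  · intro b s t hst
    rw [card_filter, Fintype.sum_sum_type]
    have := des_sigma_count (fun b => 4 * M + b.toNat) b (fun l => s ∈ ln l ∧ t ∈ ln l)
    simp only [desSide, desSrt, desT, true_and, Bool.true_eq_false, false_and, if_false,
      sum_const_zero, add_zero]
    rw [this]
    have h1 := hl3 s t hst
    have h2 : b.toNat ≤ 1 := Bool.toNat_le b
    calc _ ≤ 1 * (4 * M + b.toNat) := Nat.mul_le_mul_right _ h1
      _ ≤ 4 * M + 1 := by omega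
  · rintro (v | v | v | v) s t hv hs ht hst
    · exact Bool.noConfusion hv
    · simp only [desT, mem_insert, mem_singleton] at hs ht
      rcases hs with rfl | rfl <;> rcases ht with rfl | rfl
      · exact absurd rfl hst
      · exact hD1 _ false
      · exact hD1 _ true
      · exact absurd rfl hst
    · simp only [desT, mem_map] at hs ht
      obtain ⟨i, -, rfl⟩ := hs
      obtain ⟨j, -, rfl⟩ := ht
      exact hoff i j fun h => hst (by rw [h])
    · simp only [desT, mem_map] at hs ht
      obtain ⟨i, -, rfl⟩ := hs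
      obtain ⟨j, -, rfl⟩ := ht
      exact hoff i j fun h => hst (by rw [h])
  · rintro (v | v) (v' | v') hv hv'
    · exact hl2 _ _
    · exact Bool.noConfusion hv'
    · exact Bool.noConfusion hv
    · exact Bool.noConfusion hv
  · have hdis : ∀ (i : Fin 2077) (A : Finset (Fin 7)),
        ({.inr (i, false), .inr (i, true)} : Finset DesS) ∩
          A.map (Function.Embedding.inl : Fin 7 ↪ DesS) = ∅ := by
      intro i A
      ext s
      rcases s with j | j <;> simp
    rintro (v | v | v | v) (v' | v' | v' | v') hv hv' <;>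
      first
        | exact Bool.noConfusion hv
        | exact Bool.noConfusion hv'
        | skip
    · simp only [desT, Sum.inr.injEq, reduceCtorEq, and_self, iff_false]
      by_cases h : v.2.1 = v'.2.1
      · rw [h, inter_self, card_pair (by simp)]; decide
      · have : ({.inr (v.2.1, false), .inr (v.2.1, true)} : Finset DesS) ∩
            {.inr (v'.2.1, false), .inr (v'.2.1, true)} = ∅ := by
          ext s
          simp only [mem_inter, mem_insert, mem_singleton, notMem_empty, iff_false]
          rintro ⟨rfl | rfl, h1 | h1⟩ <;> simp [h] at h1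
        rw [this]; decide
    · simp only [desT, hdis]; simp
    · simp only [desT, hdis]; simp
    · simp only [desT]; rw [inter_comm, hdis]; simp
    · simp only [desT, ← map_inter, card_map]; simp [desFano_even]
    · simp only [desT, ← map_inter, card_map, inter_univ]; simp [desFano_card]
    · simp only [desT]; rw [inter_comm, hdis]; simp
    · simp only [desT, ← map_inter, card_map, univ_inter]; simp [desFano_card]
    · simp only [desT, inter_self, card_map]; simp; decide

end Vale.Agent.Kap
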