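import Vale.Agent.Kap.DiagramDisk

namespace Vale.Agent.Kap

variable {V E S : Type} {Γ : LG V E S} {x0 : V} {C : ℕ}

/-- the closed planar map of a disc diagram -/
def Disk.closeMap {δ : Type} [DecidableEq δ] (D : Disk Γ δ) : PMap δ where
  Ω := D.Ω
  φ := D.φ * D.L.formPerm
  ι := D.ι
  φ_mem := D.close_mem (L₁ := []) rfl
  ι_mem := D.ι_mem
  ι_ι := D.ι_ι
  ι_ne := D.ι_ne
  planar := VKPlanar.planar fun a g ha hg => by
    obtain ⟨h, h1, h2, -⟩ := D.close_planar (L₁ := []) rfl a g ha (fun z hz _ => hg z hz) 0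
    exact ⟨h, fun z hz => ⟨h2 z hz (by simp), h1 z hz⟩⟩

lemma Disk.close_P {δ : Type} [DecidableEq δ] (D : Disk Γ δ) {z : δ} (hz : z ∈ D.Ω) :
    D.P ((D.φ * D.L.formPerm) z) = D.P (D.ι z) := by
  by_cases h : z ∈ D.L
  · rw [D.close_in (L₁ := []) rfl h]; exact D.P_L.formPerm D.nodup h
  · rw [D.close_out h, D.P_φ z hz h]

/-- the closed diagram whose outer face is the boundary of the disc -/
def Disk.outer {δ : Type} [DecidableEq δ] (D : Disk Γ δ) (x0 : V) : RD Γ x0 δ where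
  toPMap := D.closeMap
  O := D.L.toFinset
  O_sub := fun z hz => D.L_sub z (List.mem_toFinset.mp hz)
  O_φ := fun z => by
    change (D.φ * D.L.formPerm) z ∈ _ ↔ _
    simp [D.φ_mem_L]
  Bk := ∅
  Bk_card := by simp
  e := D.e
  ltr_ι := fun z hz h1 h2 => by
    rw [List.mem_toFinset] at h1 h2
    rw [← D.lb_e z hz h1, ← D.lb_ι z hz]
    exact (D.lb_e _ ((D.ι_mem z).mpr hz) h2).symm
  cont := fun z hz h1 _ => by
    rw [List.mem_toFinset] at h1
    change _ = Γ.ini (D.e ((D.φ * D.L.formPerm) z))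
    rw [D.close_out h1, D.cont z hz h1]
  brk := by simp
  lb := D.lb
  P := D.P
  lb_ι := D.lb_ι
  lb_e := fun z hz h => D.lb_e z hz (fun h' => h (List.mem_toFinset.mpr h'))
  P_ι := D.P_ι
  P_φ := fun z hz => D.close_P hz
  good := by simp

/-- Van Kampen lemma, part 1. -/
theorem fillBound_of_isoIneq (hF : Γ.Folded) (hB : Γ.Bip) (h : Γ.IsoIneq x0 C)
    {pos : V → Γ.Grp} (hpos : Γ.IsPos pos) : Γ.FillBound pos C := by
  classical
  intro w c hc
  rcases isEmpty_or_nonempty E with hE | ⟨⟨e₀⟩⟩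
  · rw [Finset.sum_eq_zero fun x _ => (hE.false x.2).elim]
    exact Nat.zero_le _
  obtain ⟨w₀, h1, h2⟩ := HasDisk.of_fill (e₀, true) hc
  obtain ⟨w', h3, h4⟩ := FreeGroup.Red.exact.mp h1
  obtain ⟨δ, D, -, rfl, h5⟩ := h2.red h3
  have h6 := (D.outer x0).norm_chain_le_of_iso hB h hpos
  have h7 : (D.outer x0).chain pos = -c := by
    rw [← h5 hpos, RD.chain, Disk.chain]
    refine Finset.sum_congr ?_ fun _ _ => rfl
    ext z
    simp [Disk.outer, Disk.closeMap]
  rw [h7] at h6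
  simp only [Finsupp.support_neg, Finsupp.neg_apply, Int.natAbs_neg] at h6
  refine h6.trans (Nat.mul_le_mul_left _ ?_)
  have h8 := FreeGroup.Red.length_le h4
  rw [List.length_map] at h8
  exact (List.toFinset_card_le D.L).trans h8

/-- Van Kampen lemma, part 2. -/
theorem rootInj_of_isoIneq (hF : Γ.Folded) (hB : Γ.Bip) (h : Γ.IsoIneq x0 C)
    (hx0 : ∀ e, Γ.tgt e ≠ x0) : Γ.RootInj x0 := by
  classical
  intro l y hl hy hyt h1
  obtain ⟨o, -⟩ : ∃ o : E × Bool, True := by
    cases hl with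
    | nil => exact absurd rfl hy
    | cons o _ => exact ⟨o, trivial⟩
  obtain ⟨c, hc⟩ := LG.vk_exists_fill (fun _ => 1) h1
  obtain ⟨w₀, h2, h3⟩ := HasDisk.of_fill o hc
  obtain ⟨w', h4, h5⟩ := FreeGroup.Red.exact.mp h2
  obtain ⟨l', hl', rfl⟩ := LG.vk_path_red hF hl h5
  obtain ⟨δ, D, -, h6, -⟩ := h3.red h4
  obtain ⟨e', he1, he2⟩ := vk_exists_relabel D.e D.nodup (l := l') (by
    simpa [LG.word] using congrArg List.length h6)
  have hlb : ∀ z ∈ D.L, D.lb z = Γ.ltr (e' z) := by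
    rw [LG.word, ← he1, List.map_map] at h6
    exact List.map_inj_left.mp h6
  have hlb' : ∀ z ∈ D.Ω, D.lb z = Γ.ltr (e' z) := fun z hz => by
    by_cases h2 : z ∈ D.L
    · exact hlb z h2
    · rw [he2 z h2, D.lb_e z hz h2]
  have hpath : LPath (fun z => Γ.ini (e' z)) (fun z => Γ.ter (e' z)) x0 D.L y := by
    rw [← LPath.map_iff e', he1]; exact LG.vk_isPath_iff.mp hl'
  have hne : D.L ≠ [] := by
    intro h0
    rw [h0] at hpath
    exact hy hpath.symm
  have hb : D.L.getLast hne ∈ D.L := List.getLast_mem hne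
  refine RD.false_of_break (δ := δ) hB h {
    toPMap := D.closeMap
    O := ∅
    O_sub := Finset.empty_subset _
    O_φ := by simp
    Bk := {D.L.getLast hne}
    Bk_card := by simp
    e := e'
    ltr_ι := fun z hz _ _ => by
      rw [← hlb' z hz, ← D.lb_ι z hz]
      exact (hlb' _ ((D.ι_mem z).mpr hz)).symm
    cont := fun z hz _ h1 => by
      change _ = Γ.ini (e' ((D.φ * D.L.formPerm) z))
      by_cases h2 : z ∈ D.L
      · rw [D.close_in (L₁ := []) rfl h2]
        exact (hpath.formPerm_ne D.nodup hne h2 (by simpa using h1)).symm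
      · rw [D.close_out h2, he2 z h2, he2 _ (fun h => h2 ((D.φ_mem_L z).mp h)), D.cont z hz h2]
    brk := fun z hz => by
      rw [Finset.mem_singleton] at hz
      subst hz
      refine ⟨D.L_sub _ hb, by simp, ?_⟩
      change Γ.ini (e' ((D.φ * D.L.formPerm) _)) = x0
      rw [D.close_in (L₁ := []) rfl hb]
      exact hpath.formPerm_last hne
    lb := D.lb
    P := D.P
    lb_ι := D.lb_ι
    lb_e := fun z hz _ => hlb' z hz
    P_ι := D.P_ι
    P_φ := fun z hz => D.close_P hz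
    good := fun z hz => by
      rw [Finset.mem_singleton] at hz
      subst hz
      rw [hpath.getLast hne]
      exact ⟨hy, hyt, hx0⟩ } rfl (Finset.singleton_nonempty _)

end Vale.Agent.Kap
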