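import Vale.Agent.Kap.Defs

/-! Basic lemmas for the van Kampen lemma: letters, paths, lists of darts, surgery permutations. -/

namespace Vale.Agent.Kap

open Equiv

@[simp] lemma vk_rev_rev {E : Type} (o : E × Bool) : rev (rev o) = o := by simp [rev]

lemma vk_z2 (x : ZMod 2) : x + x = 0 := by revert x; decide

/-- `LPath s t x L y`: the darts of `L` form a chain from `x` to `y` for source `s`, target `t`. -/
def LPath {δ X : Type} (s t : δ → X) : X → List δ → X → Prop
  | x, [], y => x = y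
  | x, z :: L, y => s z = x ∧ LPath s t (t z) L y

namespace LPath

variable {δ δ' X : Type} {s t s' t' : δ → X}

@[simp] lemma nil_iff {x y : X} : LPath s t x [] y ↔ x = y := Iff.rfl

@[simp] lemma cons_iff {x y : X} {z : δ} {L : List δ} :
    LPath s t x (z :: L) y ↔ s z = x ∧ LPath s t (t z) L y := Iff.rfl

lemma append_iff {x y : X} {L₁ L₂ : List δ} :
    LPath s t x (L₁ ++ L₂) y ↔ ∃ m, LPath s t x L₁ m ∧ LPath s t m L₂ y := by
  induction L₁ generalizing x with
  | nil => simp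
  | cons z L ih => simp [ih, and_assoc]

lemma congr {x y : X} {L : List δ} (h : LPath s t x L y) (hs : ∀ z ∈ L, s' z = s z)
    (ht : ∀ z ∈ L, t' z = t z) : LPath s' t' x L y := by
  induction L generalizing x with
  | nil => exact h
  | cons z L ih =>
    refine ⟨(hs z (by simp)).trans h.1, ?_⟩
    rw [ht z (by simp)]
    exact ih h.2 (fun v hv => hs v (by simp [hv])) (fun v hv => ht v (by simp [hv]))

lemma map_iff {x y : X} {L : List δ'} (f : δ' → δ) :
    LPath s t x (L.map f) y ↔ LPath (fun z => s (f z)) (fun z => t (f z)) x L y := by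
  induction L generalizing x with
  | nil => simp
  | cons z L ih => simp [ih]

lemma getElem_succ {x y : X} {L : List δ} (h : LPath s t x L y) (i : ℕ) (hi : i + 1 < L.length) :
    s L[i + 1] = t L[i] := by
  induction L generalizing x i with
  | nil => simp at hi
  | cons z L ih =>
    cases L with
    | nil => simp at hi
    | cons z' L =>
      cases i with
      | zero => exact h.2.1
      | succ i => exact ih h.2 i (by simpa using hi)

lemma getLast {x y : X} {L : List δ} (h : LPath s t x L y) (hL : L ≠ []) :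
    t (L.getLast hL) = y := by
  induction L generalizing x with
  | nil => exact absurd rfl hL
  | cons z L ih =>
    cases L with
    | nil => exact h.2
    | cons z' L => exact ih h.2 (by simp)

lemma formPerm_ne [DecidableEq δ] {x y : X} {L : List δ} (h : LPath s t x L y) (hn : L.Nodup)
    (hL : L ≠ []) {z : δ} (hz : z ∈ L) (hz' : z ≠ L.getLast hL) : s (L.formPerm z) = t z := by
  obtain ⟨i, hi, rfl⟩ := List.getElem_of_mem hz
  have hi' : i + 1 < L.length := by
    by_contra hc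
    apply hz'
    rw [List.getLast_eq_getElem]
    congr 1
    omega
  rw [List.formPerm_apply_lt_getElem L hn i hi', h.getElem_succ i hi']

lemma formPerm_last [DecidableEq δ] {x y : X} {L : List δ} (h : LPath s t x L y)
    (hL : L ≠ []) : s (L.formPerm (L.getLast hL)) = x := by
  cases L with
  | nil => exact absurd rfl hL
  | cons z L => rw [List.formPerm_apply_getLast]; exact h.1

lemma formPerm [DecidableEq δ] {x : X} {L : List δ} (h : LPath s t x L x) (hn : L.Nodup)
    {z : δ} (hz : z ∈ L) : s (L.formPerm z) = t z := by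
  have hL : L ≠ [] := List.ne_nil_of_mem hz
  by_cases hz' : z = L.getLast hL
  · rw [hz', h.formPerm_last hL, h.getLast hL]
  · exact h.formPerm_ne hn hL hz hz'

lemma sum_eq {a : δ → ZMod 2} {h k : δ → ZMod 2} {x y : ZMod 2} {L : List δ}
    (hp : LPath h k x L y) (hk : ∀ z ∈ L, k z = h z + a z) : y = x + (L.map a).sum := by
  induction L generalizing x with
  | nil => simpa using hp.symm
  | cons z L ih =>
    rw [ih hp.2 (fun v hv => hk v (by simp [hv])), hk z (by simp), hp.1]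
    simp [add_assoc]

end LPath

lemma vk_exists_relabel {δ X : Type} (e : δ → X) {L : List δ} (hn : L.Nodup) {l : List X}
    (hl : L.length = l.length) : ∃ e' : δ → X, L.map e' = l ∧ ∀ z, z ∉ L → e' z = e z := by
  classical
  induction L generalizing l with
  | nil => exact ⟨e, by simpa using List.length_eq_zero_iff.mp hl.symm, fun _ _ => rfl⟩
  | cons z L ih =>
    cases l with
    | nil => simp at hl
    | cons o l =>
      rw [List.nodup_cons] at hn
      obtain ⟨e', h1, h2⟩ := ih hn.2 (l := l) (by simpa using hl)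
      refine ⟨Function.update e' z o, ?_, fun v hv => ?_⟩
      · simp only [List.map_cons, Function.update_self, List.cons.injEq, true_and]
        rw [← h1]
        refine List.map_congr_left fun v hv => Function.update_of_ne ?_ _ _
        rintro rfl
        exact hn.1 hv
      · simp only [List.mem_cons, not_or] at hv
        rw [Function.update_of_ne hv.1, h2 v hv.2]

namespace LG

variable {V E S : Type} {Γ : LG V E S}

@[simp] lemma vk_ini_rev (o : E × Bool) : Γ.ini (rev o) = Γ.ter o := by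
  rcases o with ⟨e, _ | _⟩ <;> rfl

@[simp] lemma vk_ter_rev (o : E × Bool) : Γ.ter (rev o) = Γ.ini o := by
  rcases o with ⟨e, _ | _⟩ <;> rfl

@[simp] lemma vk_ltr_rev (o : E × Bool) : Γ.ltr (rev o) = rev (Γ.ltr o) := rfl

lemma vk_isPath_iff {x y : V} {l : List (E × Bool)} : Γ.IsPath x l y ↔ LPath Γ.ini Γ.ter x l y := by
  constructor
  · intro h
    induction h with
    | nil x => rfl
    | cons o _ ih => exact ⟨rfl, ih⟩
  · intro h
    induction l generalizing x with
    | nil => cases h; exact IsPath.nil _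
    | cons o l ih => obtain ⟨rfl, h2⟩ := h; exact IsPath.cons o (ih h2)

lemma vk_isPath_invRev {x y : V} {l : List (E × Bool)} (h : Γ.IsPath x l y) :
    Γ.IsPath y (FreeGroup.invRev l) x := by
  induction h with
  | nil x => exact IsPath.nil x
  | cons o _ ih =>
    rw [FreeGroup.invRev_cons, vk_isPath_iff, LPath.append_iff]
    exact ⟨_, vk_isPath_iff.mp ih, vk_ini_rev o, vk_ter_rev o⟩

lemma vk_word_invRev (l : List (E × Bool)) :
    Γ.word (FreeGroup.invRev l) = FreeGroup.invRev (Γ.word l) := by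
  simp [word, FreeGroup.invRev, List.map_reverse, Function.comp_def, ltr]

variable (Γ) in
/-- the value of a letter in the group -/
def lv (s : S × Bool) : Γ.Grp := Γ.proj (FreeGroup.mk [s])

lemma vk_lv_mul_rev (s : S × Bool) : Γ.lv s * Γ.lv (rev s) = 1 := by
  rw [lv, lv, ← map_mul]
  have : FreeGroup.mk [rev s] = (FreeGroup.mk [s])⁻¹ := rfl
  rw [this, mul_inv_cancel, map_one]

lemma vk_proj_cons (s : S × Bool) (w : List (S × Bool)) :
    Γ.proj (FreeGroup.mk (s :: w)) = Γ.lv s * Γ.proj (FreeGroup.mk w) := by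
  rw [lv, ← map_mul]; rfl

lemma vk_pos_ter {pos : V → Γ.Grp} (hpos : Γ.IsPos pos) (o : E × Bool) :
    pos (Γ.ter o) = pos (Γ.ini o) * Γ.lv (Γ.ltr o) := by
  rcases o with ⟨e, _ | _⟩
  · have h1 := hpos e
    have h2 := vk_lv_mul_rev (Γ := Γ) (Γ.lab e, true)
    change pos (Γ.src e) = pos (Γ.tgt e) * Γ.lv (rev (Γ.lab e, true))
    change pos (Γ.tgt e) = pos (Γ.src e) * Γ.lv (Γ.lab e, true) at h1
    rw [h1, mul_assoc, h2, mul_one]
  · exact hpos e

lemma vk_proj_closed {x : V} {l : List (E × Bool)} (h : Γ.IsPath x l x) :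
    Γ.proj (FreeGroup.mk (Γ.word l)) = 1 :=
  PresentedGroup.one_of_mem ⟨x, l, h, rfl⟩

lemma vk_lpath_proj {δ : Type} {P Q : δ → Γ.Grp} {lb : δ → S × Bool} {L : List δ} {p q : Γ.Grp}
    (h : LPath P Q p L q) (hQ : ∀ z ∈ L, Q z = P z * Γ.lv (lb z)) :
    q = p * Γ.proj (FreeGroup.mk (L.map lb)) := by
  induction L generalizing p with
  | nil => cases h; simp [← FreeGroup.one_eq_mk]
  | cons z L ih =>
    rw [ih h.2 (fun v hv => hQ v (by simp [hv])), hQ z (by simp), h.1, List.map_cons,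
      vk_proj_cons, mul_assoc]

variable (Γ) in
/-- the contribution of a dart to the chain -/
noncomputable def term (pos : V → Γ.Grp) (p : Γ.Grp) (o : E × Bool) : (Γ.Grp × E) →₀ ℤ :=
  Finsupp.single (p * (pos (Γ.ini o))⁻¹, o.1) (if o.2 = true then (1 : ℤ) else -1)

lemma vk_term_rev {pos : V → Γ.Grp} (hpos : Γ.IsPos pos) (p : Γ.Grp) (o : E × Bool) :
    Γ.term pos p o + Γ.term pos (p * Γ.lv (Γ.ltr o)) (rev o) = 0 := by
  simp only [term, vk_ini_rev, vk_pos_ter hpos o, mul_inv_rev, mul_assoc, mul_inv_cancel_left]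
  rcases o with ⟨e, _ | _⟩ <;> simp [rev, ← Finsupp.single_add]

lemma vk_ch_eq {pos : V → Γ.Grp} (hpos : Γ.IsPos pos) {δ : Type} {P Q : δ → Γ.Grp}
    {e : δ → E × Bool} {L : List δ} {p q : Γ.Grp} {x y : V} (h : LPath P Q p L q)
    (hQ : ∀ z ∈ L, Q z = P z * Γ.lv (Γ.ltr (e z))) (hl : Γ.IsPath x (L.map e) y) :
    (L.map fun z => Γ.term pos (P z) (e z)).sum = Γ.ch (p * (pos x)⁻¹) (L.map e) := by
  rw [vk_isPath_iff] at hl
  induction L generalizing p x with
  | nil => simp [ch]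
  | cons z L ih =>
    obtain ⟨h1, h2⟩ := h
    obtain ⟨h3, h4⟩ := hl
    have := ih h2 (fun v hv => hQ v (by simp [hv])) h4
    rw [hQ z (by simp), vk_pos_ter hpos, mul_inv_rev, mul_assoc, mul_inv_cancel_left] at this
    subst h1 h3
    rw [List.map_cons, List.sum_cons, this]
    simp only [List.map_cons, List.sum_cons, ch, term]

lemma vk_ch_invRev (t : Γ.Grp) (l : List (E × Bool)) :
    Γ.ch t (FreeGroup.invRev l) = -Γ.ch t l := by
  induction l with
  | nil => simp [ch]
  | cons o l ih =>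
    rw [FreeGroup.invRev_cons]
    simp only [ch, List.map_append, List.sum_append, List.map_cons, List.sum_cons] at ih ⊢
    rw [ih]
    rcases o with ⟨e, _ | _⟩ <;> simp [FreeGroup.invRev, Finsupp.single_neg] <;> abel

lemma vk_fill_inv {pos : V → Γ.Grp} {f : FreeGroup S} {c : (Γ.Grp × E) →₀ ℤ}
    (h : Γ.Fill pos f c) : ∃ c', Γ.Fill pos f⁻¹ c' := by
  induction h with
  | one => exact ⟨0, by simpa using Fill.one⟩
  | rel u x l h =>
    have := Fill.rel (pos := pos) u x _ (vk_isPath_invRev h)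
    rw [vk_word_invRev, ← FreeGroup.inv_mk] at this
    exact ⟨_, by simpa [mul_assoc] using this⟩
  | mul _ _ ih1 ih2 =>
    obtain ⟨c1, h1⟩ := ih1
    obtain ⟨c2, h2⟩ := ih2
    exact ⟨_, by simpa using Fill.mul h2 h1⟩

lemma vk_exists_fill (pos : V → Γ.Grp) {f : FreeGroup S} (h : Γ.proj f = 1) :
    ∃ c, Γ.Fill pos f c := by
  have h' : f ∈ Subgroup.normalClosure Γ.rels := PresentedGroup.mk_eq_one_iff.mp h
  induction h' using Subgroup.closure_induction with
  | mem f hf =>
    obtain ⟨r, ⟨x, l, hl, rfl⟩, hc⟩ := Group.mem_conjugatesOfSet_iff.mp hf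
    obtain ⟨u, rfl⟩ := isConj_iff.mp hc
    exact ⟨_, Fill.rel u x l hl⟩
  | one => exact ⟨0, Fill.one⟩
  | mul f g _ _ ih1 ih2 =>
    obtain ⟨c1, h1⟩ := ih1 (PresentedGroup.mk_eq_one_iff.mpr ‹f ∈ _›)
    obtain ⟨c2, h2⟩ := ih2 (PresentedGroup.mk_eq_one_iff.mpr ‹g ∈ _›)
    exact ⟨_, Fill.mul h1 h2⟩
  | inv f _ ih =>
    obtain ⟨c1, h1⟩ := ih (PresentedGroup.mk_eq_one_iff.mpr ‹f ∈ _›)
    exact vk_fill_inv h1

lemma vk_eq_rev (hF : Γ.Folded) {o o' : E × Bool} (h1 : Γ.ter o = Γ.ini o')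
    (h2 : Γ.ltr o' = rev (Γ.ltr o)) : o' = rev o := by
  rcases o with ⟨e, b⟩
  rcases o' with ⟨e', b'⟩
  simp only [ltr, rev, Prod.mk.injEq] at h2 ⊢
  obtain ⟨h3, rfl⟩ := h2
  refine ⟨?_, rfl⟩
  cases b
  · exact hF.1 _ _ h1.symm h3
  · exact hF.2 _ _ h1.symm h3

lemma vk_path_step (hF : Γ.Folded) {x y : V} {l : List (E × Bool)} (h : Γ.IsPath x l y)
    {w w' : List (S × Bool)} (hw : Γ.word l = w) (hs : FreeGroup.Red.Step w w') :
    ∃ l', Γ.IsPath x l' y ∧ Γ.word l' = w' := by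
  cases hs with
  | @not L₁ L₂ s b =>
    obtain ⟨l₁, l₂, rfl, h1, h2⟩ := List.map_eq_append_iff.mp hw
    obtain ⟨o, l₃, rfl, h3, h4⟩ := List.map_eq_cons_iff.mp h2
    obtain ⟨o', l₄, rfl, h5, h6⟩ := List.map_eq_cons_iff.mp h4
    rw [vk_isPath_iff, LPath.append_iff] at h
    obtain ⟨m, h7, h8, h9, h10⟩ := h
    have := vk_eq_rev hF h9.symm (by rw [h3, h5]; rfl)
    subst this
    refine ⟨l₁ ++ l₄, ?_, by simp [word, h1, h6]⟩
    rw [vk_isPath_iff, LPath.append_iff]
    rw [vk_ter_rev, h8] at h10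
    exact ⟨m, h7, h10⟩

lemma vk_path_red (hF : Γ.Folded) {x y : V} {l : List (E × Bool)} (h : Γ.IsPath x l y)
    {w' : List (S × Bool)} (hs : FreeGroup.Red (Γ.word l) w') :
    ∃ l', Γ.IsPath x l' y ∧ Γ.word l' = w' := by
  induction hs with
  | refl => exact ⟨l, h, rfl⟩
  | tail _ h2 ih =>
    obtain ⟨l', h3, h4⟩ := ih
    exact vk_path_step hF h3 h4 h2

end LG

section Surgery

variable {δ : Type} [DecidableEq δ]

lemma vk_swap_iff {p : δ → Prop} {a b : δ} (h : p a ↔ p b) (x : δ) : p (swap a b x) ↔ p x := by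
  rw [swap_apply_def]
  split_ifs with h1 h2
  · rw [h1]; exact h.symm
  · rw [h2]; exact h
  · rfl

/-- the opposite-side involution after gluing `ι z` to `ι w` -/
def glue (ι : Perm δ) (z w : δ) : Perm δ := swap w (ι z) * ι * swap w (ι z)

/-- the face permutation after removing `z` and `w` -/
def skip (φ : Perm δ) (z w : δ) : Perm δ := swap z (φ w) * swap w (φ z) * φ

lemma skip_left {φ : Perm δ} {z w : δ} (hzw : z ≠ w) (hw : φ w ≠ w) : skip φ z w z = w := by
  simp only [skip, Perm.mul_apply, swap_apply_right]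
  exact swap_apply_of_ne_of_ne hzw.symm hw.symm

lemma skip_right {φ : Perm δ} {z w : δ} (hzw : z ≠ w) (hw : φ w ≠ w) : skip φ z w w = z := by
  simp only [skip, Perm.mul_apply]
  rw [swap_apply_of_ne_of_ne hw (fun h => hzw (φ.injective h).symm), swap_apply_right]

lemma skip_apply {φ : Perm δ} {z w v : δ} (hzw : z ≠ w) (hz : φ z ≠ z) (hvz : v ≠ z)
    (hvw : v ≠ w) : skip φ z w v = if φ v = z then φ w else if φ v = w then φ z else φ v := by
  simp only [skip, Perm.mul_apply]
  split_ifs with h1 h2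
  · rw [h1, swap_apply_of_ne_of_ne hzw hz.symm, swap_apply_left]
  · rw [h2, swap_apply_left, swap_apply_of_ne_of_ne hz (fun h => hzw (φ.injective h))]
  · rw [swap_apply_of_ne_of_ne h2 (fun h => hvz (φ.injective h)),
      swap_apply_of_ne_of_ne h1 (fun h => hvw (φ.injective h))]

lemma skip_iff {φ : Perm δ} {z w : δ} {p : δ → Prop} (hp : ∀ v, p (φ v) ↔ p v) (h : p z ↔ p w)
    (v : δ) : p (skip φ z w v) ↔ p v := by
  simp only [skip, Perm.mul_apply]
  rw [vk_swap_iff (p := p) (by rw [hp]; exact h), vk_swap_iff (p := p) (by rw [hp]; exact h.symm),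
    hp]

lemma skip_fun {X : Type} {φ : Perm δ} {z w v : δ} (hzw : z ≠ w) (hz : φ z ≠ z) (hvz : v ≠ z)
    (hvw : v ≠ w) {k : δ → X} (h1 : k (φ w) = k z) (h2 : k (φ z) = k w) :
    k (skip φ z w v) = k (φ v) := by
  rw [skip_apply hzw hz hvz hvw]
  split_ifs with h3 h4
  · rw [h1, h3]
  · rw [h2, h4]
  · rfl

variable {Ω : Finset δ} {ι : Perm δ} {z w : δ}

lemma glue_iff {p : δ → Prop} (hp : ∀ v, p (ι v) ↔ p v) (h : p z ↔ p w) (v : δ) :
    p (glue ι z w v) ↔ p v := by
  have h' : p w ↔ p (ι z) := by rw [hp]; exact h.symm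
  simp only [glue, Perm.mul_apply]
  rw [vk_swap_iff h', hp, vk_swap_iff h']

lemma glue_glue (hm : ∀ v, ι v ∈ Ω ↔ v ∈ Ω) (hι : ∀ v ∈ Ω, ι (ι v) = v) (hz : z ∈ Ω) (hw : w ∈ Ω)
    {v : δ} (hv : v ∈ Ω) : glue ι z w (glue ι z w v) = v := by
  simp only [glue, Perm.mul_apply, swap_apply_self]
  rw [hι _ ((vk_swap_iff (p := (· ∈ Ω)) (by simp [hw, hm, hz]) v).mpr hv), swap_apply_self]

lemma glue_ne (hm : ∀ v, ι v ∈ Ω ↔ v ∈ Ω) (hne : ∀ v ∈ Ω, ι v ≠ v) (hz : z ∈ Ω) (hw : w ∈ Ω)
    {v : δ} (hv : v ∈ Ω) : glue ι z w v ≠ v := by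
  intro h
  simp only [glue, Perm.mul_apply] at h
  rw [swap_apply_eq_iff] at h
  exact hne _ ((vk_swap_iff (p := (· ∈ Ω)) (by simp [hw, hm, hz]) v).mpr hv) h

lemma glue_left (hne : ι z ≠ z) (hzw : z ≠ w) : glue ι z w z = w := by
  simp only [glue, Perm.mul_apply]
  rw [swap_apply_of_ne_of_ne hzw hne.symm, swap_apply_right]

lemma glue_right (hι : ι (ι z) = z) (hne : ι z ≠ z) (hzw : z ≠ w) : glue ι z w w = z := by
  simp only [glue, Perm.mul_apply, swap_apply_left, hι]
  exact swap_apply_of_ne_of_ne hzw hne.symm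

lemma glue_apply (hι : ∀ v ∈ Ω, ι (ι v) = v) (hne : ∀ v ∈ Ω, ι v ≠ v) (hw : w ∈ Ω)
    (hzw : z ≠ w) {v : δ} (hv : v ∈ Ω) (hvz : v ≠ z) (hvw : v ≠ w) :
    glue ι z w v = if v = ι z then ι w else if v = ι w then ι z else ι v := by
  simp only [glue, Perm.mul_apply]
  split_ifs with h1 h2
  · rw [h1, swap_apply_right, swap_apply_of_ne_of_ne (hne w hw) (fun h => hzw (ι.injective h).symm)]
  · rw [swap_apply_of_ne_of_ne hvw h1, h2, hι w hw, swap_apply_left]
  · rw [swap_apply_of_ne_of_ne hvw h1, swap_apply_of_ne_of_ne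
      (fun h => h2 (by rw [← h, hι v hv])) (fun h => hvz (ι.injective h))]

lemma glue_fun {X : Type} (hι : ∀ v ∈ Ω, ι (ι v) = v) (hne : ∀ v ∈ Ω, ι v ≠ v) (hz : z ∈ Ω)
    (hw : w ∈ Ω) (hzw : z ≠ w) {v : δ} (hv : v ∈ Ω) (hvz : v ≠ z) (hvw : v ≠ w) {k : δ → X}
    (h1 : k (ι w) = k z) (h2 : k (ι z) = k w) : k (glue ι z w v) = k (ι v) := by
  rw [glue_apply hι hne hw hzw hv hvz hvw]
  split_ifs with h3 h4
  · rw [h1, h3, hι z hz]
  · rw [h2, h4, hι w hw]
  · rfl

lemma vk_mem_erase_iff {π : Perm δ} (hm : ∀ v, π v ∈ Ω ↔ v ∈ Ω) (h1 : π z = w) (h2 : π w = z)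
    (v : δ) : π v ∈ (Ω.erase z).erase w ↔ v ∈ (Ω.erase z).erase w := by
  have e1 : π v = w ↔ v = z := by rw [← h1]; exact π.injective.eq_iff
  have e2 : π v = z ↔ v = w := by rw [← h2]; exact π.injective.eq_iff
  simp only [Finset.mem_erase, ne_eq, e1, e2, hm]
  tauto

/-- extension of an edge function over a glued pair -/
lemma glue_extend (hm : ∀ v, ι v ∈ Ω ↔ v ∈ Ω) (hι : ∀ v ∈ Ω, ι (ι v) = v)
    (hne : ∀ v ∈ Ω, ι v ≠ v) (hz : z ∈ Ω) (hw : w ∈ Ω) (hzw : z ≠ w) {X : Type} {a : δ → X}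
    (ha : ∀ v ∈ (Ω.erase z).erase w, a (glue ι z w v) = a v) (t : X)
    (ht : ι z = w ∨ t = a (ι z)) {v : δ} (hv : v ∈ Ω) :
    (fun v => if v = z ∨ v = w then t else a v) (ι v) =
      (fun v => if v = z ∨ v = w then t else a v) v := by
  have hzz := hι z hz
  have hww := hι w hw
  by_cases hc : ι z = w
  · have hc' : ι w = z := by rw [← hc, hzz]
    by_cases h1 : v = z
    · simp [h1, hc]
    by_cases h2 : v = w
    · simp [h2, hc']
    have h3 : ι v ≠ z := fun h => h2 (ι.injective (h.trans hc'.symm))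
    have h4 : ι v ≠ w := fun h => h1 (ι.injective (h.trans hc.symm))
    have h5 := ha v (by simp [h1, h2, hv])
    rw [glue_apply hι hne hw hzw hv h1 h2, hc, hc', if_neg h2, if_neg h1] at h5
    simp [h1, h2, h3, h4, h5]
  · have ht' : t = a (ι z) := ht.resolve_left hc
    have hc' : ι w ≠ z := fun h => hc (by rw [← h, hww])
    have hzn := hne z hz
    have hwn := hne w hw
    have key : a (ι w) = a (ι z) := by
      have h5 := ha (ι z) (by simp [hc, hzn, hm, hz])
      rwa [glue_apply hι hne hw hzw ((hm z).mpr hz) hzn hc, if_pos rfl] at h5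
    by_cases h1 : v = z
    · simp [h1, hc, hzn, ht']
    by_cases h2 : v = w
    · simp [h2, hc', hwn, ht', key]
    by_cases h3 : v = ι z
    · subst h3; simp [hzz, hc, hzn, ht']
    by_cases h4 : v = ι w
    · subst h4; simp [hww, hc', hwn, ht', key]
    have h6 : ι v ≠ z := fun h => h3 (by rw [← h, hι v hv])
    have h7 : ι v ≠ w := fun h => h4 (by rw [← h, hι v hv])
    have h5 := ha v (by simp [h1, h2, hv])
    rw [glue_apply hι hne hw hzw hv h1 h2, if_neg h3, if_neg h4] at h5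
    simp [h1, h2, h6, h7, h5]

end Surgery

end Vale.Agent.Kap
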