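import Vale.Agent.Kap.DiagramRed

/-! Disc diagrams: the outer boundary is a list of darts. -/

namespace Vale.Agent.Kap

open Equiv

variable {V E S : Type}

/-- Disc diagrams with boundary list `L`. -/
structure Disk (Γ : LG V E S) (δ : Type) where
  Ω : Finset δ
  φ : Perm δ
  ι : Perm δ
  L : List δ
  base : Γ.Grp
  e : δ → E × Bool
  lb : δ → S × Bool
  P : δ → Γ.Grp
  nodup : L.Nodup
  L_sub : ∀ z ∈ L, z ∈ Ω
  φ_fix : ∀ z ∈ L, φ z = z
  φ_mem : ∀ z, φ z ∈ Ω ↔ z ∈ Ω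
  ι_mem : ∀ z, ι z ∈ Ω ↔ z ∈ Ω
  ι_ι : ∀ z ∈ Ω, ι (ι z) = z
  ι_ne : ∀ z ∈ Ω, ι z ≠ z
  planar : ∀ a g : δ → ZMod 2, (∀ z ∈ Ω, a (ι z) = a z) →
    (∀ z ∈ Ω, z ∉ L → g (φ z) = g z + a z) → ∀ t, ∃ h : δ → ZMod 2,
      (∀ z ∈ Ω, h (ι z) = h z + a z) ∧ (∀ z ∈ Ω, z ∉ L → h (φ z) = h (ι z)) ∧
        LPath h (fun z => h (ι z)) t L t
  lb_ι : ∀ z ∈ Ω, lb (ι z) = rev (lb z)
  lb_e : ∀ z ∈ Ω, z ∉ L → lb z = Γ.ltr (e z)
  cont : ∀ z ∈ Ω, z ∉ L → Γ.ter (e z) = Γ.ini (e (φ z))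
  P_ι : ∀ z ∈ Ω, P (ι z) = P z * Γ.lv (lb z)
  P_φ : ∀ z ∈ Ω, z ∉ L → P (φ z) = P (ι z)
  P_L : LPath P (fun z => P (ι z)) base L base

namespace Disk

variable {Γ : LG V E S} {δ δ' : Type}

open Classical in
/-- the chain of a disc diagram -/
noncomputable def chain (D : Disk Γ δ) (pos : V → Γ.Grp) : (Γ.Grp × E) →₀ ℤ :=
  ∑ z ∈ D.Ω.filter (· ∉ D.L), Γ.term pos (D.P z) (D.e z)

lemma φ_mem_L (D : Disk Γ δ) (z : δ) : D.φ z ∈ D.L ↔ z ∈ D.L :=
  ⟨fun h => by rwa [D.φ.injective (D.φ_fix _ h)] at h, fun h => by rwa [D.φ_fix z h]⟩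

/-- disjoint union of two discs, with a new boundary list -/
def sum (D : Disk Γ δ) (D' : Disk Γ δ') (L : List (δ ⊕ δ')) (base : Γ.Grp) (hn : L.Nodup)
    (hl : ∀ z, Sum.inl z ∈ L ↔ z ∈ D.L) (hr : ∀ z, Sum.inr z ∈ L ↔ z ∈ D'.L)
    (hpl : ∀ (a : δ ⊕ δ' → ZMod 2) (t : ZMod 2), ∃ t₁ t₂, ∀ h : δ ⊕ δ' → ZMod 2,
      (∀ z ∈ D'.Ω, h (Sum.inr (D'.ι z)) = h (Sum.inr z) + a (Sum.inr z)) →
      LPath (fun z => h (Sum.inl z)) (fun z => h (Sum.inl (D.ι z))) t₁ D.L t₁ →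
      LPath (fun z => h (Sum.inr z)) (fun z => h (Sum.inr (D'.ι z))) t₂ D'.L t₂ →
      LPath h (fun z => h (Sum.map D.ι D'.ι z)) t L t)
    (hP : LPath (Sum.elim D.P D'.P) (fun z => Sum.elim D.P D'.P (Sum.map D.ι D'.ι z)) base L base) :
    Disk Γ (δ ⊕ δ') where
  Ω := D.Ω.disjSum D'.Ω
  φ := Perm.sumCongr D.φ D'.φ
  ι := Perm.sumCongr D.ι D'.ι
  L := L
  base := base
  e := Sum.elim D.e D'.e
  lb := Sum.elim D.lb D'.lb
  P := Sum.elim D.P D'.P
  nodup := hn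
  L_sub := by
    rintro (z | z) hz
    · simpa using D.L_sub z ((hl z).mp hz)
    · simpa using D'.L_sub z ((hr z).mp hz)
  φ_fix := by
    rintro (z | z) hz
    · simpa using D.φ_fix z ((hl z).mp hz)
    · simpa using D'.φ_fix z ((hr z).mp hz)
  φ_mem := by rintro (z | z) <;> simp [D.φ_mem, D'.φ_mem]
  ι_mem := by rintro (z | z) <;> simp [D.ι_mem, D'.ι_mem]
  ι_ι := by
    rintro (z | z) hz
    · simpa using D.ι_ι z (by simpa using hz)
    · simpa using D'.ι_ι z (by simpa using hz)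
  ι_ne := by
    rintro (z | z) hz
    · simpa using D.ι_ne z (by simpa using hz)
    · simpa using D'.ι_ne z (by simpa using hz)
  planar := by
    intro a g ha hg t
    obtain ⟨t₁, t₂, ht⟩ := hpl a t
    obtain ⟨h₁, p₁, q₁, r₁⟩ := D.planar (fun z => a (Sum.inl z)) (fun z => g (Sum.inl z))
      (fun z hz => ha (Sum.inl z) (by simpa using hz))
      (fun z hz hL => hg (Sum.inl z) (by simpa using hz) (by rwa [hl])) t₁
    obtain ⟨h₂, p₂, q₂, r₂⟩ := D'.planar (fun z => a (Sum.inr z)) (fun z => g (Sum.inr z))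
      (fun z hz => ha (Sum.inr z) (by simpa using hz))
      (fun z hz hL => hg (Sum.inr z) (by simpa using hz) (by rwa [hr])) t₂
    refine ⟨Sum.elim h₁ h₂, ?_, ?_, ht _ p₂ r₁ r₂⟩
    · rintro (z | z) hz
      · exact p₁ z (by simpa using hz)
      · exact p₂ z (by simpa using hz)
    · rintro (z | z) hz hL
      · exact q₁ z (by simpa using hz) (by rwa [← hl])
      · exact q₂ z (by simpa using hz) (by rwa [← hr])
  lb_ι := by
    rintro (z | z) hz
    · exact D.lb_ι z (by simpa using hz)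
    · exact D'.lb_ι z (by simpa using hz)
  lb_e := by
    rintro (z | z) hz hL
    · exact D.lb_e z (by simpa using hz) (by rwa [← hl])
    · exact D'.lb_e z (by simpa using hz) (by rwa [← hr])
  cont := by
    rintro (z | z) hz hL
    · exact D.cont z (by simpa using hz) (by rwa [← hl])
    · exact D'.cont z (by simpa using hz) (by rwa [← hr])
  P_ι := by
    rintro (z | z) hz
    · exact D.P_ι z (by simpa using hz)
    · exact D'.P_ι z (by simpa using hz)
  P_φ := by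
    rintro (z | z) hz hL
    · exact D.P_φ z (by simpa using hz) (by rwa [← hl])
    · exact D'.P_φ z (by simpa using hz) (by rwa [← hr])
  P_L := hP

lemma chain_sum (D : Disk Γ δ) (D' : Disk Γ δ') (L base hn hl hr hpl hP) (pos : V → Γ.Grp) :
    (D.sum D' L base hn hl hr hpl hP).chain pos = D.chain pos + D'.chain pos := by
  classical
  unfold chain
  rw [Finset.sum_filter, Finset.sum_filter, Finset.sum_filter]
  simp only [sum, Finset.sum_disjSum, hl, hr, Sum.elim_inl, Sum.elim_inr]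

/-- the empty disc -/
def empty (Γ : LG V E S) (p : Γ.Grp) : Disk Γ Empty where
  Ω := ∅
  φ := 1
  ι := 1
  L := []
  base := p
  e := Empty.elim
  lb := Empty.elim
  P := Empty.elim
  nodup := List.nodup_nil
  L_sub := fun z => z.elim
  φ_fix := fun z => z.elim
  φ_mem := fun z => z.elim
  ι_mem := fun z => z.elim
  ι_ι := fun z => z.elim
  ι_ne := fun z => z.elim
  planar := fun _ _ _ _ _ => ⟨Empty.elim, fun z => z.elim, fun z => z.elim, rfl⟩
  lb_ι := fun z => z.elim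
  lb_e := fun z => z.elim
  cont := fun z => z.elim
  P_ι := fun z => z.elim
  P_φ := fun z => z.elim
  P_L := rfl

/-- a single edge -/
def hair (Γ : LG V E S) (o : E × Bool) (p : Γ.Grp) (s : S × Bool) : Disk Γ Bool where
  Ω := Finset.univ
  φ := 1
  ι := swap true false
  L := [true, false]
  base := p
  e := fun _ => o
  lb := fun b => if b then s else rev s
  P := fun b => if b then p else p * Γ.lv s
  nodup := by simp
  L_sub := by simp
  φ_fix := by simp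
  φ_mem := by simp
  ι_mem := by simp
  ι_ι := by simp
  ι_ne := by simp
  planar := fun a g ha _ t => ⟨fun b => if b then t else t + a true, by
    have := ha true (by simp)
    simp only [swap_apply_left] at this
    simp [this, add_assoc, vk_z2], by simp, by simp⟩
  lb_ι := by simp
  lb_e := by simp
  cont := by simp
  P_ι := by simp [mul_assoc, LG.vk_lv_mul_rev]
  P_φ := by simp
  P_L := by simp

section Close

variable [DecidableEq δ] (D : Disk Γ δ) {L₁ L₂ : List δ} (hL : D.L = L₁ ++ L₂)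
include hL

lemma close_in {z : δ} (hz : z ∈ L₂) : (D.φ * L₂.formPerm) z = L₂.formPerm z :=
  D.φ_fix _ (by rw [hL]; exact List.mem_append_right _ (List.formPerm_apply_mem_of_mem hz))

omit hL in
lemma close_out {z : δ} (hz : z ∉ L₂) : (D.φ * L₂.formPerm) z = D.φ z := by
  rw [Perm.mul_apply, List.formPerm_apply_of_notMem hz]

lemma close_mem (z : δ) : (D.φ * L₂.formPerm) z ∈ D.Ω ↔ z ∈ D.Ω := by
  have hs : ∀ v ∈ L₂, v ∈ D.Ω := fun v hv => D.L_sub v (by rw [hL]; simp [hv])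
  by_cases hz : z ∈ L₂
  · rw [D.close_in hL hz]
    exact iff_of_true (hs _ (List.formPerm_apply_mem_of_mem hz)) (hs z hz)
  · rw [D.close_out hz, D.φ_mem]

lemma close_planar (a g : δ → ZMod 2) (ha : ∀ z ∈ D.Ω, a (D.ι z) = a z)
    (hg : ∀ z ∈ D.Ω, z ∉ L₁ → g ((D.φ * L₂.formPerm) z) = g z + a z) (t : ZMod 2) :
    ∃ h : δ → ZMod 2, (∀ z ∈ D.Ω, h (D.ι z) = h z + a z) ∧
      (∀ z ∈ D.Ω, z ∉ L₁ → h ((D.φ * L₂.formPerm) z) = h (D.ι z)) ∧
        LPath h (fun z => h (D.ι z)) t L₁ t := by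
  have hn := D.nodup
  rw [hL, List.nodup_append] at hn
  have hs : ∀ v ∈ L₂, v ∈ D.Ω := fun v hv => D.L_sub v (by rw [hL]; simp [hv])
  obtain ⟨h, h1, h2, h3⟩ := D.planar a g ha (fun z hz hzL => by
    rw [hL, List.mem_append, not_or] at hzL
    rw [← hg z hz hzL.1, D.close_out hzL.2]) t
  rw [hL, LPath.append_iff] at h3
  obtain ⟨m, h4, h5⟩ := h3
  have h6 := h5.sum_eq (a := a) (fun z hz => h1 z (hs z hz))
  have h7 : (L₂.map a).sum = 0 := by
    rw [← List.sum_toFinset a hn.2.1]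
    have e1 : ∑ z ∈ L₂.toFinset, g (L₂.formPerm z) = ∑ z ∈ L₂.toFinset, g z :=
      Finset.sum_equiv L₂.formPerm (by simp) (fun _ _ => rfl)
    have e2 : ∑ z ∈ L₂.toFinset, g (L₂.formPerm z) =
        ∑ z ∈ L₂.toFinset, g z + ∑ z ∈ L₂.toFinset, a z := by
      rw [← Finset.sum_add_distrib]
      refine Finset.sum_congr rfl fun z hz => ?_
      have hz' := List.mem_toFinset.mp hz
      rw [← D.close_in hL hz', hg z (hs z hz') (fun h => hn.2.2 z h z hz' rfl)]
    rw [e1] at e2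
    simpa using e2
  rw [h7, add_zero] at h6
  subst h6
  refine ⟨h, h1, fun z hz hz1 => ?_, h4⟩
  by_cases hz2 : z ∈ L₂
  · rw [D.close_in hL hz2]; exact h5.formPerm hn.2.1 hz2
  · rw [D.close_out hz2]; exact h2 z hz (by rw [hL]; simp [hz1, hz2])

end Close

end Disk

variable (Γ : LG V E S) (pos : V → Γ.Grp)

/-- There is a disc diagram with base position `p`, boundary word `w` and chain `c`. -/
def HasDisk (p : Γ.Grp) (w : List (S × Bool)) (c : (Γ.Grp × E) →₀ ℤ) : Prop :=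
  ∃ (δ : Type) (D : Disk Γ δ), D.base = p ∧ D.L.map D.lb = w ∧ (Γ.IsPos pos → D.chain pos = c)

namespace HasDisk

variable {Γ pos}

lemma nil (p : Γ.Grp) : HasDisk Γ pos p [] 0 :=
  ⟨Empty, Disk.empty Γ p, rfl, rfl, fun _ => by simp [Disk.chain, Disk.empty]⟩

lemma append {p : Γ.Grp} {w w' : List (S × Bool)} {c c' : (Γ.Grp × E) →₀ ℤ}
    (h : HasDisk Γ pos p w c) (h' : HasDisk Γ pos p w' c') :
    HasDisk Γ pos p (w ++ w') (c + c') := by
  obtain ⟨δ, D, rfl, rfl, hc⟩ := h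
  obtain ⟨δ', D', hb, rfl, hc'⟩ := h'
  refine ⟨δ ⊕ δ', D.sum D' (D.L.map Sum.inl ++ D'.L.map Sum.inr) D.base ?_ (by simp) (by simp)
    (fun a t => ⟨t, t, fun h _ h1 h2 => ?_⟩) ?_, rfl, ?_, fun hp => ?_⟩
  · rw [List.nodup_append]
    exact ⟨D.nodup.map Sum.inl_injective, D'.nodup.map Sum.inr_injective, by simp⟩
  · rw [LPath.append_iff]
    exact ⟨t, (LPath.map_iff _).mpr h1, (LPath.map_iff _).mpr h2⟩
  · rw [LPath.append_iff]
    exact ⟨D.base, (LPath.map_iff _).mpr D.P_L, (LPath.map_iff _).mpr (hb ▸ D'.P_L)⟩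
  · simp [Disk.sum]
  · rw [Disk.chain_sum, hc hp, hc' hp]

lemma conj (o : E × Bool) {p : Γ.Grp} {s : S × Bool} {w : List (S × Bool)}
    {c : (Γ.Grp × E) →₀ ℤ} (h : HasDisk Γ pos (p * Γ.lv s) w c) :
    HasDisk Γ pos p (s :: w ++ [rev s]) c := by
  obtain ⟨δ, D, hb, rfl, hc⟩ := h
  refine ⟨δ ⊕ Bool, D.sum (Disk.hair Γ o p s) (Sum.inr true :: D.L.map Sum.inl ++ [Sum.inr false])
    p ?_ (by simp) (by simp [Disk.hair])
    (fun a t => ⟨t + a (Sum.inr true), t, fun h h0 h1 h2 => ?_⟩) ?_, rfl, ?_, fun hp => ?_⟩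
  · rw [List.cons_append, List.nodup_cons, List.nodup_append]
    exact ⟨by simp, D.nodup.map Sum.inl_injective, by simp, by simp⟩
  · have h3 := h0 true (by simp [Disk.hair])
    simp only [Disk.hair, LPath.cons_iff, swap_apply_left, swap_apply_right, LPath.nil_iff,
      true_and, and_self] at h2 h3
    rw [List.cons_append, LPath.cons_iff, LPath.append_iff]
    refine ⟨h2, t + a (Sum.inr true), ?_, ?_⟩
    · rw [LPath.map_iff]
      simp only [Disk.hair, Sum.map_inr, swap_apply_left, h3, h2]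
      exact h1
    · simp [Disk.hair, h3, h2]
  · rw [List.cons_append, LPath.cons_iff, LPath.append_iff]
    refine ⟨rfl, p * Γ.lv s, ?_, ?_⟩
    · rw [LPath.map_iff]
      simpa [Disk.hair, hb] using D.P_L
    · simp [Disk.hair]
  · simp [Disk.sum, Disk.hair]
  · rw [Disk.chain_sum, hc hp]
    simp [Disk.chain, Disk.hair]

lemma conj_word (o : E × Bool) (u : List (S × Bool)) {p : Γ.Grp} {w : List (S × Bool)}
    {c : (Γ.Grp × E) →₀ ℤ} (h : HasDisk Γ pos (p * Γ.proj (FreeGroup.mk u)) w c) :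
    HasDisk Γ pos p (u ++ w ++ FreeGroup.invRev u) c := by
  induction u generalizing p with
  | nil => simpa [← FreeGroup.one_eq_mk] using h
  | cons s u ih =>
    rw [LG.vk_proj_cons, ← mul_assoc] at h
    have := (ih h).conj o
    rw [FreeGroup.invRev_cons]
    simpa [FreeGroup.invRev, rev] using this

lemma close {p : Γ.Grp} {w : List (S × Bool)} {c : (Γ.Grp × E) →₀ ℤ} {x : V}
    {l : List (E × Bool)} (hl : Γ.IsPath x l x) (h : HasDisk Γ pos p (w ++ Γ.word l) c) :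
    HasDisk Γ pos p w (c + Γ.ch (p * (pos x)⁻¹) l) := by
  classical
  obtain ⟨δ, D, rfl, hw, hc⟩ := h
  obtain ⟨L₁, L₂, hL, rfl, h2⟩ := List.map_eq_append_iff.mp hw
  have hn := D.nodup
  rw [hL, List.nodup_append] at hn
  have hs : ∀ v ∈ L₂, v ∈ D.Ω := fun v hv => D.L_sub v (by rw [hL]; simp [hv])
  obtain ⟨e', he1, he2⟩ := vk_exists_relabel D.e hn.2.1 (l := l) (by
    simpa [LG.word] using congrArg List.length h2)
  have hlb : ∀ z ∈ L₂, D.lb z = Γ.ltr (e' z) := by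
    rw [LG.word, ← he1, List.map_map] at h2
    exact List.map_inj_left.mp h2
  have hP := D.P_L
  rw [hL, LPath.append_iff] at hP
  obtain ⟨m, hP1, hP2⟩ := hP
  have hm := LG.vk_lpath_proj hP2 (fun z hz => D.P_ι z (hs z hz))
  rw [h2, LG.vk_proj_closed hl, mul_one] at hm
  subst hm
  have hpath : LPath (fun z => Γ.ini (e' z)) (fun z => Γ.ter (e' z)) x L₂ x := by
    rw [← LPath.map_iff e', he1]; exact LG.vk_isPath_iff.mp hl
  have hnot : ∀ z, z ∉ L₁ → z ∉ L₂ → z ∉ D.L := fun z h1 h2 => by rw [hL]; simp [h1, h2]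
  refine ⟨δ, {
    Ω := D.Ω
    φ := D.φ * L₂.formPerm
    ι := D.ι
    L := L₁
    base := D.base
    e := e'
    lb := D.lb
    P := D.P
    nodup := hn.1
    L_sub := fun z hz => D.L_sub z (by rw [hL]; simp [hz])
    φ_fix := fun z hz => by
      rw [D.close_out (fun h => hn.2.2 z hz z h rfl), D.φ_fix z (by rw [hL]; simp [hz])]
    φ_mem := D.close_mem hL
    ι_mem := D.ι_mem
    ι_ι := D.ι_ι
    ι_ne := D.ι_ne
    planar := D.close_planar hL
    lb_ι := D.lb_ι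
    lb_e := fun z hz h1 => by
      by_cases h2 : z ∈ L₂
      · exact hlb z h2
      · rw [he2 z h2, D.lb_e z hz (hnot z h1 h2)]
    cont := fun z hz h1 => by
      by_cases h2 : z ∈ L₂
      · rw [D.close_in hL h2]; exact (hpath.formPerm hn.2.1 h2).symm
      · have h3 := hnot z h1 h2
        rw [D.close_out h2, he2 z h2, he2 _ (fun h => h3 ((D.φ_mem_L z).mp (by rw [hL]; simp [h]))),
          D.cont z hz h3]
    P_ι := D.P_ι
    P_φ := fun z hz h1 => by
      by_cases h2 : z ∈ L₂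
      · rw [D.close_in hL h2]; exact hP2.formPerm hn.2.1 h2
      · rw [D.close_out h2, D.P_φ z hz (hnot z h1 h2)]
    P_L := hP1 }, rfl, rfl, fun hp => ?_⟩
  have hsplit : D.Ω.filter (· ∉ L₁) = D.Ω.filter (· ∉ D.L) ∪ L₂.toFinset := by
    ext z
    simp only [Finset.mem_filter, Finset.mem_union, List.mem_toFinset, hL, List.mem_append, not_or]
    constructor
    · intro h
      by_cases h2 : z ∈ L₂
      · exact Or.inr h2
      · exact Or.inl ⟨h.1, h.2, h2⟩
    · rintro (h | h)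
      · exact ⟨h.1, h.2.1⟩
      · exact ⟨hs z h, fun h1 => hn.2.2 z h1 z h rfl⟩
  have hdisj : Disjoint (D.Ω.filter (· ∉ D.L)) L₂.toFinset := by
    rw [Finset.disjoint_left]
    intro z h1 h2
    exact (Finset.mem_filter.mp h1).2 (by rw [hL]; simp [List.mem_toFinset.mp h2])
  have e1 := LG.vk_ch_eq hp hP2 (e := e') (fun z hz => by rw [D.P_ι z (hs z hz), hlb z hz])
    (he1.symm ▸ hl)
  rw [he1, ← List.sum_toFinset _ hn.2.1] at e1
  rw [← hc hp, ← e1, Disk.chain, Disk.chain]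
  simp only
  rw [hsplit, Finset.sum_union hdisj]
  congr 1
  refine Finset.sum_congr rfl fun z hz => ?_
  rw [he2 z (fun h => (Finset.mem_filter.mp hz).2 (by rw [hL]; simp [h]))]

lemma step {p : Γ.Grp} {w w' : List (S × Bool)} {c : (Γ.Grp × E) →₀ ℤ}
    (h : HasDisk Γ pos p w c) (hs : FreeGroup.Red.Step w w') : HasDisk Γ pos p w' c := by
  classical
  obtain ⟨δ, D, rfl, hw, hc⟩ := h
  cases hs with
  | @not W₁ W₂ s b =>
  obtain ⟨L₁, L', hL, rfl, h2⟩ := List.map_eq_append_iff.mp hw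
  obtain ⟨z, L'', rfl, h3, h4⟩ := List.map_eq_cons_iff.mp h2
  obtain ⟨w, L₂, rfl, h5, rfl⟩ := List.map_eq_cons_iff.mp h4
  have hn := D.nodup
  rw [hL] at hn
  have hzL : z ∈ D.L := by rw [hL]; simp
  have hwL : w ∈ D.L := by rw [hL]; simp
  have hz := D.L_sub z hzL
  have hw := D.L_sub w hwL
  have hn' : (z :: w :: (L₁ ++ L₂)).Nodup := by
    refine (List.Perm.nodup_iff ?_).mp hn
    exact List.perm_middle.trans (List.Perm.cons _ List.perm_middle)
  simp only [List.nodup_cons, List.mem_cons, not_or] at hn'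
  obtain ⟨⟨hzw, hz'⟩, hw', hn''⟩ := hn'
  have hmemL : ∀ v, v ∈ D.L ↔ v = z ∨ v = w ∨ v ∈ L₁ ++ L₂ := fun v => by
    rw [hL]; simp only [List.mem_append, List.mem_cons]; tauto
  have hmem : ∀ v, v ∈ (D.Ω.erase z).erase w ↔ v ≠ w ∧ v ≠ z ∧ v ∈ D.Ω := fun v => by
    simp only [Finset.mem_erase]
  have hin : ∀ v ∈ (D.Ω.erase z).erase w, v ∉ L₁ ++ L₂ → v ∉ D.L := fun v hv h => by
    rw [hmemL]; rw [hmem] at hv; tauto
  have hsub : ∀ v ∈ L₁ ++ L₂, v ∈ (D.Ω.erase z).erase w := fun v hv =>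
    (hmem v).mpr ⟨fun h => hw' (h ▸ hv), fun h => hz' (h ▸ hv),
      D.L_sub v ((hmemL v).mpr (Or.inr (Or.inr hv)))⟩
  have hlb : D.lb w = rev (D.lb z) := by rw [h3, h5]; rfl
  have l2 : D.lb (D.ι z) = D.lb w := by rw [D.lb_ι z hz, hlb]
  have l1 : D.lb (D.ι w) = D.lb z := by rw [D.lb_ι w hw, hlb, vk_rev_rev]
  have shorten : ∀ {X : Type} {k : δ → X} {x : X}, LPath k (fun v => k (D.ι v)) x D.L x →
      (k (D.ι z) = k w → k (D.ι w) = k z) → k (D.ι w) = k z ∧ k (D.ι z) = k w ∧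
        LPath k (fun v => k (glue D.ι z w v)) x (L₁ ++ L₂) x := by
    intro X k x hk hk'
    rw [hL, LPath.append_iff] at hk
    obtain ⟨m, k1, k2, k3, k4⟩ := hk
    have k5 := hk' k3.symm
    refine ⟨k5, k3.symm, LPath.congr (s := k) (t := fun v => k (D.ι v)) ?_ (fun _ _ => rfl) ?_⟩
    · rw [LPath.append_iff]
      exact ⟨m, k1, (k5.trans k2) ▸ k4⟩
    · intro v hv
      obtain ⟨n1, n2, m⟩ := (hmem v).mp (hsub v hv)
      exact glue_fun D.ι_ι D.ι_ne hz hw hzw m n2 n1 k5 k3.symm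
  obtain ⟨p1, p2, p3⟩ := shorten D.P_L (fun p2 => by
    rw [D.P_ι w hw, ← p2, D.P_ι z hz, hlb, mul_assoc, LG.vk_lv_mul_rev, mul_one])
  refine ⟨δ, {
    Ω := (D.Ω.erase z).erase w
    φ := D.φ
    ι := glue D.ι z w
    L := L₁ ++ L₂
    base := D.base
    e := D.e
    lb := D.lb
    P := D.P
    nodup := hn''
    L_sub := hsub
    φ_fix := fun v hv => D.φ_fix v ((hmemL v).mpr (Or.inr (Or.inr hv)))
    φ_mem := fun v => by
      have e1 : D.φ v = w ↔ v = w := by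
        conv_lhs => rw [← D.φ_fix w hwL]
        exact D.φ.injective.eq_iff
      have e2 : D.φ v = z ↔ v = z := by
        conv_lhs => rw [← D.φ_fix z hzL]
        exact D.φ.injective.eq_iff
      simp only [hmem, ne_eq, e1, e2, D.φ_mem]
    ι_mem := vk_mem_erase_iff (glue_iff (p := (· ∈ D.Ω)) D.ι_mem (by simp [hz, hw]))
      (glue_left (D.ι_ne z hz) hzw) (glue_right (D.ι_ι z hz) (D.ι_ne z hz) hzw)
    ι_ι := fun v hv => glue_glue D.ι_mem D.ι_ι hz hw ((hmem v).mp hv).2.2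
    ι_ne := fun v hv => glue_ne D.ι_mem D.ι_ne hz hw ((hmem v).mp hv).2.2
    planar := fun a' g ha' hg t => by
      let a : δ → ZMod 2 := fun v => if v = z ∨ v = w then a' (D.ι z) else a' v
      have ha : ∀ v ∈ D.Ω, a (D.ι v) = a v := fun v hv =>
        glue_extend D.ι_mem D.ι_ι D.ι_ne hz hw hzw ha' _ (Or.inr rfl) hv
      have haa : ∀ v ∈ (D.Ω.erase z).erase w, a v = a' v := fun v hv => by
        obtain ⟨n1, n2, -⟩ := (hmem v).mp hv
        simp [a, n1, n2]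
      obtain ⟨h, q1, q2, q3⟩ := D.planar a g ha (fun v hv hvL => by
        rw [hmemL, not_or, not_or] at hvL
        have hv' := (hmem v).mpr ⟨hvL.2.1, hvL.1, hv⟩
        rw [hg v hv' hvL.2.2, haa v hv']) t
      obtain ⟨r1, r2, r3⟩ := shorten q3 (fun r2 => by
        have e1 : a w = a z := by simp [a]
        rw [q1 w hw, ← r2, q1 z hz, e1, add_assoc, vk_z2, add_zero])
      refine ⟨h, fun v hv => ?_, fun v hv hvL => ?_, r3⟩
      · obtain ⟨n1, n2, m⟩ := (hmem v).mp hv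
        rw [glue_fun D.ι_ι D.ι_ne hz hw hzw m n2 n1 r1 r2, q1 v m, haa v hv]
      · obtain ⟨n1, n2, m⟩ := (hmem v).mp hv
        rw [glue_fun D.ι_ι D.ι_ne hz hw hzw m n2 n1 r1 r2, q2 v m (hin v hv hvL)]
    lb_ι := fun v hv => by
      obtain ⟨n1, n2, m⟩ := (hmem v).mp hv
      rw [glue_fun D.ι_ι D.ι_ne hz hw hzw m n2 n1 l1 l2, D.lb_ι v m]
    lb_e := fun v hv h => D.lb_e v ((hmem v).mp hv).2.2 (hin v hv h)
    cont := fun v hv h => D.cont v ((hmem v).mp hv).2.2 (hin v hv h)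
    P_ι := fun v hv => by
      obtain ⟨n1, n2, m⟩ := (hmem v).mp hv
      rw [glue_fun D.ι_ι D.ι_ne hz hw hzw m n2 n1 p1 p2, D.P_ι v m]
    P_φ := fun v hv h => by
      obtain ⟨n1, n2, m⟩ := (hmem v).mp hv
      rw [glue_fun D.ι_ι D.ι_ne hz hw hzw m n2 n1 p1 p2, D.P_φ v m (hin v hv h)]
    P_L := p3 }, rfl, by simp, fun hp => ?_⟩
  rw [← hc hp, Disk.chain, Disk.chain]
  refine Finset.sum_congr ?_ fun _ _ => rfl
  ext v
  simp only [Finset.mem_filter, hmem, hmemL]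
  tauto

lemma red {p : Γ.Grp} {w w' : List (S × Bool)} {c : (Γ.Grp × E) →₀ ℤ}
    (h : HasDisk Γ pos p w c) (hs : FreeGroup.Red w w') : HasDisk Γ pos p w' c := by
  induction hs with
  | refl => exact h
  | tail _ h2 ih => exact ih.step h2

lemma of_fill (o : E × Bool) {f : FreeGroup S} {c : (Γ.Grp × E) →₀ ℤ} (h : Γ.Fill pos f c) :
    ∃ w, FreeGroup.mk w = f ∧ HasDisk Γ pos 1 w (-c) := by
  induction h with
  | one => exact ⟨[], rfl, by simpa using nil 1⟩
  | rel u x l hl =>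
    obtain ⟨u, rfl⟩ := Quot.exists_rep u
    refine ⟨u ++ Γ.word l ++ FreeGroup.invRev u, rfl, conj_word o u ?_⟩
    have h1 := conj_word o (Γ.word l) (nil (pos := pos)
      (1 * Γ.proj (FreeGroup.mk u) * Γ.proj (FreeGroup.mk (Γ.word l))))
    rw [List.append_nil, ← LG.vk_word_invRev] at h1
    have h2 := close (LG.vk_isPath_invRev hl) h1
    rw [LG.vk_ch_invRev, zero_add] at h2
    simpa using h2
  | mul _ _ ih1 ih2 =>
    obtain ⟨w1, rfl, h1⟩ := ih1
    obtain ⟨w2, rfl, h2⟩ := ih2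
    exact ⟨w1 ++ w2, rfl, by rw [neg_add]; exact h1.append h2⟩

end HasDisk

end Vale.Agent.Kap
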