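import Vale.Agent.Kap.DiagramBase

/-! Rich closed diagrams and their reduction. -/

namespace Vale.Agent.Kap

open Equiv

/-- Planarity with the edge function made explicit. -/
def VKPlanar {δ : Type} (Ω : Finset δ) (φ ι : Perm δ) : Prop :=
  ∀ a g : δ → ZMod 2, (∀ z ∈ Ω, a (ι z) = a z) → (∀ z ∈ Ω, g (φ z) = g z + a z) →
    ∃ h : δ → ZMod 2, ∀ z ∈ Ω, h (φ z) = h (ι z) ∧ h (ι z) = h z + a z

lemma PMap.vkPlanar {δ : Type} (M : PMap δ) : VKPlanar M.Ω M.φ M.ι := by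
  intro a g ha hg
  have key : ∀ z ∈ M.Ω, g (M.φ z) + g z = a z := fun z hz => by
    rw [hg z hz, add_right_comm, vk_z2, zero_add]
  obtain ⟨h, hh⟩ := M.planar g (fun z hz => by
    rw [key z hz, key _ ((M.ι_mem z).mpr hz), ha z hz])
  refine ⟨h, fun z hz => ⟨(hh z hz).1, ?_⟩⟩
  rw [← key z hz, ← (hh z hz).2, add_left_comm, vk_z2, add_zero]

lemma VKPlanar.planar {δ : Type} {Ω : Finset δ} {φ ι : Perm δ} (H : VKPlanar Ω φ ι)
    (g : δ → ZMod 2) (hg : ∀ z ∈ Ω, g (φ z) + g z = g (φ (ι z)) + g (ι z)) :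
    ∃ h : δ → ZMod 2, ∀ z ∈ Ω, h (φ z) = h (ι z) ∧ h (ι z) + h z = g (φ z) + g z := by
  obtain ⟨h, hh⟩ := H (fun z => g (φ z) + g z) g (fun z hz => (hg z hz).symm)
    (fun z _ => by rw [add_left_comm, vk_z2, add_zero])
  refine ⟨h, fun z hz => ⟨(hh z hz).1, ?_⟩⟩
  rw [(hh z hz).2, add_right_comm, vk_z2, zero_add]

lemma VKPlanar.remove {δ : Type} [DecidableEq δ] {Ω : Finset δ} {φ ι : Perm δ}
    (H : VKPlanar Ω φ ι) (hm : ∀ v, ι v ∈ Ω ↔ v ∈ Ω) (hι : ∀ v ∈ Ω, ι (ι v) = v)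
    (hne : ∀ v ∈ Ω, ι v ≠ v) {z w : δ} (hz : z ∈ Ω) (hw : w ∈ Ω) (hzw : z ≠ w) (hφz : φ z ≠ z)
    (hφw : φ w ≠ w) (hc : φ z = w ∨ (ι z = w ∧ φ z ≠ w ∧ φ w ≠ z)) :
    VKPlanar ((Ω.erase z).erase w) (skip φ z w) (glue ι z w) := by
  intro a' g' ha' hg'
  classical
  let t : ZMod 2 := if φ z = w then a' (ι z) else g' (φ z) + g' (φ w)
  let a : δ → ZMod 2 := fun v => if v = z ∨ v = w then t else a' v
  let g : δ → ZMod 2 := fun v => if v = z then g' (φ w) else if v = w then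
    (if φ z = w then g' (φ w) + t else g' (φ z)) else g' v
  have ht : ι z = w ∨ t = a' (ι z) := by
    rcases hc with h | h
    · exact Or.inr (if_pos h)
    · exact Or.inl h.1
  have ha : ∀ v ∈ Ω, a (ι v) = a v := fun v hv => glue_extend hm hι hne hz hw hzw ha' t ht hv
  have haz : a z = t := by simp [a]
  have haw : a w = t := by simp [a]
  have hgz : g z = g' (φ w) := by simp [g]
  have hgφw : g (φ w) = g' (φ w) := by
    by_cases h : φ w = z
    · rw [h, hgz, h]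
    · simp [g, h, hφw]
  have hg : ∀ v ∈ Ω, g (φ v) = g v + a v := by
    intro v hv
    by_cases h1 : v = z
    · subst h1
      rw [haz, hgz]
      by_cases h : φ v = w
      · rw [h]; simp [g, hzw.symm, h]
      · simp only [g, hφz, h, if_false, t]
        rw [add_left_comm, vk_z2, add_zero]
    by_cases h2 : v = w
    · subst h2
      rw [haw, hgφw]
      by_cases h : φ z = v
      · simp only [g, h1, h, if_false, if_true]
        rw [add_assoc, vk_z2, add_zero]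
      · simp only [g, h1, h, if_false, if_true, t]
        rw [← add_assoc, vk_z2, zero_add]
    have h3 := hg' v (by simp [h1, h2, hv])
    rw [skip_apply hzw hφz h1 h2] at h3
    have h4 : g v + a v = g' v + a' v := by simp [g, a, h1, h2]
    rw [h4, ← h3]
    by_cases h5 : φ v = z
    · rw [if_pos h5, h5, hgz]
    · rw [if_neg h5]
      by_cases h6 : φ v = w
      · have h7 : φ z ≠ w := fun h => h1 (φ.injective (h6.trans h.symm))
        rw [if_pos h6, h6]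
        simp [g, hzw.symm, h7]
      · simp [g, h5, h6]
  obtain ⟨h, hh⟩ := H a g ha hg
  have e2 : h (ι z) = h w := by
    rcases hc with h1 | h1
    · rw [← (hh z hz).1, h1]
    · rw [h1.1]
  have e1 : h (ι w) = h z := by
    rw [(hh w hw).2, ← e2, (hh z hz).2, haz, haw, add_assoc, vk_z2, add_zero]
  refine ⟨h, fun v hv => ?_⟩
  simp only [Finset.mem_erase] at hv
  rw [skip_fun hzw hφz hv.2.1 hv.1 ((hh w hw).1.trans e1) ((hh z hz).1.trans e2),
    glue_fun hι hne hz hw hzw hv.2.2 hv.2.1 hv.1 e1 e2]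
  refine ⟨(hh v hv.2.2).1, ?_⟩
  rw [(hh v hv.2.2).2]
  simp [a, hv.1, hv.2.1]

variable {V E S : Type}

/-- A true break vertex. -/
def VKGood (Γ : LG V E S) (x0 v : V) : Prop :=
  v ≠ x0 ∧ (∀ e, Γ.tgt e ≠ v) ∧ ∀ e, Γ.tgt e ≠ x0

/-- Diagrams with letters and positions. -/
structure RD (Γ : LG V E S) (x0 : V) (δ : Type) extends Diagram Γ x0 δ where
  lb : δ → S × Bool
  P : δ → Γ.Grp
  lb_ι : ∀ z ∈ Ω, lb (ι z) = rev (lb z)
  lb_e : ∀ z ∈ Ω, z ∉ O → lb z = Γ.ltr (e z)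
  P_ι : ∀ z ∈ Ω, P (ι z) = P z * Γ.lv (lb z)
  P_φ : ∀ z ∈ Ω, P (φ z) = P (ι z)
  good : ∀ z ∈ Bk, VKGood Γ x0 (Γ.ter (e z))

namespace RD

variable {Γ : LG V E S} {x0 : V} {δ : Type} [DecidableEq δ]

/-- the chain of a diagram -/
noncomputable def chain (D : RD Γ x0 δ) (pos : V → Γ.Grp) : (Γ.Grp × E) →₀ ℤ :=
  ∑ z ∈ D.Ω \ D.O, Γ.term pos (D.P z) (D.e z)

omit [DecidableEq δ] in
lemma φ_ne (hB : Γ.Bip) (D : RD Γ x0 δ) {z : δ} (hz : z ∈ D.Ω) (hO : z ∉ D.O) : D.φ z ≠ z := by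
  intro h
  by_cases hb : z ∈ D.Bk
  · have h1 := (D.brk z hb).2.2
    obtain ⟨-, h2, h3⟩ := D.good z hb
    rw [h] at h1
    generalize D.e z = o at *
    rcases o with ⟨e, _ | _⟩
    · exact h3 e h1
    · exact h2 e rfl
  · have h1 := D.cont z hz hO hb
    rw [h] at h1
    generalize D.e z = o at *
    rcases o with ⟨e, _ | _⟩
    · exact hB e e h1
    · exact hB e e h1.symm

lemma exists_remove (hB : Γ.Bip) (D : RD Γ x0 δ) {z w : δ} (hz : z ∈ D.Ω) (hzO : z ∉ D.O)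
    (hw : w ∈ D.Ω) (hwO : w ∉ D.O) (he : D.e w = rev (D.e z))
    (hc : (D.φ z = w ∧ z ∉ D.Bk) ∨ (D.ι z = w ∧ D.φ z ≠ w ∧ D.φ w ≠ z)) :
    ∃ D' : RD Γ x0 δ, D'.Ω.card < D.Ω.card ∧ D'.O = D.O ∧ (D.Bk.Nonempty → D'.Bk.Nonempty) ∧
      ∀ pos, Γ.IsPos pos → D'.chain pos = D.chain pos := by
  have hφz := D.φ_ne hB hz hzO
  have hφw := D.φ_ne hB hw hwO
  have hzw : z ≠ w := by
    rintro rfl
    have := congrArg Prod.snd he
    simp [rev] at this
  have he' : D.e z = rev (D.e w) := by rw [he, vk_rev_rev]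
  have hlb : D.lb w = rev (D.lb z) := by rw [D.lb_e z hz hzO, D.lb_e w hw hwO, he]; rfl
  have l2 : D.lb (D.ι z) = D.lb w := by rw [D.lb_ι z hz, hlb]
  have l1 : D.lb (D.ι w) = D.lb z := by rw [D.lb_ι w hw, hlb, vk_rev_rev]
  have p2 : D.P (D.ι z) = D.P w := by
    rcases hc with h | h
    · rw [← D.P_φ z hz, h.1]
    · rw [h.1]
  have p1 : D.P (D.ι w) = D.P z := by
    rw [D.P_ι w hw, ← p2, D.P_ι z hz, hlb, mul_assoc, LG.vk_lv_mul_rev, mul_one]
  have huniq : ∀ b ∈ D.Bk, ∀ b' ∈ D.Bk, b = b' := Finset.card_le_one.mp D.Bk_card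
  have hmem : ∀ v, v ∈ (D.Ω.erase z).erase w ↔ v ≠ w ∧ v ≠ z ∧ v ∈ D.Ω := fun v => by
    simp only [Finset.mem_erase]
  have hglue : ∀ v, glue D.ι z w v ∈ (D.Ω.erase z).erase w ↔ v ∈ (D.Ω.erase z).erase w :=
    vk_mem_erase_iff (glue_iff (p := (· ∈ D.Ω)) D.ι_mem (by simp [hz, hw]))
      (glue_left (D.ι_ne z hz) hzw) (glue_right (D.ι_ι z hz) (D.ι_ne z hz) hzw)
  let f : δ → δ := fun b => if b = w then D.φ.symm z else if b = z then D.φ.symm w else b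
  have lbι : ∀ v ∈ (D.Ω.erase z).erase w, D.lb (glue D.ι z w v) = rev (D.lb v) := by
    intro v hv
    obtain ⟨h1, h2, h3⟩ := (hmem v).mp hv
    rw [glue_fun D.ι_ι D.ι_ne hz hw hzw h3 h2 h1 l1 l2, D.lb_ι v h3]
  have hbrk : ∀ b ∈ D.Bk.image f, (b ∈ (D.Ω.erase z).erase w ∧ b ∉ D.O ∧
      Γ.ini (D.e (skip D.φ z w b)) = x0) ∧ VKGood Γ x0 (Γ.ter (D.e b)) := by
    intro b' hb'
    obtain ⟨b, hb, rfl⟩ := Finset.mem_image.mp hb'
    obtain ⟨b1, b2, b3⟩ := D.brk b hb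
    have b4 := D.good b hb
    by_cases h1 : b = w
    · subst h1
      have e0 : f b = D.φ.symm z := by simp [f]
      have e1 : D.φ (f b) = z := by simp [e0]
      have n1 : f b ≠ z := fun h => hφz (by rw [← h, e1, h])
      have n2 : f b ≠ b := fun h => by
        rw [h] at e1
        rw [e1, he', LG.vk_ini_rev] at b3
        exact b4.1 b3
      have m1 : f b ∈ D.Ω := (D.φ_mem _).mp (e1.symm ▸ hz)
      have m2 : f b ∉ D.O := fun h => hzO (e1 ▸ (D.O_φ _).mpr h)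
      refine ⟨⟨(hmem _).mpr ⟨n2, n1, m1⟩, m2, ?_⟩, ?_⟩
      · rw [skip_apply hzw hφz n1 n2, if_pos e1, b3]
      · rw [D.cont _ m1 m2 (fun h => n2 (huniq _ h _ hb)), e1, he', LG.vk_ini_rev]
        exact b4
    by_cases h2 : b = z
    · subst h2
      obtain ⟨-, c2, -⟩ := hc.resolve_left (fun h => h.2 hb)
      have e0 : f b = D.φ.symm w := by simp [f, h1]
      have e1 : D.φ (f b) = w := by simp [e0]
      have n1 : f b ≠ w := fun h => hφw (by rw [← h, e1, h])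
      have n2 : f b ≠ b := fun h => c2 (by rw [← e1, h])
      have m1 : f b ∈ D.Ω := (D.φ_mem _).mp (e1.symm ▸ hw)
      have m2 : f b ∉ D.O := fun h => hwO (e1 ▸ (D.O_φ _).mpr h)
      refine ⟨⟨(hmem _).mpr ⟨n1, n2, m1⟩, m2, ?_⟩, ?_⟩
      · rw [skip_apply hzw hφz n2 n1, if_neg (by rw [e1]; exact hzw.symm), if_pos e1, b3]
      · rw [D.cont _ m1 m2 (fun h => n2 (huniq _ h _ hb)), e1, he, LG.vk_ini_rev]
        exact b4
    have e0 : f b = b := by simp [f, h1, h2]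
    rw [e0]
    refine ⟨⟨(hmem _).mpr ⟨h1, h2, b1⟩, b2, ?_⟩, b4⟩
    rw [skip_fun (k := fun v => Γ.ini (D.e v)) hzw hφz h2 h1, b3]
    · rw [← D.cont w hw hwO (fun h => h1 (huniq _ hb _ h)), he, LG.vk_ter_rev]
    · rw [← D.cont z hz hzO (fun h => h2 (huniq _ hb _ h)), he, LG.vk_ini_rev]
  refine ⟨{
    Ω := (D.Ω.erase z).erase w
    φ := skip D.φ z w
    ι := glue D.ι z w
    φ_mem := vk_mem_erase_iff (skip_iff (p := (· ∈ D.Ω)) D.φ_mem (by simp [hz, hw]))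
      (skip_left hzw hφw) (skip_right hzw hφw)
    ι_mem := hglue
    ι_ι := fun v hv => glue_glue D.ι_mem D.ι_ι hz hw ((hmem v).mp hv).2.2
    ι_ne := fun v hv => glue_ne D.ι_mem D.ι_ne hz hw ((hmem v).mp hv).2.2
    planar := (D.toPMap.vkPlanar.remove D.ι_mem D.ι_ι D.ι_ne hz hw hzw hφz hφw
      (hc.imp_left And.left)).planar
    O := D.O
    O_sub := fun v hv => (hmem v).mpr
      ⟨fun h => hwO (h ▸ hv), fun h => hzO (h ▸ hv), D.O_sub hv⟩
    O_φ := skip_iff (p := (· ∈ D.O)) D.O_φ (by simp [hzO, hwO])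
    Bk := D.Bk.image f
    Bk_card := Finset.card_image_le.trans D.Bk_card
    e := D.e
    ltr_ι := fun v hv h1 h2 => by
      rw [← D.lb_e _ ((hmem _).mp ((hglue v).mpr hv)).2.2 h2, ← D.lb_e v ((hmem v).mp hv).2.2 h1]
      exact lbι v hv
    cont := fun v hv h1 h2 => by
      obtain ⟨n1, n2, m⟩ := (hmem v).mp hv
      have h3 : v ∉ D.Bk := fun h => h2 (Finset.mem_image.mpr ⟨v, h, by simp [f, n1, n2]⟩)
      rw [D.cont v m h1 h3, skip_apply hzw hφz n2 n1]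
      split_ifs with h4 h5
      · have : w ∉ D.Bk := fun h => h2 (Finset.mem_image.mpr ⟨w, h, by simp [f, ← h4]⟩)
        rw [← D.cont w hw hwO this, h4, he, LG.vk_ter_rev]
      · have : z ∉ D.Bk := fun h => h2 (Finset.mem_image.mpr ⟨z, h, by
          simp only [f, if_neg hzw, if_true]; rw [← h5]; simp⟩)
        rw [← D.cont z hz hzO this, h5, he, LG.vk_ini_rev]
      · rfl
    brk := fun b hb => (hbrk b hb).1
    lb := D.lb
    P := D.P
    lb_ι := lbι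
    lb_e := fun v hv h => D.lb_e v ((hmem v).mp hv).2.2 h
    P_ι := fun v hv => by
      obtain ⟨n1, n2, m⟩ := (hmem v).mp hv
      rw [glue_fun D.ι_ι D.ι_ne hz hw hzw m n2 n1 p1 p2, D.P_ι v m]
    P_φ := fun v hv => by
      obtain ⟨n1, n2, m⟩ := (hmem v).mp hv
      rw [glue_fun D.ι_ι D.ι_ne hz hw hzw m n2 n1 p1 p2,
        skip_fun hzw hφz n2 n1 ((D.P_φ w hw).trans p1) ((D.P_φ z hz).trans p2), D.P_φ v m]
    good := fun b hb => (hbrk b hb).2 }, ?_, rfl, fun h => h.image f, fun pos hpos => ?_⟩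
  · exact lt_of_le_of_lt Finset.card_erase_le (Finset.card_erase_lt_of_mem hz)
  · have h1 : z ∈ D.Ω \ D.O := Finset.mem_sdiff.mpr ⟨hz, hzO⟩
    have h2 : w ∈ (D.Ω \ D.O).erase z := Finset.mem_erase.mpr ⟨hzw.symm, Finset.mem_sdiff.mpr ⟨hw, hwO⟩⟩
    have h3 : ((D.Ω.erase z).erase w) \ D.O = ((D.Ω \ D.O).erase z).erase w := by
      ext v; simp only [Finset.mem_sdiff, Finset.mem_erase]; tauto
    change ∑ v ∈ ((D.Ω.erase z).erase w) \ D.O, Γ.term pos (D.P v) (D.e v) = _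
    rw [chain, ← Finset.add_sum_erase _ _ h1, ← Finset.add_sum_erase _ _ h2, ← add_assoc, h3,
      ← p2, D.P_ι z hz, D.lb_e z hz hzO, he, LG.vk_term_rev hpos, zero_add]

lemma exists_step (hB : Γ.Bip) (D : RD Γ x0 δ) (h : ¬ D.toDiagram.IsReduced) :
    ∃ D' : RD Γ x0 δ, D'.Ω.card < D.Ω.card ∧ D'.O = D.O ∧ (D.Bk.Nonempty → D'.Bk.Nonempty) ∧
      ∀ pos, Γ.IsPos pos → D'.chain pos = D.chain pos := by
  have fold : ∀ z ∈ D.Ω, z ∉ D.O → D.e (D.φ z) = rev (D.e z) →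
      ∃ D' : RD Γ x0 δ, D'.Ω.card < D.Ω.card ∧ D'.O = D.O ∧ (D.Bk.Nonempty → D'.Bk.Nonempty) ∧
      ∀ pos, Γ.IsPos pos → D'.chain pos = D.chain pos := by
    intro z hz hO he
    refine D.exists_remove hB hz hO ((D.φ_mem z).mpr hz) (fun h => hO ((D.O_φ z).mp h)) he
      (Or.inl ⟨rfl, fun hb => ?_⟩)
    have h1 := (D.brk z hb).2.2
    rw [he, LG.vk_ini_rev] at h1
    exact (D.good z hb).1 h1
  rw [Diagram.IsReduced, not_and_or] at h
  rcases h with h | h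
  · push Not at h
    obtain ⟨z, hz, hO, -, he⟩ := h
    exact fold z hz hO he
  · push Not at h
    obtain ⟨z, hz, hO, hO', he⟩ := h
    have hw := (D.ι_mem z).mpr hz
    by_cases h1 : D.φ z = D.ι z
    · exact fold z hz hO (by rw [h1, he])
    by_cases h2 : D.φ (D.ι z) = z
    · exact fold _ hw hO' (by rw [h2, he, vk_rev_rev])
    exact D.exists_remove hB hz hO hw hO' he (Or.inr ⟨rfl, h1, h2⟩)

lemma exists_reduced (hB : Γ.Bip) (D : RD Γ x0 δ) :
    ∃ D' : RD Γ x0 δ, D'.toDiagram.IsReduced ∧ D'.O = D.O ∧ (D.Bk.Nonempty → D'.Bk.Nonempty) ∧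
      ∀ pos, Γ.IsPos pos → D'.chain pos = D.chain pos := by
  induction hn : D.Ω.card using Nat.strong_induction_on generalizing D with
  | _ n ih =>
    by_cases h : D.toDiagram.IsReduced
    · exact ⟨D, h, rfl, id, fun _ _ => rfl⟩
    · obtain ⟨D₁, h1, h2, h3, h4⟩ := D.exists_step hB h
      obtain ⟨D₂, k1, k2, k3, k4⟩ := ih _ (hn ▸ h1) D₁ rfl
      exact ⟨D₂, k1, k2.trans h2, fun h => k3 (h3 h), fun pos hp => (k4 pos hp).trans (h4 pos hp)⟩

lemma norm_chain_le (D : RD Γ x0 δ) (pos : V → Γ.Grp) :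
    (∑ x ∈ (D.chain pos).support, (D.chain pos x).natAbs) ≤ (D.Ω \ D.O).card := by
  classical
  unfold chain
  generalize D.Ω \ D.O = s
  have key : ∀ T : Finset (Γ.Grp × E),
      ∑ x ∈ T, ((∑ z ∈ s, Γ.term pos (D.P z) (D.e z)) x).natAbs ≤ s.card := by
    intro T
    induction s using Finset.induction_on with
    | empty => simp
    | insert z s hz ih =>
      rw [Finset.sum_insert hz, Finset.card_insert_of_notMem hz]
      have h1 : ∑ x ∈ T, (Γ.term pos (D.P z) (D.e z) x).natAbs ≤ 1 := by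
        simp only [LG.term, Finsupp.single_apply, apply_ite Int.natAbs, Int.natAbs_one,
          Int.natAbs_neg, ite_self, Int.natAbs_zero, Finset.sum_ite_eq]
        split_ifs <;> simp
      calc _ ≤ ∑ x ∈ T, ((Γ.term pos (D.P z) (D.e z) x).natAbs +
            ((∑ z ∈ s, Γ.term pos (D.P z) (D.e z)) x).natAbs) :=
            Finset.sum_le_sum fun x _ => Int.natAbs_add_le _ _
        _ ≤ _ := by rw [Finset.sum_add_distrib]; omega
  exact key _

lemma norm_chain_le_of_iso {C : ℕ} (hB : Γ.Bip) (h : Γ.IsoIneq x0 C) (D : RD Γ x0 δ)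
    {pos : V → Γ.Grp} (hpos : Γ.IsPos pos) :
    (∑ x ∈ (D.chain pos).support, (D.chain pos x).natAbs) ≤ C * D.O.card := by
  obtain ⟨D', h1, h2, -, h4⟩ := D.exists_reduced hB
  rw [← h4 pos hpos, ← h2]
  exact (D'.norm_chain_le pos).trans (h δ D'.toDiagram h1)

lemma false_of_break {C : ℕ} (hB : Γ.Bip) (h : Γ.IsoIneq x0 C) (D : RD Γ x0 δ) (hO : D.O = ∅)
    (hb : D.Bk.Nonempty) : False := by
  obtain ⟨D', h1, h2, h3, -⟩ := D.exists_reduced hB
  have h4 := h δ D'.toDiagram h1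
  obtain ⟨b, hb'⟩ := h3 hb
  have h5 := (D'.brk b hb').1
  rw [h2, hO] at h4
  simp only [Finset.sdiff_empty, Finset.card_empty, mul_zero, Nat.le_zero,
    Finset.card_eq_zero] at h4
  rw [h4] at h5
  exact Finset.notMem_empty _ h5

end RD

end Vale.Agent.Kap
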