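import Vale.Agent.Kap.Defs

/-!
Path diagrams and the contraction of degree two vertices (auxiliary file for the
local-to-global principle).
-/

namespace Vale.Agent.Kap

open Finset

section paths

variable {V E S : Type} (Γ : LG V E S)

/-- Two oriented edges may follow each other in a reduced path. -/
def glStep (o o' : E × Bool) : Prop := Γ.ter o = Γ.ini o' ∧ o' ≠ rev o

variable {Γ}

theorem gl_path_of_chain : ∀ (o : E × Bool) (l : List (E × Bool)),
    (o :: l).IsChain (glStep Γ) → ∃ y, Γ.IsPath (Γ.ini o) (o :: l) y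
  | o, [], _ => ⟨Γ.ter o, LG.IsPath.cons o (LG.IsPath.nil _)⟩
  | o, o' :: l, h => by
    rw [List.isChain_cons_cons] at h
    obtain ⟨y, hy⟩ := gl_path_of_chain o' l h.2
    refine ⟨y, LG.IsPath.cons o ?_⟩
    rw [h.1.1]
    exact hy

theorem gl_path_nil {x y : V} {l : List (E × Bool)} (h : Γ.IsPath x l y) (hl : l = []) :
    x = y := by
  cases h with
  | nil => rfl
  | cons o h => simp at hl

theorem gl_path_end : ∀ (l : List (E × Bool)) (x y : V), Γ.IsPath x l y →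
    ∀ o ∈ l.getLast?, Γ.ter o = y := by
  intro l x y h
  induction h with
  | nil x => simp
  | @cons o l y h ih =>
    intro o' ho'
    cases l with
    | nil =>
      simp at ho'
      subst ho'
      exact gl_path_nil h rfl
    | cons a l =>
      apply ih
      simpa [List.getLast?_cons_cons] using ho'

theorem gl_reduced_of_chain {l : List (E × Bool)} (h : l.IsChain (glStep Γ)) : Reduced l :=
  List.IsChain.imp (fun _ _ h => h.2) h

theorem gl_exists_path {l : List (E × Bool)} (hne : l ≠ []) (h : l.IsChain (glStep Γ)) :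
    ∃ x y, Γ.IsPath x l y := by
  cases l with
  | nil => exact absurd rfl hne
  | cons o l =>
    obtain ⟨y, hy⟩ := gl_path_of_chain o l h
    exact ⟨_, y, hy⟩

theorem gl_girth {g : ℕ} (hg : Γ.Girth g) {l : List (E × Bool)} (hne : l ≠ [])
    (h : l.IsChain (glStep Γ)) (hc : ∀ a ∈ l.getLast?, ∀ b ∈ l.head?, Γ.ter a = Γ.ini b) :
    g ≤ l.length := by
  cases l with
  | nil => exact absurd rfl hne
  | cons o l =>
    obtain ⟨y, hy⟩ := gl_path_of_chain o l h
    obtain ⟨a, ha⟩ : ∃ a, a ∈ (o :: l).getLast? := ⟨(o :: l).getLast hne, by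
      simp [List.getLast?_eq_some_getLast hne]⟩
    have h1 := gl_path_end _ _ _ hy a ha
    have h2 := hc a ha o (by simp)
    have h3 : y = Γ.ini o := h1.symm.trans h2
    subst h3
    exact hg _ _ hy (gl_reduced_of_chain h) hne

theorem gl_folded (hF : Γ.Folded) {o o' : E × Bool} (h1 : Γ.ter o = Γ.ini o')
    (h2 : Γ.ltr o' = rev (Γ.ltr o)) : o'.1 = o.1 := by
  obtain ⟨e, b⟩ := o
  obtain ⟨e', b'⟩ := o'
  simp only [LG.ltr, rev, Prod.mk.injEq] at h2
  obtain ⟨h2, h3⟩ := h2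
  subst h3
  cases b
  · simp [LG.ter, LG.ini] at h1
    exact hF.1 _ _ h1.symm h2
  · simp [LG.ter, LG.ini] at h1
    exact hF.2 _ _ h1.symm h2

theorem gl_paired_length {l l' : List (E × Bool)} (h : Γ.Paired l l') : l.length = l'.length := by
  have := List.Forall₂.length_eq h
  simpa using this

theorem gl_paired_append {l₁ l₂ m₁ m₂ : List (E × Bool)} (h₁ : Γ.Paired l₁ m₁)
    (h₂ : Γ.Paired l₂ m₂) : Γ.Paired (l₁ ++ l₂) (m₂ ++ m₁) := by
  unfold LG.Paired at *
  rw [List.reverse_append]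
  exact List.rel_append h₁ h₂

theorem gl_paired_last {l l' : List (E × Bool)} (h : Γ.Paired l l') :
    ∀ a ∈ l.getLast?, ∀ b ∈ l'.head?, Γ.ltr b = rev (Γ.ltr a) ∧ b.1 ≠ a.1 := by
  intro a ha b hb
  unfold LG.Paired at h
  have h' := List.rel_reverse h
  rw [List.reverse_reverse] at h'
  rw [← List.head?_reverse] at ha
  cases hl : l.reverse with
  | nil => simp [hl] at ha
  | cons a' t =>
    rw [hl] at h' ha
    cases h' with
    | cons h1 h2 =>
      simp at ha hb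
      subst ha
      subst hb
      exact h1

end paths

/-- A planar diagram whose inner darts carry reduced paths of length at most `lam`. -/
structure PD {V E S : Type} (Γ : LG V E S) (x0 : V) (lam : ℕ) (δ : Type) extends PMap δ where
  O : Finset δ
  O_sub : O ⊆ Ω
  O_φ : ∀ z, φ z ∈ O ↔ z ∈ O
  Bk : Finset δ
  Bk_card : Bk.card ≤ 1
  p : δ → List (E × Bool)
  RF : Finset δ
  ne : ∀ z ∈ Ω, z ∉ O → p z ≠ []
  len : ∀ z ∈ Ω, z ∉ O → (p z).length ≤ lam
  chain : ∀ z ∈ Ω, z ∉ O → (p z).IsChain (glStep Γ)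
  link : ∀ z ∈ Ω, z ∉ O → z ∉ Bk →
    ∀ a ∈ (p z).getLast?, ∀ b ∈ (p (φ z)).head?, glStep Γ a b
  brk : ∀ z ∈ Bk, z ∈ Ω ∧ z ∉ O ∧ ∀ b ∈ (p (φ z)).head?, Γ.ini b = x0
  pair : ∀ z ∈ Ω, z ∉ O → ι z ∉ O → Γ.Paired (p z) (p (ι z))
  one : ∀ z ∈ Ω, z ∉ O → ι z ∈ O → (p z).length = 1
  faces : ∀ z ∈ Ω, ∃ n : ℕ, (φ ^ n) z ∈ RF

namespace PD

variable {V E S : Type} {Γ : LG V E S} {x0 : V} {lam : ℕ} {δ : Type} (P : PD Γ x0 lam δ)

theorem φ_ne (hg : Γ.Girth (2 * lam + 1)) {z : δ} (hz : z ∈ P.Ω) (hO : z ∉ P.O)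
    (hB : z ∉ P.Bk) : P.φ z ≠ z := by
  intro h
  have h1 := gl_girth hg (P.ne z hz hO) (P.chain z hz hO) (fun a ha b hb =>
    (P.link z hz hO hB a ha b (by rw [h]; exact hb)).1)
  have h2 := P.len z hz hO
  omega

theorem ιφ_ne (hF : Γ.Folded) {z : δ} (hz : z ∈ P.Ω) (hO : z ∉ P.O)
    (hB : z ∉ P.Bk) : P.ι (P.φ z) ≠ z := by
  intro h
  have hφ : P.φ z ∈ P.Ω := (P.φ_mem z).2 hz
  have h1 : P.ι z = P.φ z := by
    have := P.ι_ι _ hφ
    rw [h] at this
    exact this
  have hφO : P.φ z ∉ P.O := fun h' => hO ((P.O_φ z).1 h')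
  have h2 := P.pair z hz hO (by rw [h1]; exact hφO)
  rw [h1] at h2
  have hne := P.ne z hz hO
  have hne' := P.ne _ hφ hφO
  have ha : (P.p z).getLast hne ∈ (P.p z).getLast? := by
    simp [List.getLast?_eq_some_getLast hne]
  have hb : (P.p (P.φ z)).head hne' ∈ (P.p (P.φ z)).head? := by
    simp [List.head?_eq_some_head hne']
  have h3 := gl_paired_last h2 _ ha _ hb
  have h4 := P.link z hz hO hB _ ha _ hb
  exact h3.2 (gl_folded hF h4.1 h3.1)

/-- Total length of the inner paths. -/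
def tot [DecidableEq δ] : ℕ := ∑ z ∈ P.Ω \ P.O, (P.p z).length

/-- A degree two corner that can be contracted. -/
def Contr (z : δ) : Prop :=
  z ∈ P.Ω ∧ z ∉ P.O ∧ z ∉ P.Bk ∧ P.ι (P.φ z) ∉ P.Bk ∧ P.ι z ∉ P.O ∧ P.ι (P.φ z) ∉ P.O ∧
    P.ι (P.φ (P.ι (P.φ z))) = z ∧ (P.p z).length + (P.p (P.φ z)).length ≤ lam

theorem contract [DecidableEq δ] (hF : Γ.Folded) (hg : Γ.Girth (2 * lam + 1)) {z : δ}
    (hz : P.Contr z) : ∃ Q : PD Γ x0 lam δ, Q.Ω.card < P.Ω.card ∧ Q.O = P.O ∧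
      Q.RF.card ≤ P.RF.card ∧ Q.tot = P.tot := by
  obtain ⟨hzΩ, hzO, hzB, hy'B, hyO, hy'O, hdeg, hlen⟩ := hz
  set z' := P.φ z with hz'
  set y := P.ι z with hy
  set y' := P.ι z' with hy'
  have hz'Ω : z' ∈ P.Ω := (P.φ_mem z).2 hzΩ
  have hyΩ : y ∈ P.Ω := (P.ι_mem z).2 hzΩ
  have hy'Ω : y' ∈ P.Ω := (P.ι_mem z').2 hz'Ω
  have hz'O : z' ∉ P.O := fun h => hzO ((P.O_φ z).1 h)
  have hφy' : P.φ y' = y := by
    have h1 := P.ι_ι _ ((P.φ_mem y').2 hy'Ω)
    rw [hdeg] at h1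
    exact h1.symm
  have hιy : P.ι y = z := P.ι_ι z hzΩ
  have hιy' : P.ι y' = z' := P.ι_ι z' hz'Ω
  have n1 : z' ≠ z := P.φ_ne hg hzΩ hzO hzB
  have n2 : y' ≠ z := P.ιφ_ne hF hzΩ hzO hzB
  have n3 : y ≠ z := P.ι_ne z hzΩ
  have n4 : y' ≠ z' := P.ι_ne z' hz'Ω
  have n5 : y ≠ z' := by
    intro h
    apply n2
    rw [hy', ← h]
    exact hιy
  have n6 : y ≠ y' := fun h => n1 (P.ι.injective h).symm
  have n7 : P.φ z' ≠ y := by
    intro h
    rw [← hφy'] at h
    exact n4 (P.φ.injective h).symm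
  have n8 : P.φ z' ≠ z' := by
    intro h
    rw [hz'] at h
    exact n1 (P.φ.injective h)
  have hφz'Ω : P.φ z' ∈ P.Ω := (P.φ_mem z').2 hz'Ω
  have hφz'O : P.φ z' ∉ P.O := fun h => hz'O ((P.O_φ z').1 h)
  let ψ : δ → δ := fun u => if u = y' then y else if u = z' then
    (if P.φ z' = y' then y else P.φ z') else u
  have ψy' : ψ y' = y := by simp [ψ]
  have ψz' : ψ z' = ψ (P.φ z') := by
    simp only [ψ, n4.symm, n8, if_false, if_true]
  have ψid : ∀ u, u ≠ y' → u ≠ z' → ψ u = u := by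
    intro u h1 h2
    simp [ψ, h1, h2]
  have ψΩ : ∀ u, ψ u ∈ (P.Ω.erase z').erase y' ↔ u ∈ P.Ω := by
    intro u
    simp only [ψ, mem_erase]
    split_ifs with h1 h2 h3
    · subst h1; simp [n5, n6, hyΩ, hy'Ω]
    · subst h2; simp [n5, n6, hyΩ, hz'Ω]
    · subst h2; simp [h3, n8, hφz'Ω, hz'Ω]
    · simp [h1, h2]
  have ψO : ∀ u, ψ u ∈ P.O ↔ u ∈ P.O := by
    intro u
    simp only [ψ]
    split_ifs with h1 h2 h3
    · subst h1; simp [hyO, hy'O]
    · subst h2; simp [hyO, hz'O]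
    · subst h2; simp [hφz'O, hz'O]
    · rfl
  let φ2 : Equiv.Perm δ := Equiv.swap y' y * Equiv.swap z' (P.φ z') * P.φ
  have φ2eq : ∀ w, w ≠ z' → w ≠ y' → φ2 w = ψ (P.φ w) := by
    intro w h1 h2
    have a1 : P.φ w ≠ P.φ z' := fun h => h1 (P.φ.injective h)
    have a2 : P.φ w ≠ y := by
      rw [← hφy']
      exact fun h => h2 (P.φ.injective h)
    simp only [φ2, ψ, Equiv.Perm.mul_apply, Equiv.swap_apply_def]
    split_ifs <;> simp_all
  have φ2z' : φ2 z' = z' := by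
    simp only [φ2, Equiv.Perm.mul_apply, Equiv.swap_apply_right]
    rw [Equiv.swap_apply_of_ne_of_ne n4.symm n5.symm]
  have φ2y' : φ2 y' = y' := by
    simp only [φ2, Equiv.Perm.mul_apply, hφy']
    rw [Equiv.swap_apply_of_ne_of_ne n5 n7.symm, Equiv.swap_apply_right]
  have memΩ' : ∀ w, w ∈ (P.Ω.erase z').erase y' ↔ w ≠ y' ∧ w ≠ z' ∧ w ∈ P.Ω := by
    intro w; simp
  let p2 : δ → List (E × Bool) := fun w =>
    if w = z then P.p z ++ P.p z' else if w = y then P.p y' ++ P.p y else P.p w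
  let τ : δ → δ := fun w => if w = z then z' else w
  have hpz := P.ne z hzΩ hzO
  have hpz' := P.ne z' hz'Ω hz'O
  have hpy := P.ne y hyΩ hyO
  have hpy' := P.ne y' hy'Ω hy'O
  have last2 : ∀ w, (p2 w).getLast? = (P.p (τ w)).getLast? := by
    intro w
    simp only [p2, τ]
    split_ifs with h1 h2
    · rw [List.getLast?_append, List.getLast?_eq_some_getLast hpz']; simp
    · rw [List.getLast?_append, h2, List.getLast?_eq_some_getLast hpy]; simp
    · rfl
  have head2 : ∀ u, u ≠ z' → u ≠ y → (p2 (ψ u)).head? = (P.p u).head? := by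
    intro u h1 h2
    by_cases h3 : u = y'
    · rw [h3, ψy']
      simp only [p2, n3, if_false, if_true]
      rw [List.head?_append, List.head?_eq_some_head hpy']; simp
    · rw [ψid u h3 h1]
      simp only [p2, h2, if_false]
      split_ifs with h4
      · rw [List.head?_append, h4, List.head?_eq_some_head hpz]; simp
      · rfl
  have φ2τ : ∀ w, w ≠ z' → w ≠ y' → φ2 w = ψ (P.φ (τ w)) ∧ P.φ (τ w) ≠ z' ∧ P.φ (τ w) ≠ y := by
    intro w h1 h2
    rw [φ2eq w h1 h2]
    simp only [τ]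
    split_ifs with h3
    · rw [h3]
      exact ⟨ψz', n8, n7⟩
    · refine ⟨rfl, fun h => h3 (P.φ.injective h), ?_⟩
      rw [← hφy']
      exact fun h => h2 (P.φ.injective h)
  have hpairz := P.pair z hzΩ hzO hyO
  have hpairz' := P.pair z' hz'Ω hz'O hy'O
  have hpairy : Γ.Paired (P.p y) (P.p z) := by
    have := P.pair y hyΩ hyO (by rw [hιy]; exact hzO)
    rwa [hιy] at this
  have hpairy' : Γ.Paired (P.p y') (P.p z') := by
    have := P.pair y' hy'Ω hy'O (by rw [hιy']; exact hz'O)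
    rwa [hιy'] at this
  have hιne : ∀ w, w ≠ y' → w ≠ z' → w ∈ P.Ω → P.ι w ≠ y' ∧ P.ι w ≠ z' := by
    intro w h1 h2 h3
    refine ⟨fun h => h2 (P.ι.injective h), fun h => h1 ?_⟩
    rw [← hιy'] at h
    exact P.ι.injective h
  refine ⟨{
    Ω := (P.Ω.erase z').erase y'
    φ := φ2
    ι := P.ι
    φ_mem := ?_
    ι_mem := ?_
    ι_ι := fun w hw => P.ι_ι w ((memΩ' w).1 hw).2.2
    ι_ne := fun w hw => P.ι_ne w ((memΩ' w).1 hw).2.2
    planar := ?_
    O := P.O
    O_sub := ?_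
    O_φ := ?_
    Bk := P.Bk.image fun b => if b = z' then z else b
    Bk_card := card_image_le.trans P.Bk_card
    p := p2
    RF := P.RF.image ψ
    ne := ?_
    len := ?_
    chain := ?_
    link := ?_
    brk := ?_
    pair := ?_
    one := ?_
    faces := ?_ }, ?_, rfl, card_image_le, ?_⟩
  · intro w
    by_cases h1 : w = z'
    · rw [h1, φ2z']
    by_cases h2 : w = y'
    · rw [h2, φ2y']
    rw [φ2eq w h1 h2, ψΩ, P.φ_mem, memΩ']
    simp [h1, h2]
  · intro w
    rw [memΩ', memΩ', P.ι_mem]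
    constructor
    · rintro ⟨h1, h2, h3⟩
      refine ⟨fun h => h2 ?_, fun h => h1 ?_, h3⟩
      · rw [h, hιy']
      · rw [h]
    · rintro ⟨h1, h2, h3⟩
      exact ⟨(hιne w h1 h2 h3).1, (hιne w h1 h2 h3).2, h3⟩
  · intro g hgg
    have e1 : g (ψ (P.φ z')) + g (ψ z') = 0 := by
      rw [ψz']; exact CharTwo.add_self_eq_zero _
    have e2 : g (ψ (P.φ y')) + g (ψ y') = 0 := by
      rw [hφy', ψy', ψid y n6 n5]; exact CharTwo.add_self_eq_zero _
    obtain ⟨h, hh⟩ := P.planar (fun u => g (ψ u)) (by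
      intro w hw
      by_cases h1 : w = z'
      · rw [h1, e1, e2]
      by_cases h2 : w = y'
      · rw [h2, hιy', e1, e2]
      obtain ⟨h3, h4⟩ := hιne w h2 h1 hw
      have := hgg w ((memΩ' w).2 ⟨h2, h1, hw⟩)
      rw [φ2eq w h1 h2, φ2eq _ h4 h3] at this
      rw [ψid w h2 h1, ψid _ h3 h4]
      exact this)
    have f1 := hh z' hz'Ω
    have f2 := hh y' hy'Ω
    simp only [e1, hιy', hφy'] at f1 f2
    have f3 : h y' = h z' := by
      have := f1.2
      rwa [CharTwo.add_eq_zero] at this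
    have hψ : ∀ u, h (ψ u) = h u := by
      intro u
      simp only [ψ]
      split_ifs with h1 h2 h3
      · rw [h1, f2.1, f3]
      · rw [h2, f2.1]
      · rw [h2, f1.1, f3]
      · rfl
    refine ⟨h, fun w hw => ?_⟩
    obtain ⟨h2, h1, hw'⟩ := (memΩ' w).1 hw
    have := hh w hw'
    rw [φ2eq w h1 h2, hψ]
    refine ⟨this.1, ?_⟩
    rw [this.2, ψid w h2 h1]
  · intro w hw
    refine (memΩ' w).2 ⟨?_, ?_, P.O_sub hw⟩
    · rintro rfl; exact hy'O hw
    · rintro rfl; exact hz'O hw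
  · intro w
    by_cases h1 : w = z'
    · rw [h1, φ2z']
    by_cases h2 : w = y'
    · rw [h2, φ2y']
    rw [φ2eq w h1 h2, ψO, P.O_φ]
  · intro w hw hO
    simp only [p2]
    split_ifs with h1 h2
    · simp [hpz]
    · simp [hpy]
    · exact P.ne w ((memΩ' w).1 hw).2.2 hO
  · intro w hw hO
    simp only [p2]
    split_ifs with h1 h2
    · simpa using hlen
    · rw [List.length_append, gl_paired_length hpairy, gl_paired_length hpairy']
      omega
    · exact P.len w ((memΩ' w).1 hw).2.2 hO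
  · intro w hw hO
    simp only [p2]
    split_ifs with h1 h2
    · exact (P.chain z hzΩ hzO).append (P.chain z' hz'Ω hz'O) (P.link z hzΩ hzO hzB)
    · refine (P.chain y' hy'Ω hy'O).append (P.chain y hyΩ hyO) ?_
      have := P.link y' hy'Ω hy'O hy'B
      rwa [hφy'] at this
    · exact P.chain w ((memΩ' w).1 hw).2.2 hO
  · intro w hw hO hB
    obtain ⟨h2, h1, hw'⟩ := (memΩ' w).1 hw
    obtain ⟨k1, k2, k3⟩ := φ2τ w h1 h2
    rw [last2, k1, head2 _ k2 k3]
    apply P.link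
    · simp only [τ]; split_ifs
      · exact hz'Ω
      · exact hw'
    · simp only [τ]; split_ifs
      · exact hz'O
      · exact hO
    · intro hb
      apply hB
      refine mem_image.2 ⟨_, hb, ?_⟩
      simp only [τ]
      by_cases h3 : w = z
      · simp [h3]
      · simp [h3, h1]
  · intro w hw
    obtain ⟨b, hb, rfl⟩ := mem_image.1 hw
    obtain ⟨k1, k2, k3⟩ := P.brk b hb
    have hbz : b ≠ z := fun h => hzB (h ▸ hb)
    have hby : b ≠ y' := fun h => hy'B (h ▸ hb)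
    by_cases h1 : b = z'
    · simp only [h1, if_true]
      obtain ⟨m1, m2, m3⟩ := φ2τ z n1.symm n2.symm
      refine ⟨(memΩ' z).2 ⟨n2.symm, n1.symm, hzΩ⟩, hzO, ?_⟩
      rw [m1, head2 _ m2 m3]
      simp only [τ, if_true]
      rw [← h1]
      exact k3
    · simp only [h1, if_false]
      obtain ⟨m1, m2, m3⟩ := φ2τ b h1 hby
      refine ⟨(memΩ' b).2 ⟨hby, h1, k1⟩, k2, ?_⟩
      rw [m1, head2 _ m2 m3]
      simp only [τ, hbz, if_false]
      exact k3
  · intro w hw hO hιO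
    obtain ⟨h2, h1, hw'⟩ := (memΩ' w).1 hw
    by_cases h3 : w = z
    · rw [h3]
      simp only [p2, ← hy, n3, if_false, if_true]
      exact gl_paired_append hpairz hpairz'
    by_cases h4 : w = y
    · rw [h4, hιy]
      simp only [p2, n3, if_false, if_true]
      exact gl_paired_append hpairy' hpairy
    have h5 : P.ι w ≠ z := by
      rw [← hιy]
      exact fun h => h4 (P.ι.injective h)
    have h6 : P.ι w ≠ y := fun h => h3 (P.ι.injective h)
    simp only [p2, h3, h4, h5, h6, if_false]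
    exact P.pair w hw' hO hιO
  · intro w hw hO hιO
    obtain ⟨h2, h1, hw'⟩ := (memΩ' w).1 hw
    have h3 : w ≠ z := by
      rintro rfl; exact hyO hιO
    have h4 : w ≠ y := by
      rintro rfl
      rw [hιy] at hιO
      exact hzO hιO
    simp only [p2, h3, h4, if_false]
    exact P.one w hw' hO hιO
  · intro w hw
    obtain ⟨h2, h1, hw'⟩ := (memΩ' w).1 hw
    obtain ⟨n, hn⟩ := P.faces w hw'
    have key : ∀ n : ℕ, ∃ m : ℕ, (φ2 ^ m) w = ψ ((P.φ ^ n) w) := by
      intro n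
      induction n with
      | zero => exact ⟨0, by simp [ψid w h2 h1]⟩
      | succ n ih =>
        obtain ⟨m, hm⟩ := ih
        rw [pow_succ', Equiv.Perm.mul_apply]
        set u := (P.φ ^ n) w
        by_cases k1 : u = z'
        · exact ⟨m, by rw [hm, k1, ψz']⟩
        by_cases k2 : u = y'
        · exact ⟨m, by rw [hm, k2, hφy', ψy', ψid y n6 n5]⟩
        refine ⟨m + 1, ?_⟩
        rw [pow_succ', Equiv.Perm.mul_apply, hm, ψid u k2 k1, φ2eq u k1 k2]
    obtain ⟨m, hm⟩ := key n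
    exact ⟨m, by rw [hm]; exact mem_image_of_mem _ hn⟩
  · calc ((P.Ω.erase z').erase y').card ≤ (P.Ω.erase z').card := card_le_card (erase_subset _ _)
      _ < P.Ω.card := card_erase_lt_of_mem hz'Ω
  · simp only [tot]
    have hset : (P.Ω.erase z').erase y' \ P.O = ((P.Ω \ P.O).erase z').erase y' := by
      ext w; simp only [mem_sdiff, mem_erase]; tauto
    rw [hset]
    have a1 : z' ∈ P.Ω \ P.O := mem_sdiff.2 ⟨hz'Ω, hz'O⟩
    have a2 : y' ∈ (P.Ω \ P.O).erase z' := mem_erase.2 ⟨n4, mem_sdiff.2 ⟨hy'Ω, hy'O⟩⟩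
    have a3 : z ∈ ((P.Ω \ P.O).erase z').erase y' :=
      mem_erase.2 ⟨n2.symm, mem_erase.2 ⟨n1.symm, mem_sdiff.2 ⟨hzΩ, hzO⟩⟩⟩
    have a4 : y ∈ ((P.Ω \ P.O).erase z').erase y' :=
      mem_erase.2 ⟨n6, mem_erase.2 ⟨n5, mem_sdiff.2 ⟨hyΩ, hyO⟩⟩⟩
    rw [← add_sum_erase _ _ a1, ← add_sum_erase _ _ a2]
    have : ∀ w, (p2 w).length = (P.p w).length + ((if w = z then (P.p z').length else 0) +
        (if w = y then (P.p y').length else 0)) := by
      intro w
      simp only [p2]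
      split_ifs with h1 h2 h3
      · exact absurd (h2.symm.trans h1) n3
      · simp [h1]
      · simp [h3, add_comm]
      · simp
    simp only [this, sum_add_distrib, sum_ite_eq', a3, a4, if_true]
    omega

end PD

end Vale.Agent.Kap
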