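import Vale.Agent.Kap.Defs

/-!
Euler's inequality for planar maps, on a finite type of darts.
-/

namespace Vale.Agent.Kap

open Finset Module

variable {α : Type} [Fintype α] [DecidableEq α]

/-- functions invariant under a permutation -/
def plInvSub (σ : Equiv.Perm α) : Submodule (ZMod 2) (α → ZMod 2) where
  carrier := {g | ∀ z, g (σ z) = g z}
  add_mem' := fun ha hb z => by simp only [Pi.add_apply, ha z, hb z]
  zero_mem' := fun _ => rfl
  smul_mem' := fun c g hg z => by simp only [Pi.smul_apply, hg z]

omit [DecidableEq α] in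
theorem pl_finrank_inv_le (σ : Equiv.Perm α) (R : Finset α) (hR : ∀ z, ∃ n : ℕ, (σ ^ n) z ∈ R) :
    finrank (ZMod 2) (plInvSub σ) ≤ R.card := by
  let L : plInvSub σ →ₗ[ZMod 2] (R → ZMod 2) :=
    { toFun := fun g r => g.1 r.1
      map_add' := fun _ _ => rfl
      map_smul' := fun _ _ => rfl }
  have hL : Function.Injective L := by
    rw [← LinearMap.ker_eq_bot, LinearMap.ker_eq_bot']
    intro g hg
    ext z
    obtain ⟨n, hn⟩ := hR z
    have h1 : ∀ n : ℕ, g.1 ((σ ^ n) z) = g.1 z := by
      intro n
      induction n with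
      | zero => rfl
      | succ n ih => rw [pow_succ', Equiv.Perm.mul_apply, g.2, ih]
    rw [← h1 n]
    exact congrFun hg ⟨_, hn⟩
  have := LinearMap.finrank_le_finrank_of_injective hL
  simpa using this

theorem pl_exists_reps (σ : Equiv.Perm α) : ∃ R : Finset α, (∀ z, ∃ n : ℕ, (σ ^ n) z ∈ R) ∧
    6 * R.card + (univ.filter fun z => σ (σ z) ≠ z).card ≤
      3 * Fintype.card α + 3 * (univ.filter fun z => σ z = z).card := by
  classical
  let s : Setoid α := ⟨σ.SameCycle, ⟨Equiv.Perm.SameCycle.refl σ, Equiv.Perm.SameCycle.symm,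
    Equiv.Perm.SameCycle.trans⟩⟩
  let rep : α → α := fun z => Quotient.out (Quotient.mk s z)
  have h1 : ∀ z, σ.SameCycle (rep z) z := fun z => Quotient.mk_out (s := s) z
  have h2 : ∀ z z', σ.SameCycle z z' → rep z = rep z' := fun z z' h => by
    simp only [rep, Quotient.sound (s := s) h]
  let wt : α → ℕ := fun z => if σ z = z then 6 else if σ (σ z) = z then 3 else 2
  refine ⟨univ.image rep, fun z => ?_, ?_⟩
  · obtain ⟨n, hn⟩ := (h1 z).symm.exists_nat_pow_eq
    exact ⟨n, by rw [hn]; exact Finset.mem_image_of_mem _ (Finset.mem_univ z)⟩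
  · have h3 : 6 * (univ.image rep).card ≤ ∑ z, wt z := by
      rw [← Finset.sum_fiberwise_of_maps_to (s := univ) (t := univ.image rep) (g := rep)
        (fun z hz => Finset.mem_image_of_mem _ hz), mul_comm, ← smul_eq_mul, ← Finset.sum_const]
      refine Finset.sum_le_sum fun r hr => ?_
      obtain ⟨z, _, rfl⟩ := Finset.mem_image.1 hr
      set r := rep z with hr'
      have e0 : rep r = r := h2 _ _ (h1 z)
      have e1 : rep (σ r) = r := by
        rw [← e0]; exact h2 _ _ (by rw [e0]; exact (Equiv.Perm.SameCycle.refl σ r).apply_left)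
      have e2 : rep (σ (σ r)) = r := by
        rw [← e1]
        exact h2 _ _ (by rw [e1]; exact (Equiv.Perm.SameCycle.refl σ (σ r)).apply_left)
      have hw : ∀ y, 2 ≤ wt y := fun y => by simp only [wt]; split_ifs <;> omega
      by_cases c1 : σ r = r
      · refine le_trans ?_ (Finset.sum_le_sum_of_subset (s := {r}) (by simp [e0]))
        simp [wt, c1]
      by_cases c2 : σ (σ r) = r
      · refine le_trans ?_ (Finset.sum_le_sum_of_subset (s := {r, σ r})
          (by intro y hy; simp at hy; rcases hy with rfl | rfl <;> simp [e0, e1]))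
        rw [Finset.sum_pair (Ne.symm c1)]
        have c3 : ¬r = σ r := Ne.symm c1
        simp [wt, c1, c2, c3]
      · refine le_trans ?_ (Finset.sum_le_sum_of_subset (s := {r, σ r, σ (σ r)})
          (by intro y hy; simp at hy; rcases hy with rfl | rfl | rfl <;> simp [e0, e1, e2]))
        have c3 : σ r ≠ σ (σ r) := fun h => c1 (σ.injective h).symm
        rw [Finset.sum_insert (by simp [Ne.symm c1, Ne.symm c2]), Finset.sum_pair c3]
        have := hw r
        have := hw (σ r)
        have := hw (σ (σ r))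
        omega
    have h4 : ∑ z, wt z + (univ.filter fun z => σ (σ z) ≠ z).card =
        3 * Fintype.card α + 3 * (univ.filter fun z => σ z = z).card := by
      rw [Finset.card_filter, Finset.card_filter, ← Finset.card_univ, Finset.card_eq_sum_ones,
        Finset.mul_sum, Finset.mul_sum, ← Finset.sum_add_distrib, ← Finset.sum_add_distrib]
      refine Finset.sum_congr rfl fun z _ => ?_
      simp only [wt]
      by_cases c1 : σ z = z
      · simp [c1]
      · by_cases c2 : σ (σ z) = z <;> simp [c1, c2]
    omega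

theorem pl_euler_fin [Nonempty α] (φ ι : Equiv.Perm α) (hι : ∀ z, ι (ι z) = z)
    (hne : ∀ z, ι z ≠ z)
    (planar : ∀ g : α → ZMod 2, (∀ z, g (φ z) + g z = g (φ (ι z)) + g (ι z)) →
      ∃ h : α → ZMod 2, ∀ z, h (φ z) = h (ι z) ∧ h (ι z) + h z = g (φ z) + g z)
    (RF : Finset α) (hRF : ∀ z, ∃ n : ℕ, (φ ^ n) z ∈ RF) :
    (univ.filter fun z => ι (φ (ι (φ z))) ≠ z).card + 12 ≤
      6 * RF.card + 3 * (univ.filter fun z => ι (φ z) = z).card := by
  have h2 : ∀ a : ZMod 2, a + a = 0 := by decide
  let e := Fintype.equivFin α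
  let R : Finset α := univ.filter fun z => e z < e (ι z)
  have hsplit : ∀ {N : Type} [AddCommMonoid N] (a : α → N),
      ∑ z, a z = ∑ r ∈ R, (a r + a (ι r)) := by
    intro N _ a
    rw [← Finset.sum_filter_add_sum_filter_not univ (fun z => e z < e (ι z)),
      Finset.sum_add_distrib]
    congr 1
    symm
    refine Finset.sum_nbij' ι ι (fun z hz => ?_) (fun z hz => ?_) (fun z _ => hι z)
      (fun z _ => hι z) (fun z _ => rfl)
    · simp only [R, Finset.mem_filter, Finset.mem_univ, true_and] at hz ⊢
      rw [hι]; exact not_lt.2 hz.le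
    · simp only [R, Finset.mem_filter, Finset.mem_univ, true_and] at hz ⊢
      rw [hι]
      exact lt_of_le_of_ne (not_lt.1 hz) fun h => hne z (e.injective h)
  have hcard : Fintype.card α = 2 * R.card := by
    have := hsplit (fun _ => (1 : ℕ))
    simpa [mul_comm] using this
  let L : (α → ZMod 2) →ₗ[ZMod 2] (R → ZMod 2) :=
    { toFun := fun g r => g (φ r) + g r + (g (φ (ι r)) + g (ι r))
      map_add' := fun g g' => by funext r; simp only [Pi.add_apply]; ring
      map_smul' := fun c g => by
        funext r; simp only [Pi.smul_apply, smul_eq_mul, RingHom.id_apply]; ring }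
  have hrange : finrank (ZMod 2) (LinearMap.range L) < R.card := by
    have hlt : LinearMap.range L ≠ ⊤ := by
      intro htop
      have hpos : 0 < R.card := by
        have := Fintype.card_pos (α := α); omega
      obtain ⟨r, hr⟩ := Finset.card_pos.1 hpos
      obtain ⟨g, hg⟩ := LinearMap.range_eq_top.1 htop (Pi.single ⟨r, hr⟩ 1)
      have h3 : ∑ x : R, L g x = 1 := by rw [hg]; simp
      have h4 : ∑ x : R, L g x = ∑ z, (g (φ z) + g z) := by
        rw [hsplit (fun z => g (φ z) + g z)]
        exact Finset.sum_coe_sort R fun r => g (φ r) + g r + (g (φ (ι r)) + g (ι r))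
      rw [h4, Finset.sum_add_distrib, Equiv.sum_comp φ g, h2] at h3
      exact zero_ne_one h3
    have := Submodule.finrank_lt hlt
    simpa using this
  have hrk := LinearMap.finrank_range_add_finrank_ker L
  rw [Module.finrank_fintype_fun_eq_card] at hrk
  let A := plInvSub φ
  let B := plInvSub (φ * ι)
  have hle : LinearMap.ker L ≤ A ⊔ B := by
    intro g hg
    have h3 : ∀ r ∈ R, g (φ r) + g r = g (φ (ι r)) + g (ι r) := by
      intro r hr
      have : g (φ r) + g r + (g (φ (ι r)) + g (ι r)) = 0 := congrFun (LinearMap.mem_ker.1 hg) ⟨r, hr⟩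
      linear_combination this - h2 (g (φ (ι r)) + g (ι r))
    obtain ⟨h, hh⟩ := planar g fun z => by
      by_cases hz : z ∈ R
      · exact h3 z hz
      · have hz' : ι z ∈ R := by
          simp only [R, Finset.mem_filter, Finset.mem_univ, true_and] at hz ⊢
          rw [hι]
          exact lt_of_le_of_ne (not_lt.1 hz) fun h => hne z (e.injective h)
        have := h3 _ hz'
        rw [hι] at this
        exact this.symm
    refine Submodule.mem_sup.2 ⟨g - h, fun z => ?_, h, fun z => ?_, sub_add_cancel g h⟩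
    · obtain ⟨h4, h5⟩ := hh z
      simp only [Pi.sub_apply]
      linear_combination -h4 - h5 - h2 (g z) + h2 (h z)
    · rw [Equiv.Perm.mul_apply, (hh (ι z)).1, hι]
  have hinf : 1 ≤ finrank (ZMod 2) (A ⊓ B : Submodule (ZMod 2) (α → ZMod 2)) := by
    rw [Nat.one_le_iff_ne_zero, Ne, Submodule.finrank_eq_zero]
    intro h
    have : (1 : α → ZMod 2) ∈ A ⊓ B := ⟨fun _ => rfl, fun _ => rfl⟩
    rw [h, Submodule.mem_bot] at this
    exact one_ne_zero this
  have hsup := Submodule.finrank_sup_add_finrank_inf_eq A B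
  have hker := Submodule.finrank_mono hle
  have hA := pl_finrank_inv_le φ RF hRF
  obtain ⟨RV, hRV, hV⟩ := pl_exists_reps (ι * φ)
  have hB : finrank (ZMod 2) B ≤ RV.card := by
    refine pl_finrank_inv_le (φ * ι) (RV.map φ.toEmbedding) (fun z => ?_) |>.trans (by simp)
    obtain ⟨n, hn⟩ := hRV (φ.symm z)
    refine ⟨n, Finset.mem_map.2 ⟨_, hn, ?_⟩⟩
    have : ∀ n : ℕ, φ (((ι * φ) ^ n) (φ.symm z)) = ((φ * ι) ^ n) z := by
      intro n
      induction n with
      | zero => simp
      | succ n ih => rw [pow_succ', pow_succ', Equiv.Perm.mul_apply, Equiv.Perm.mul_apply, ih]; rfl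
    exact this n
  change 6 * RV.card + (univ.filter fun z => ι (φ (ι (φ z))) ≠ z).card ≤
    3 * Fintype.card α + 3 * (univ.filter fun z => ι (φ z) = z).card at hV
  change finrank (ZMod 2) A ≤ _ at hA
  omega

end Vale.Agent.Kap
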