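import Vale.Agent.Kap.PlanarK33
import Vale.Agent.Kap.PlanarEuler

namespace Vale.Agent.Kap

/-- The cubic graph of a planar map has no `K_{3,3}` minor. -/
theorem PMap.not_hasK33 {δ : Type} (M : PMap δ) : ¬ HasK33 M.graph := M.not_hasK33'

/-- The cubic graph of a map has maximum degree three. -/
theorem PMap.graph_deg {δ : Type} (M : PMap δ) (u : δ) :
    ∃ s : Finset δ, s.card ≤ 3 ∧ ∀ v, M.graph.Adj u v → v ∈ s := by
  classical
  refine ⟨{M.φ u, M.ι u, M.φ.symm u}, Finset.card_le_three, fun v h => ?_⟩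
  rw [PMap.graph, SimpleGraph.fromRel_adj] at h
  obtain ⟨_, ⟨_, h2 | h2⟩ | ⟨h1, h2 | h2⟩⟩ := h
  · simp [h2]
  · simp [h2]
  · simp [h2]
  · simp [h2, M.ι_ι v h1]

/-- Euler's inequality: `RF` meets every face. -/
theorem PMap.euler {δ : Type} [DecidableEq δ] (M : PMap δ) (hne : M.Ω.Nonempty) (RF : Finset δ)
    (hRF : ∀ z ∈ M.Ω, ∃ n : ℕ, (M.φ ^ n) z ∈ RF) :
    (M.Ω.filter fun z => M.ι (M.φ (M.ι (M.φ z))) ≠ z).card + 12 ≤
      6 * RF.card + 3 * (M.Ω.filter fun z => M.ι (M.φ z) = z).card := by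
  let φ' : Equiv.Perm {z // z ∈ M.Ω} := M.φ.subtypePerm M.φ_mem
  let ι' : Equiv.Perm {z // z ∈ M.Ω} := M.ι.subtypePerm M.ι_mem
  have : Nonempty {z // z ∈ M.Ω} := hne.to_subtype
  have hφ : ∀ z, (φ' z).1 = M.φ z.1 := fun _ => rfl
  have hι : ∀ z, (ι' z).1 = M.ι z.1 := fun _ => rfl
  have key := pl_euler_fin φ' ι' (fun z => Subtype.ext (M.ι_ι z.1 z.2))
    (fun z h => M.ι_ne z.1 z.2 (congrArg Subtype.val h))
    (fun g hg => by
      obtain ⟨h, hh⟩ := M.planar (fun z => if hz : z ∈ M.Ω then g ⟨z, hz⟩ else 0) fun z hz => by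
        have h1 := (M.φ_mem z).2 hz
        have h2 := (M.ι_mem z).2 hz
        have h3 := (M.φ_mem _).2 h2
        rw [dif_pos hz, dif_pos h1, dif_pos h2, dif_pos h3]
        exact hg ⟨z, hz⟩
      refine ⟨fun z => h z.1, fun z => ⟨(hh z.1 z.2).1, ?_⟩⟩
      have := (hh z.1 z.2).2
      rw [dif_pos z.2, dif_pos ((M.φ_mem z.1).2 z.2)] at this
      exact this)
    (Finset.univ.filter fun z => z.1 ∈ RF) (fun z => by
      obtain ⟨n, hn⟩ := hRF z.1 z.2
      refine ⟨n, ?_⟩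
      have : ∀ n : ℕ, ((φ' ^ n) z).1 = (M.φ ^ n) z.1 := by
        intro n
        induction n with
        | zero => rfl
        | succ n ih => rw [pow_succ', pow_succ', Equiv.Perm.mul_apply, hφ, ih]; rfl
      simp [this n, hn])
  have c1 : ∀ (p : δ → Prop) [DecidablePred p] (q : {z // z ∈ M.Ω} → Prop) [DecidablePred q],
      (∀ z, q z ↔ p z.1) → (Finset.univ.filter q).card = (M.Ω.filter p).card := by
    intro p _ q _ h
    refine Finset.card_bij (fun z _ => z.1) (fun z hz => ?_) (fun a _ b _ h => Subtype.ext h)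
      (fun b hb => ?_)
    · simp only [Finset.mem_filter, Finset.mem_univ, true_and] at hz ⊢
      exact ⟨z.2, (h z).1 hz⟩
    · obtain ⟨h1, h2⟩ := Finset.mem_filter.1 hb
      exact ⟨⟨b, h1⟩, by simp [h, h2], rfl⟩
  rw [c1 (fun z => M.ι (M.φ (M.ι (M.φ z))) ≠ z) _ (fun z => by rw [Ne, Subtype.ext_iff]; rfl),
    c1 (fun z => z ∈ RF) _ (fun z => Iff.rfl),
    c1 (fun z => M.ι (M.φ z) = z) (fun z => ι' (φ' z) = z)
      (fun z => by rw [Subtype.ext_iff]; rfl)] at key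
  have c2 : (M.Ω.filter fun z => z ∈ RF).card ≤ RF.card :=
    Finset.card_le_card fun z hz => (Finset.mem_filter.1 hz).2
  omega

end Vale.Agent.Kap
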