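import Vale.Agent.Kap.KPR
import Vale.Agent.Kap.Planar
import Vale.Agent.Kap.GlobalPD

namespace Vale.Agent.Kap

open Finset

section orbits

variable {δ : Type} (φ : Equiv.Perm δ)

theorem gl_pow_mem {T : Finset δ} (hT : ∀ z, φ z ∈ T ↔ z ∈ T) (n : ℕ) (z : δ) :
    (φ ^ n) z ∈ T ↔ z ∈ T := by
  induction n with
  | zero => simp
  | succ n ih => rw [pow_succ', Equiv.Perm.mul_apply, hT, ih]

theorem gl_period {T : Finset δ} (hT : ∀ z, φ z ∈ T ↔ z ∈ T) {z : δ} (hz : z ∈ T) :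
    ∃ m : ℕ, (φ ^ m) (φ z) = z := by
  obtain ⟨a, b, hab, h⟩ := T.finite_toSet.exists_lt_map_eq_of_forall_mem
    (f := fun n : ℕ => (φ ^ n) z) (fun n => (gl_pow_mem φ hT n z).2 hz)
  obtain ⟨c, rfl⟩ := Nat.exists_eq_add_of_lt hab
  refine ⟨c, ?_⟩
  have h' : (φ ^ a) z = (φ ^ a) ((φ ^ c) (φ z)) := by
    rw [h, pow_succ, pow_add]
    rfl
  exact ((φ ^ a).injective h').symm

theorem gl_reach_iff {T : Finset δ} (hT : ∀ z, φ z ∈ T ↔ z ∈ T) (B : Finset δ) {z : δ}
    (hz : z ∈ T) : (∃ n : ℕ, (φ ^ n) (φ z) ∈ B) ↔ ∃ n : ℕ, (φ ^ n) z ∈ B := by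
  constructor
  · rintro ⟨n, hn⟩
    exact ⟨n + 1, by rw [pow_succ]; exact hn⟩
  · rintro ⟨n, hn⟩
    obtain ⟨m, hm⟩ := gl_period φ hT hz
    refine ⟨n + m, ?_⟩
    rw [pow_add, Equiv.Perm.mul_apply, hm]
    exact hn

open Classical in
theorem gl_reps (g : ℕ) : ∀ (n : ℕ) (T : Finset δ), T.card = n → (∀ z, φ z ∈ T ↔ z ∈ T) →
    (∀ z ∈ T, ∀ k, 0 < k → k < g → (φ ^ k) z ≠ z) →
    ∃ R : Finset δ, g * R.card ≤ T.card ∧ ∀ z ∈ T, ∃ n : ℕ, (φ ^ n) z ∈ R := by
  intro n
  induction n using Nat.strong_induction_on with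
  | _ n ih =>
  intro T hn hT hk
  rcases T.eq_empty_or_nonempty with rfl | ⟨r, hr⟩
  · exact ⟨∅, by simp, by simp⟩
  let Orb := T.filter fun z => ∃ n : ℕ, (φ ^ n) z ∈ ({r} : Finset δ)
  let T' := T.filter fun z => ¬ ∃ n : ℕ, (φ ^ n) z ∈ ({r} : Finset δ)
  have hcard : Orb.card + T'.card = T.card := card_filter_add_card_filter_not _
  have hOrb : g ≤ Orb.card := by
    have : (range g).card ≤ Orb.card := by
      refine card_le_card_of_injOn (fun i => (φ ^ i)⁻¹ r) ?_ ?_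
      · intro i _
        refine mem_coe.2 (mem_filter.2 ⟨?_, i, by simp⟩)
        rw [← gl_pow_mem φ hT i]
        simpa using hr
      · have aux : ∀ i j, i < j → j < g → (φ ^ i)⁻¹ r ≠ (φ ^ j)⁻¹ r := by
          intro i j hij hj h
          obtain ⟨c, rfl⟩ := Nat.exists_eq_add_of_lt hij
          apply hk r hr (c + 1) (by omega) (by omega)
          have h1 : (φ ^ (i + c + 1)) ((φ ^ i)⁻¹ r) = r := by rw [h]; simp
          rw [show i + c + 1 = (c + 1) + i by omega, pow_add, Equiv.Perm.mul_apply] at h1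
          simpa using h1
        intro i hi j hj h
        rcases lt_trichotomy i j with h1 | h1 | h1
        · exact absurd h (aux i j h1 (by simpa using hj))
        · exact h1
        · exact absurd h.symm (aux j i h1 (by simpa using hi))
    simpa using this
  have hpos : 0 < Orb.card := card_pos.2 ⟨r, mem_filter.2 ⟨hr, 0, by simp⟩⟩
  obtain ⟨R, hR, hR'⟩ := ih T'.card (by omega) T' rfl (by
    intro z
    simp only [T', mem_filter, hT]
    refine and_congr_right fun hz => ?_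
    rw [gl_reach_iff φ hT _ hz]) (fun z hz => hk z (mem_filter.1 hz).1)
  refine ⟨insert r R, ?_, ?_⟩
  · calc g * (insert r R).card ≤ g * (R.card + 1) := Nat.mul_le_mul_left _ (card_insert_le _ _)
      _ ≤ T.card := by rw [mul_add]; omega
  · intro z hz
    by_cases h : ∃ n : ℕ, (φ ^ n) z ∈ ({r} : Finset δ)
    · obtain ⟨n, hn⟩ := h
      exact ⟨n, by rw [mem_singleton.1 hn]; exact mem_insert_self _ _⟩
    · obtain ⟨n, hn⟩ := hR' z (mem_filter.2 ⟨hz, h⟩)
      exact ⟨n, mem_insert_of_mem hn⟩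

end orbits

section init

variable {V E S : Type} {Γ : LG V E S} {x0 : V} {lam : ℕ} {δ : Type}

theorem gl_face_chain (e : δ → E × Bool) (φ : Equiv.Perm δ) (T : Finset δ)
    (hT : ∀ z, φ z ∈ T ↔ z ∈ T) (hs : ∀ z ∈ T, glStep Γ (e z) (e (φ z))) :
    ∀ (k : ℕ) (z : δ), z ∈ T → ∃ l : List (E × Bool), l.length = k + 1 ∧
      l.IsChain (glStep Γ) ∧ l.head? = some (e z) ∧ l.getLast? = some (e ((φ ^ k) z)) := by
  intro k
  induction k with
  | zero => intro z _; exact ⟨[e z], rfl, by simp, rfl, by simp⟩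
  | succ k ih =>
    intro z hz
    obtain ⟨l, h1, h2, h3, h4⟩ := ih (φ z) ((hT z).2 hz)
    refine ⟨e z :: l, by simp [h1], ?_, rfl, ?_⟩
    · rw [List.isChain_cons]
      refine ⟨fun y hy => ?_, h2⟩
      rw [h3] at hy
      simp at hy
      rw [← hy]
      exact hs z hz
    · cases l with
      | nil => simp at h1
      | cons a l =>
        rw [List.getLast?_cons_cons, h4, pow_succ]
        rfl

theorem gl_init [DecidableEq δ] (hlam : 1 ≤ lam) (hg : Γ.Girth (2 * lam + 1))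
    (D : Diagram Γ x0 δ) (hD : D.IsReduced) :
    ∃ P : PD Γ x0 lam δ, P.O = D.O ∧ P.tot = (D.Ω \ D.O).card ∧
      (2 * lam + 1) * P.RF.card ≤ (2 * lam + 1) * (P.O.card + 1) + P.tot := by
  classical
  have hstep : ∀ z ∈ D.Ω, z ∉ D.O → z ∉ D.Bk → glStep Γ (D.e z) (D.e (D.φ z)) :=
    fun z h1 h2 h3 => ⟨D.cont z h1 h2 h3, hD.1 z h1 h2 h3⟩
  have hU : ∀ z, D.φ z ∈ D.Ω \ D.O ↔ z ∈ D.Ω \ D.O := by
    intro z; simp only [mem_sdiff, D.φ_mem, D.O_φ]
  let T := (D.Ω \ D.O).filter fun z => ¬ ∃ n : ℕ, (D.φ ^ n) z ∈ D.Bk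
  have hT : ∀ z, D.φ z ∈ T ↔ z ∈ T := by
    intro z
    simp only [T, mem_filter, hU]
    refine and_congr_right fun hz => ?_
    rw [gl_reach_iff D.φ hU _ hz]
  have hTs : ∀ z ∈ T, glStep Γ (D.e z) (D.e (D.φ z)) := by
    intro z hz
    obtain ⟨h1, h2⟩ := mem_filter.1 hz
    exact hstep z (mem_sdiff.1 h1).1 (mem_sdiff.1 h1).2 (fun h => h2 ⟨0, by simpa using h⟩)
  obtain ⟨R, hR, hR'⟩ := gl_reps D.φ (2 * lam + 1) _ T rfl hT (by
    intro z hz k hk hk' h
    obtain ⟨k, rfl⟩ : ∃ j, k = j + 1 := ⟨k - 1, by omega⟩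
    obtain ⟨l, h1, h2, h3, h4⟩ := gl_face_chain D.e D.φ T hT hTs k z hz
    have hne : l ≠ [] := by rintro rfl; simp at h1
    have := gl_girth hg hne h2 (by
      intro a ha b hb
      rw [h4] at ha
      rw [h3] at hb
      simp at ha hb
      have h5 := (hTs _ ((gl_pow_mem D.φ hT k z).2 hz)).1
      rw [← ha, ← hb, h5, ← Equiv.Perm.mul_apply, ← pow_succ', h])
    omega)
  refine ⟨{
    toPMap := D.toPMap
    O := D.O
    O_sub := D.O_sub
    O_φ := D.O_φ
    Bk := D.Bk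
    Bk_card := D.Bk_card
    p := fun z => [D.e z]
    RF := D.O ∪ D.Bk ∪ R
    ne := fun _ _ _ => by simp
    len := fun _ _ _ => by simpa using hlam
    chain := fun _ _ _ => by simp
    link := ?_
    brk := ?_
    pair := ?_
    one := fun _ _ _ _ => rfl
    faces := ?_ }, rfl, ?_, ?_⟩
  · intro z h1 h2 h3 a ha b hb
    simp at ha hb
    rw [← ha, ← hb]
    exact hstep z h1 h2 h3
  · intro z hz
    obtain ⟨h1, h2, h3⟩ := D.brk z hz
    refine ⟨h1, h2, fun b hb => ?_⟩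
    simp at hb
    rw [← hb, h3]
  · intro z h1 h2 h3
    have h4 := D.ltr_ι z h1 h2 h3
    have h5 := hD.2 z h1 h2 h3
    simp only [LG.Paired, List.reverse_singleton, List.forall₂_cons, List.Forall₂.nil, and_true]
    refine ⟨h4, fun h => h5 ?_⟩
    have h6 := congrArg Prod.snd h4
    exact Prod.ext h h6
  · intro z hz
    by_cases h1 : z ∈ D.O
    · exact ⟨0, by simp [h1]⟩
    by_cases h2 : ∃ n : ℕ, (D.φ ^ n) z ∈ D.Bk
    · obtain ⟨n, hn⟩ := h2
      exact ⟨n, by simp [hn]⟩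
    · obtain ⟨n, hn⟩ := hR' z (mem_filter.2 ⟨mem_sdiff.2 ⟨hz, h1⟩, h2⟩)
      exact ⟨n, by simp [hn]⟩
  · simp [PD.tot]
  · have h1 : (D.O ∪ D.Bk ∪ R).card ≤ D.O.card + 1 + R.card := by
      have := card_union_le (D.O ∪ D.Bk) R
      have := card_union_le D.O D.Bk
      have := D.Bk_card
      omega
    have h2 : T.card ≤ (D.Ω \ D.O).card := card_filter_le _ _
    have h3 := Nat.mul_le_mul_left (2 * lam + 1) h1
    simp only [PD.tot, List.length_singleton, sum_const, smul_eq_mul, mul_one]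
    rw [mul_add] at h3
    omega

end init

namespace PD

variable {V E S : Type} {Γ : LG V E S} {x0 : V} {lam : ℕ} {δ : Type} [DecidableEq δ]
  (P : PD Γ x0 lam δ)

theorem count (hF : Γ.Folded) (hirr : ∀ z, ¬ P.Contr z)
    (hRF : (2 * lam + 1) * P.RF.card ≤ (2 * lam + 1) * (P.O.card + 1) + P.tot) :
    lam * (P.Ω \ P.O).card ≤ 11 * lam * P.O.card + 5 * P.tot := by
  rcases P.Ω.eq_empty_or_nonempty with h0 | hne
  · simp [h0]
  set U := P.Ω \ P.O with hUdef
  have hU : ∀ z, P.φ z ∈ U ↔ z ∈ U := by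
    intro z; simp only [hUdef, mem_sdiff, P.φ_mem, P.O_φ]
  have he := P.toPMap.euler hne P.RF P.faces
  have hinj : Function.Injective fun z => P.ι (P.φ z) := P.ι.injective.comp P.φ.injective
  let A1 := U.filter fun z => P.ι (P.φ z) ∈ P.Bk
  let A2 := U.filter fun z => P.ι z ∈ P.O
  let A3 := U.filter fun z => P.ι (P.φ z) ∈ P.O
  let A4 := P.Ω.filter fun z => P.ι (P.φ (P.ι (P.φ z))) ≠ z
  let A5 := U.filter fun z => lam < (P.p z).length + (P.p (P.φ z)).length
  have c1 : A1.card ≤ 1 := by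
    refine le_trans (card_le_card_of_injOn (fun z => P.ι (P.φ z)) ?_ hinj.injOn) P.Bk_card
    intro z hz
    exact (mem_filter.1 hz).2
  have c2 : A2.card ≤ P.O.card := by
    refine card_le_card_of_injOn (fun z => P.ι z) ?_ P.ι.injective.injOn
    intro z hz
    exact (mem_filter.1 hz).2
  have c3 : A3.card ≤ P.O.card := by
    refine card_le_card_of_injOn (fun z => P.ι (P.φ z)) ?_ hinj.injOn
    intro z hz
    exact (mem_filter.1 hz).2
  have c4 : (P.Ω.filter fun z => P.ι (P.φ z) = z).card ≤ P.O.card + 1 := by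
    refine le_trans (card_le_card (t := P.O ∪ P.Bk) ?_) ((card_union_le _ _).trans ?_)
    · intro z hz
      obtain ⟨h1, h2⟩ := mem_filter.1 hz
      by_contra h
      rw [mem_union, not_or] at h
      exact P.ιφ_ne hF h1 h.1 h.2 h2
    · have := P.Bk_card
      omega
  have c5 : (lam + 1) * A5.card ≤ 2 * P.tot := by
    have h1 : ∑ z ∈ U, (P.p (P.φ z)).length = P.tot := by
      refine sum_bij (fun z _ => P.φ z) (fun z hz => (hU z).2 hz)
        (fun a _ b _ h => P.φ.injective h) (fun b hb => ⟨P.φ.symm b, ?_, by simp⟩)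
        (fun _ _ => rfl)
      rw [← hU, Equiv.apply_symm_apply]
      exact hb
    calc (lam + 1) * A5.card = ∑ _z ∈ A5, (lam + 1) := by simp [mul_comm]
      _ ≤ ∑ z ∈ A5, ((P.p z).length + (P.p (P.φ z)).length) :=
        sum_le_sum fun z hz => (mem_filter.1 hz).2
      _ ≤ ∑ z ∈ U, ((P.p z).length + (P.p (P.φ z)).length) :=
        sum_le_sum_of_subset (filter_subset _ _)
      _ = 2 * P.tot := by
        rw [sum_add_distrib, h1]
        simp only [tot, ← hUdef]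
        omega
  have hsub : U ⊆ P.Bk ∪ A1 ∪ A2 ∪ A3 ∪ A4 ∪ A5 := by
    intro z hz
    by_contra h
    simp only [mem_union, not_or, A1, A2, A3, A4, A5, mem_filter, hz, true_and, not_and,
      not_not, not_lt] at h
    obtain ⟨⟨⟨⟨⟨h1, h2⟩, h3⟩, h4⟩, h5⟩, h6⟩ := h
    obtain ⟨k1, k2⟩ := mem_sdiff.1 hz
    exact hirr z ⟨k1, k2, h1, h2, h3, h4, h5 k1, h6⟩
  have hc : U.card ≤ P.Bk.card + A1.card + A2.card + A3.card + A4.card + A5.card := by
    refine (card_le_card hsub).trans ?_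
    have := card_union_le (P.Bk ∪ A1 ∪ A2 ∪ A3 ∪ A4) A5
    have := card_union_le (P.Bk ∪ A1 ∪ A2 ∪ A3) A4
    have := card_union_le (P.Bk ∪ A1 ∪ A2) A3
    have := card_union_le (P.Bk ∪ A1) A2
    have := card_union_le P.Bk A1
    omega
  have hB := P.Bk_card
  have he' : A4.card + 12 ≤ 6 * P.RF.card + 3 * (P.O.card + 1) := by
    refine he.trans ?_
    omega
  have hU1 : U.card + 7 ≤ 5 * P.O.card + 6 * P.RF.card + A5.card := by omega
  have k1 : lam * A5.card ≤ 2 * P.tot := by nlinarith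
  have k2 : 2 * lam * P.RF.card ≤ 2 * lam * (P.O.card + 1) + P.tot := by
    by_cases h : P.RF.card ≤ P.O.card + 1
    · have := Nat.mul_le_mul_left (2 * lam) h
      omega
    · nlinarith
  have k3 := Nat.mul_le_mul_left lam hU1
  nlinarith

open Classical in
theorem local_sum {K : ℕ} {κ A B η ε : ℝ} (hA : 0 ≤ A) (hB : 0 ≤ B) (hη : 0 ≤ η)
    (hL : Γ.LocalIso x0 K lam κ A B η) (part : δ → δ)
    (h1 : ∀ a, ((P.Ω \ P.O).filter fun u => part u = a).card ≤ K)
    (h2 : (((((P.Ω \ P.O) ×ˢ (P.Ω \ P.O)).filter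
      fun x => P.toPMap.graph.Adj x.1 x.2 ∧ part x.1 ≠ part x.2).card : ℝ)) ≤
      ε * (P.Ω \ P.O).card) :
    κ * P.tot ≤ A * (ε * (P.Ω \ P.O).card) + B * (P.O.card + lam * (ε * (P.Ω \ P.O).card)) +
      η * lam * (P.Ω \ P.O).card := by
  set U := P.Ω \ P.O with hUdef
  set Cut := (U ×ˢ U).filter fun x => P.toPMap.graph.Adj x.1 x.2 ∧ part x.1 ≠ part x.2
  have hU : ∀ z, P.φ z ∈ U ↔ z ∈ U := by
    intro z; simp only [hUdef, mem_sdiff, P.φ_mem, P.O_φ]
  let I := U.image part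
  have hI : ∀ z ∈ U, part z ∈ I := fun z hz => mem_image_of_mem _ hz
  let W : δ → Finset δ := fun a => U.filter fun u => part u = a
  let G0 := U.filter fun z => z ∉ P.Bk ∧ part (P.φ z) = part z
  let Pa0 := U.filter fun z => P.ι z ∈ U ∧ part (P.ι z) = part z
  let N0 := U.filter fun z => ¬ (P.ι z ∈ U ∧ part (P.ι z) = part z)
  let Gl : δ → Finset δ := fun a => G0.filter fun u => part u = a
  let Pa : δ → Finset δ := fun a => Pa0.filter fun u => part u = a
  let ρ : δ → ℕ := fun a => (P.Bk.filter fun b => part (P.φ b) = a).card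
  have hloc : ∀ a, κ * (∑ z ∈ W a, ((P.p z).length : ℝ)) ≤
      A * (((W a).card : ℝ) - (Gl a).card - ρ a) +
        B * (∑ z ∈ W a \ Pa a, ((P.p z).length : ℝ)) + η * lam := by
    intro a
    refine hL δ (W a) (Gl a) (Pa a) P.p P.φ P.ι (ρ a) (h1 a) ?_ ?_ ?_ P.φ.injective.injOn ?_ ?_ ?_
    · intro z hz
      obtain ⟨k1, k2⟩ := mem_sdiff.1 (mem_filter.1 hz).1
      exact ⟨P.ne z k1 k2, P.len z k1 k2, gl_reduced_of_chain (P.chain z k1 k2),
        gl_exists_path (P.ne z k1 k2) (P.chain z k1 k2)⟩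
    · intro z hz
      obtain ⟨k1, k2⟩ := mem_filter.1 hz
      exact mem_filter.2 ⟨(mem_filter.1 k1).1, k2⟩
    · intro z hz
      obtain ⟨k1, k2⟩ := mem_filter.1 hz
      obtain ⟨k3, k4, k5⟩ := mem_filter.1 k1
      obtain ⟨m1, m2⟩ := mem_sdiff.1 k3
      obtain ⟨m3, m4⟩ := mem_sdiff.1 ((hU z).2 k3)
      have hc : (P.p z ++ P.p (P.φ z)).IsChain (glStep Γ) :=
        (P.chain z m1 m2).append (P.chain _ m3 m4) (P.link z m1 m2 k4)
      exact ⟨mem_filter.2 ⟨(hU z).2 k3, k5.trans k2⟩, gl_reduced_of_chain hc,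
        gl_exists_path (by simp [P.ne z m1 m2]) hc⟩
    · intro z hz
      obtain ⟨k1, k2⟩ := mem_filter.1 hz
      exact mem_filter.2 ⟨(mem_filter.1 k1).1, k2⟩
    · intro z hz
      obtain ⟨k1, k2⟩ := mem_filter.1 hz
      obtain ⟨k3, k4, k5⟩ := mem_filter.1 k1
      obtain ⟨m1, m2⟩ := mem_sdiff.1 k3
      have hi := P.ι_ι z m1
      refine ⟨mem_filter.2 ⟨mem_filter.2 ⟨k4, ?_, ?_⟩, k5.trans k2⟩, hi,
        P.pair z m1 m2 (mem_sdiff.1 k4).2⟩
      · rw [hi]; exact k3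
      · rw [hi, k5]
    · have hρ : ρ a ≤ 1 := (card_filter_le _ _).trans P.Bk_card
      rcases Nat.eq_zero_or_pos (ρ a) with h0 | h0
      · exact Or.inl h0
      · obtain ⟨b, hb⟩ := card_pos.1 h0
        obtain ⟨k1, k2⟩ := mem_filter.1 hb
        obtain ⟨m1, m2, m3⟩ := P.brk b k1
        have hφ := (hU b).2 (mem_sdiff.2 ⟨m1, m2⟩)
        obtain ⟨m4, m5⟩ := mem_sdiff.1 hφ
        refine Or.inr ⟨by omega, P.φ b, mem_filter.2 ⟨hφ, k2⟩, ?_⟩
        have hc := P.chain _ m4 m5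
        have hne := P.ne _ m4 m5
        cases hp : P.p (P.φ b) with
        | nil => exact absurd hp hne
        | cons o l =>
          rw [hp] at hc m3
          obtain ⟨y, hy⟩ := gl_path_of_chain o l hc
          rw [m3 o (by simp)] at hy
          exact ⟨y, hy⟩
  have s1 : ∑ a ∈ I, ∑ z ∈ W a, ((P.p z).length : ℝ) = P.tot := by
    rw [sum_fiberwise_of_maps_to hI]
    simp only [tot, ← hUdef]
    push_cast
    rfl
  have s2 : ∑ a ∈ I, ((W a).card : ℝ) = U.card := by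
    rw [card_eq_sum_card_fiberwise hI]
    push_cast
    rfl
  have s3 : ∑ a ∈ I, ((Gl a).card : ℝ) = G0.card := by
    rw [card_eq_sum_card_fiberwise (f := part) (s := G0) (t := I)
      (fun z hz => hI z (mem_filter.1 hz).1)]
    push_cast
    rfl
  have s4 : ∑ a ∈ I, (ρ a : ℝ) = P.Bk.card := by
    rw [card_eq_sum_card_fiberwise (f := fun b => part (P.φ b)) (s := P.Bk) (t := I)
      (fun z hz => hI _ ((hU z).2 (mem_sdiff.2 ⟨(P.brk z hz).1, (P.brk z hz).2.1⟩)))]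
    push_cast
    rfl
  have s5 : ∑ a ∈ I, ∑ z ∈ W a \ Pa a, ((P.p z).length : ℝ) =
      ∑ z ∈ N0, ((P.p z).length : ℝ) := by
    rw [← sum_fiberwise_of_maps_to (g := part) (s := N0) (t := I)
      (fun z hz => hI z (mem_filter.1 hz).1)]
    refine sum_congr rfl fun a _ => sum_congr ?_ fun _ _ => rfl
    ext z
    simp only [W, Pa, Pa0, N0, mem_sdiff, mem_filter]
    tauto
  have hadj : ∀ z ∈ U, ∀ w, (w = P.φ z ∨ w = P.ι z) → part w ≠ part z →
      P.toPMap.graph.Adj z w := by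
    intro z hz w hw hp
    rw [PMap.graph, SimpleGraph.fromRel_adj]
    refine ⟨fun h => hp (by rw [h]), Or.inl ⟨(mem_sdiff.1 hz).1, hw⟩⟩
  have t1 : (U.card : ℝ) - G0.card - P.Bk.card ≤ ε * U.card := by
    let C1 := U.filter fun z => part (P.φ z) ≠ part z
    have a1 : C1.card ≤ Cut.card := by
      refine card_le_card_of_injOn (fun z => (z, P.φ z)) ?_ (fun a _ b _ h => congrArg Prod.fst h)
      intro z hz
      obtain ⟨k1, k2⟩ := mem_filter.1 hz
      exact mem_coe.2 (mem_filter.2 ⟨mem_product.2 ⟨k1, (hU z).2 k1⟩,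
        hadj z k1 _ (Or.inl rfl) k2, k2.symm⟩)
    have a2 : U.card ≤ G0.card + P.Bk.card + C1.card := by
      refine (card_le_card (t := G0 ∪ P.Bk ∪ C1) ?_).trans ?_
      · intro z hz
        simp only [G0, C1, mem_union, mem_filter, hz, true_and]
        tauto
      · have := card_union_le (G0 ∪ P.Bk) C1
        have := card_union_le G0 P.Bk
        omega
    have a3 : (U.card : ℝ) ≤ G0.card + P.Bk.card + Cut.card := by
      exact_mod_cast a2.trans (by omega)
    linarith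
  have t2 : ∑ z ∈ N0, ((P.p z).length : ℝ) ≤ P.O.card + lam * (ε * U.card) := by
    let C1 := U.filter fun z => P.ι z ∈ P.O
    let C2 := U.filter fun z => P.ι z ∈ U ∧ part (P.ι z) ≠ part z
    have a1 : C2.card ≤ Cut.card := by
      refine card_le_card_of_injOn (fun z => (z, P.ι z)) ?_ (fun a _ b _ h => congrArg Prod.fst h)
      intro z hz
      obtain ⟨k1, k2, k3⟩ := mem_filter.1 hz
      exact mem_coe.2 (mem_filter.2 ⟨mem_product.2 ⟨k1, k2⟩,
        hadj z k1 _ (Or.inr rfl) k3, k3.symm⟩)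
    have a2 : C1.card ≤ P.O.card := by
      refine card_le_card_of_injOn (fun z => P.ι z) ?_ P.ι.injective.injOn
      intro z hz
      exact (mem_filter.1 hz).2
    have a3 : N0 ⊆ C1 ∪ C2 := by
      intro z hz
      obtain ⟨k1, k2⟩ := mem_filter.1 hz
      have k3 : P.ι z ∈ P.Ω := (P.ι_mem z).2 (mem_sdiff.1 k1).1
      simp only [C1, C2, mem_union, mem_filter, k1, true_and]
      by_cases k4 : P.ι z ∈ P.O
      · exact Or.inl k4
      · have k5 : P.ι z ∈ U := mem_sdiff.2 ⟨k3, k4⟩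
        exact Or.inr ⟨k5, fun h => k2 ⟨k5, h⟩⟩
    have a4 : ∑ z ∈ N0, (P.p z).length ≤ P.O.card + lam * Cut.card := by
      calc ∑ z ∈ N0, (P.p z).length ≤ ∑ z ∈ C1 ∪ C2, (P.p z).length := sum_le_sum_of_subset a3
        _ ≤ ∑ z ∈ C1, (P.p z).length + ∑ z ∈ C2, (P.p z).length := by
          rw [← sum_union_inter]; omega
        _ ≤ ∑ _z ∈ C1, 1 + ∑ _z ∈ C2, lam := by
          refine add_le_add (sum_le_sum fun z hz => ?_) (sum_le_sum fun z hz => ?_)
          · obtain ⟨k1, k2⟩ := mem_filter.1 hz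
            exact (P.one z (mem_sdiff.1 k1).1 (mem_sdiff.1 k1).2 k2).le
          · obtain ⟨k1, _⟩ := mem_filter.1 hz
            exact P.len z (mem_sdiff.1 k1).1 (mem_sdiff.1 k1).2
        _ ≤ P.O.card + lam * Cut.card := by
          simp only [sum_const, smul_eq_mul, mul_one]
          have := Nat.mul_le_mul_left lam a1
          rw [mul_comm C2.card]
          omega
    have a5 : ∑ z ∈ N0, ((P.p z).length : ℝ) ≤ P.O.card + lam * Cut.card := by
      exact_mod_cast a4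
    have a6 : (lam : ℝ) * Cut.card ≤ lam * (ε * U.card) :=
      mul_le_mul_of_nonneg_left h2 (Nat.cast_nonneg _)
    linarith
  have t3 : (I.card : ℝ) ≤ U.card := by exact_mod_cast card_image_le
  have hs := sum_le_sum fun a (_ : a ∈ I) => hloc a
  simp only [sum_add_distrib, ← mul_sum, sum_sub_distrib, s1, s2, s3, s4, s5, sum_const,
    nsmul_eq_mul] at hs
  have u1 := mul_le_mul_of_nonneg_left t1 hA
  have u2 := mul_le_mul_of_nonneg_left t2 hB
  have u3 := mul_le_mul_of_nonneg_left t3 (mul_nonneg hη (Nat.cast_nonneg lam))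
  nlinarith

end PD

/-- Local-to-global principle. -/
theorem isoIneq_of_localIso (κ A0 B : ℝ) (hκ : 0 < κ) (hA0 : 0 ≤ A0) (hB : 0 ≤ B) :
    ∃ (K : ℕ) (η : ℝ), 0 < η ∧ ∀ (lam : ℕ), 1 ≤ lam →
      ∀ (V E S : Type) (Γ : LG V E S) (x0 : V) (A : ℝ), Γ.Folded → Γ.Bip →
        Γ.Girth (2 * lam + 1) → 0 ≤ A → A ≤ A0 * lam → Γ.LocalIso x0 K lam κ A B η →
        ∃ C : ℕ, Γ.IsoIneq x0 C := by
  have hpos : 0 < A0 + B + 1 := by linarith
  set ε : ℝ := κ / (20 * (A0 + B + 1)) with hε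
  have hε0 : 0 < ε := by positivity
  have hεb : (A0 + B) * ε ≤ κ / 20 := by
    rw [hε, mul_div_assoc', div_le_div_iff₀ (by positivity) (by positivity)]
    nlinarith
  obtain ⟨K, hK⟩ := kpr ε hε0
  refine ⟨K, κ / 20, by positivity, fun lam hlam V E S Γ x0 A hF _ hg hA hA' hL => ?_⟩
  set c : ℝ := 2 * (11 * (κ / 10) * lam + B) / κ with hc
  refine ⟨⌈c⌉₊, fun δ inst D hD => ?_⟩
  have hinst : inst = fun a b => Classical.propDecidable (a = b) := Subsingleton.elim _ _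
  subst hinst
  let _ : DecidableEq δ := fun a b => Classical.propDecidable (a = b)
  have key : ∀ (n : ℕ) (P : PD Γ x0 lam δ), P.Ω.card = n →
      (2 * lam + 1) * P.RF.card ≤ (2 * lam + 1) * (P.O.card + 1) + P.tot →
      (P.tot : ℝ) ≤ c * P.O.card := by
    intro n
    induction n using Nat.strong_induction_on with
    | _ n ih =>
    intro P hn hRF
    by_cases hz : ∃ z, P.Contr z
    · obtain ⟨z, hz⟩ := hz
      obtain ⟨Q, q1, q2, q3, q4⟩ := P.contract hF hg hz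
      have := ih Q.Ω.card (by omega) Q rfl (by
        rw [q2, q4]
        exact (Nat.mul_le_mul_left _ q3).trans hRF)
      rwa [q2, q4] at this
    · have h1 := P.count hF (fun z h => hz ⟨z, h⟩) hRF
      obtain ⟨part, h2, h3⟩ := hK δ P.toPMap.graph (P.Ω \ P.O) P.toPMap.graph_deg
        P.toPMap.not_hasK33
      have h4 := P.local_sum hA hB (by positivity : (0 : ℝ) ≤ κ / 20) hL part h2 h3
      have h5 : (lam : ℝ) * (P.Ω \ P.O).card ≤ 11 * lam * P.O.card + 5 * P.tot := by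
        exact_mod_cast h1
      set N : ℝ := ((P.Ω \ P.O).card : ℝ)
      have hN : 0 ≤ N := Nat.cast_nonneg _
      have hl0 : (0 : ℝ) ≤ lam := Nat.cast_nonneg _
      have h6 : A * (ε * N) ≤ A0 * lam * (ε * N) :=
        mul_le_mul_of_nonneg_right hA' (by positivity)
      have h7 : (A0 + B) * ε * (lam * N) ≤ κ / 20 * (lam * N) :=
        mul_le_mul_of_nonneg_right hεb (by positivity)
      have h8 : κ / 10 * (lam * N) ≤ κ / 10 * (11 * lam * P.O.card + 5 * P.tot) :=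
        mul_le_mul_of_nonneg_left h5 (by positivity)
      rw [hc, div_mul_eq_mul_div, le_div_iff₀ hκ]
      nlinarith
  obtain ⟨P, p1, p2, p3⟩ := gl_init hlam hg D hD
  have h1 := key _ P rfl p3
  rw [p1, p2] at h1
  have h2 : c * D.O.card ≤ (⌈c⌉₊ : ℝ) * D.O.card :=
    mul_le_mul_of_nonneg_right (Nat.le_ceil c) (Nat.cast_nonneg _)
  exact_mod_cast h1.trans h2

end Vale.Agent.Kap
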