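import Vale.Agent.Kap.Defs

namespace Vale.Agent.Kap

namespace KPR

variable {δ : Type}

/-- There is a walk of length at most `n`. -/
inductive Near (G : SimpleGraph δ) : ℕ → δ → δ → Prop
  | refl (n u) : Near G n u u
  | step {n u v w} : Near G n u v → G.Adj v w → Near G (n + 1) u w

theorem Near.mono {G G' : SimpleGraph δ} {n m u v} (h : Near G n u v) (hG : G ≤ G') (hn : n ≤ m) :
    Near G' m u v := by
  induction h generalizing m with
  | refl => exact .refl _ _
  | step _ h ih =>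
    obtain ⟨m, rfl⟩ : ∃ k, m = k + 1 := ⟨m - 1, by omega⟩
    exact .step (ih (by omega)) (hG h)

theorem Near.trans {G : SimpleGraph δ} {n m u v w} (h : Near G n u v) (h' : Near G m v w) :
    Near G (n + m) u w := by
  induction h' with
  | refl => exact h.mono le_rfl (by omega)
  | step _ h' ih => exact .step (ih h) h'

theorem Near.symm {G : SimpleGraph δ} {n u v} (h : Near G n u v) : Near G n v u := by
  induction h with
  | refl => exact .refl _ _
  | step _ h ih => exact ((Near.step (.refl 0 _) h.symm).trans ih).mono le_rfl (by omega)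

theorem exists_ball {G : SimpleGraph δ}
    (hG : ∀ u, ∃ s : Finset δ, s.card ≤ 3 ∧ ∀ v, G.Adj u v → v ∈ s) (n : ℕ) (u : δ) :
    ∃ s : Finset δ, s.card ≤ 4 ^ n ∧ ∀ v, Near G n u v → v ∈ s := by
  classical
  choose N hN hN' using hG
  induction n with
  | zero => exact ⟨{u}, by simp, fun v h => by cases h; simp⟩
  | succ n ih =>
    obtain ⟨s, h1, h2⟩ := ih
    refine ⟨s ∪ s.biUnion N, ?_, fun v h => ?_⟩
    · have := Finset.card_biUnion_le_card_mul s N 3 fun a _ => hN a
      have := Finset.card_union_le s (s.biUnion N)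
      omega
    · cases h with
      | refl => exact Finset.mem_union_left _ (h2 _ (.refl _ _))
      | step h h' => exact Finset.mem_union_right _ (Finset.mem_biUnion.2 ⟨_, h2 _ h, hN' _ _ h'⟩)

/-- A breadth first search forest. -/
structure BFS (H : SimpleGraph δ) where
  root : δ → δ
  l : δ → ℕ
  par : δ → δ
  root_adj : ∀ {u v}, H.Adj u v → root u = root v
  lip : ∀ {u v}, H.Adj u v → l v ≤ l u + 1
  zero : ∀ {v}, l v = 0 → root v = v ∧ par v = v
  adj : ∀ {v}, l v ≠ 0 → H.Adj v (par v) ∧ l (par v) + 1 = l v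

theorem exists_bfs (H : SimpleGraph δ) : Nonempty (BFS H) := by
  classical
  let root : δ → δ := fun v => (H.connectedComponentMk v).out
  have hr : ∀ v, H.Reachable v (root v) := fun v =>
    SimpleGraph.ConnectedComponent.exact (Quot.out_eq (H.connectedComponentMk v)).symm
  have hadj : ∀ {u v}, H.Adj u v → root u = root v := fun h => by
    simp only [root, SimpleGraph.ConnectedComponent.connectedComponentMk_eq_of_adj h]
  have hpar : ∀ v, ∃ p, (H.dist v (root v) = 0 → p = v) ∧ (H.dist v (root v) ≠ 0 →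
      H.Adj v p ∧ H.dist p (root p) + 1 = H.dist v (root v)) := by
    intro v
    by_cases h : H.dist v (root v) = 0
    · exact ⟨v, fun _ => rfl, fun h' => absurd h h'⟩
    · obtain ⟨p, hp⟩ := (hr v).exists_walk_length_eq_dist
      generalize hrv : root v = r at p hp h
      cases p with
      | nil => simp at h
      | @cons _ x _ hx q =>
        refine ⟨x, fun h' => absurd h' h, fun _ => ⟨hx, ?_⟩⟩
        rw [← hadj hx, hrv]
        have h1 := SimpleGraph.dist_le q
        obtain ⟨q', hq'⟩ := q.reachable.exists_walk_length_eq_dist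
        have h2 := SimpleGraph.dist_le (SimpleGraph.Walk.cons hx q')
        simp only [SimpleGraph.Walk.length_cons] at hp h2
        omega
  choose par h1 h2 using hpar
  refine ⟨⟨root, fun v => H.dist v (root v), par, hadj, fun {u v} h => ?_,
    fun {v} h => ⟨((hr v).dist_eq_zero_iff.1 h).symm, h1 v h⟩, fun {v} h => h2 v h⟩⟩
  obtain ⟨q, hq⟩ := (hr u).exists_walk_length_eq_dist
  have := SimpleGraph.dist_le (SimpleGraph.Walk.cons h.symm q)
  simp only [SimpleGraph.Walk.length_cons] at this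
  rw [← hadj h]
  omega

namespace BFS

variable {H : SimpleGraph δ} (T : BFS H)

theorem l_par (v : δ) : T.l (T.par v) = T.l v - 1 := by
  by_cases h : T.l v = 0
  · rw [(T.zero h).2]; omega
  · have := (T.adj h).2; omega

theorem inv_par {α : Type} {f : δ → α} (hf : ∀ u v, H.Adj u v → f u = f v) (v : δ) :
    f (T.par v) = f v := by
  by_cases h : T.l v = 0
  · rw [(T.zero h).2]
  · exact (hf _ _ (T.adj h).1).symm

theorem l_iter (k : ℕ) (v : δ) : T.l (T.par^[k] v) = T.l v - k := by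
  induction k with
  | zero => rfl
  | succ k ih => rw [Function.iterate_succ_apply', l_par, ih]; omega

theorem inv_iter {α : Type} {f : δ → α} (hf : ∀ u v, H.Adj u v → f u = f v) (k : ℕ) (v : δ) :
    f (T.par^[k] v) = f v := by
  induction k with
  | zero => rfl
  | succ k ih => rw [Function.iterate_succ_apply', T.inv_par hf, ih]

theorem iter_l (v : δ) : T.par^[T.l v] v = T.root v := by
  rw [← T.inv_iter (f := T.root) (fun _ _ => T.root_adj) (T.l v) v]
  exact (T.zero (by rw [l_iter]; omega)).1.symm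

theorem inv_root {α : Type} {f : δ → α} (hf : ∀ u v, H.Adj u v → f u = f v) {u v : δ}
    (h : T.root u = T.root v) : f u = f v := by
  rw [← T.inv_iter hf (T.l u) u, ← T.inv_iter hf (T.l v) v, iter_l, iter_l, h]

theorem near_iter {H' : SimpleGraph δ} (v : δ) (k : ℕ)
    (h : ∀ i < k, H.Adj (T.par^[i] v) (T.par^[i + 1] v) → H'.Adj (T.par^[i] v) (T.par^[i + 1] v)) :
    Near H' k v (T.par^[k] v) := by
  induction k with
  | zero => exact .refl _ _
  | succ k ih =>
    have ih' := ih fun i hi => h i (by omega)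
    by_cases h0 : T.l (T.par^[k] v) = 0
    · rw [Function.iterate_succ_apply', (T.zero h0).2]
      exact ih'.mono le_rfl (by omega)
    · exact .step ih' (h k (by omega) (by
        rw [Function.iterate_succ_apply']; exact (T.adj h0).1))

theorem near_l {n u v} (h : Near H n u v) : T.l v ≤ T.l u + n ∧ T.l u ≤ T.l v + n := by
  induction h with
  | refl => omega
  | step _ h ih =>
    have := T.lip h
    have := T.lip h.symm
    omega

end BFS

def Lnk (G : SimpleGraph δ) (X : Set δ) : δ → δ → Prop :=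
  Relation.ReflTransGen (fun x y => G.Adj x y ∧ x ∈ X ∧ y ∈ X)

theorem Lnk.symm {G : SimpleGraph δ} {X : Set δ} {u v} (h : Lnk G X u v) : Lnk G X v u := by
  induction h with
  | refl => exact .refl
  | tail _ h ih => exact .head ⟨h.1.symm, h.2.2, h.2.1⟩ ih

theorem Lnk.mono {G : SimpleGraph δ} {X Y : Set δ} {u v} (h : Lnk G X u v) (hX : X ⊆ Y) :
    Lnk G Y u v := by
  induction h with
  | refl => exact .refl
  | tail _ h ih => exact .tail ih ⟨h.1, hX h.2.1, hX h.2.2⟩

/-- A partial minor model with `m` branch sets on one side. -/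
structure Stage (G H : SimpleGraph δ) (X : Set δ) (y : Fin 3 → δ) (Δ R m : ℕ) where
  A : ℕ → Set δ
  B : Fin 3 → Set δ
  w : Fin 3 → δ
  A_sub : ∀ k < m, A k ⊆ X
  B_sub : ∀ j, B j ⊆ X
  A_conn : ∀ k < m, ∀ u ∈ A k, ∀ v ∈ A k, Lnk G (A k) u v
  B_conn : ∀ j, ∀ u ∈ B j, Lnk G (B j) (w j) u
  AA : ∀ k < m, ∀ k' < k, Disjoint (A k) (A k')
  AB : ∀ k < m, ∀ j, Disjoint (A k) (B j)
  adj : ∀ k < m, ∀ j, ∃ u ∈ A k, ∃ v ∈ B j, G.Adj u v
  near : ∀ j, ∀ u ∈ B j, Near G R (y j) u
  w_mem : ∀ j, w j ∈ B j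
  far : ∀ k < m, ∀ j, ∀ u ∈ A k, ¬ Near H Δ (w j) u

theorem Stage.step {G H H' : SimpleGraph δ} {X : Set δ} {y : Fin 3 → δ} {Δ R m : ℕ}
    (S : Stage G H' X y Δ R m) (hH : H ≤ G) (T : BFS H) (a : δ) (c : ℕ) (hc : 1 ≤ c)
    (hX : ∀ v ∈ X, T.root v = a ∧ c + 2 * Δ + 1 ≤ T.l v ∧ T.l v ≤ c + 3 * Δ + 1)
    (hkeep : ∀ u v, H.Adj u v → c + 2 * Δ + 1 ≤ T.l u → T.l u ≤ c + 3 * Δ + 1 →
      c + 2 * Δ + 1 ≤ T.l v → T.l v ≤ c + 3 * Δ + 1 → H'.Adj u v) :
    Nonempty (Stage G H {v | T.root v = a} y Δ (R + (3 * Δ + 1)) (m + 1)) := by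
  classical
  have hw := fun j => hX _ (S.B_sub j (S.w_mem j))
  have hroot : ∀ j k, T.root (T.par^[k] (S.w j)) = a := fun j k =>
    (T.inv_iter (fun _ _ => T.root_adj) k _).trans (hw j).1
  let A' : Set δ := {v | (∃ j k, v = T.par^[k] (S.w j)) ∧ T.l v < c}
  let B' : Fin 3 → Set δ := fun j => S.B j ∪ {v | (∃ k, v = T.par^[k] (S.w j)) ∧ c ≤ T.l v}
  have hB' : ∀ j, ∀ v ∈ B' j, c ≤ T.l v := by
    rintro j v (h | h)
    · have := hX _ (S.B_sub j h); omega
    · exact h.2
  have hlnk : ∀ j k, c ≤ T.l (T.par^[k] (S.w j)) → Lnk G (B' j) (S.w j) (T.par^[k] (S.w j)) := by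
    intro j k
    induction k with
    | zero => exact fun _ => .refl
    | succ k ih =>
      intro h
      have h1 : c ≤ T.l (T.par^[k] (S.w j)) := by rw [T.l_iter] at h ⊢; omega
      refine .tail (ih h1) ⟨?_, Or.inr ⟨⟨_, rfl⟩, h1⟩, Or.inr ⟨⟨_, rfl⟩, h⟩⟩
      rw [Function.iterate_succ_apply']
      exact hH (T.adj (by omega)).1
  have hl : ∀ j, T.l (T.par^[T.l (S.w j) - (c + Δ)] (S.w j)) = c + Δ := fun j => by
    rw [T.l_iter]; have := hw j; omega
  have hA' : ∀ n, ∀ v ∈ A', T.l v = n → Lnk G A' v a := by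
    intro n
    induction n with
    | zero =>
      rintro _ ⟨⟨j, k, rfl⟩, -⟩ h
      rw [← (T.zero h).1, hroot]
      exact .refl
    | succ n ih =>
      rintro _ ⟨⟨j, k, rfl⟩, h1⟩ h
      have h2 := T.adj (v := T.par^[k] (S.w j)) (by omega)
      have h3 : T.par (T.par^[k] (S.w j)) ∈ A' :=
        ⟨⟨j, k + 1, (Function.iterate_succ_apply' _ _ _).symm⟩, by omega⟩
      exact .head ⟨hH h2.1, ⟨⟨j, k, rfl⟩, h1⟩, h3⟩ (ih _ h3 (by omega))
  have hcase : ∀ {P : ℕ → Set δ → Prop}, (∀ k < m, P k (S.A k)) → P m A' →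
      ∀ k < m + 1, P k (Function.update S.A m A' k) := by
    intro P h1 h2 k hk
    by_cases h : k = m
    · subst h; simpa using h2
    · rw [Function.update_of_ne h]; exact h1 k (by omega)
  refine ⟨⟨Function.update S.A m A', B', fun j => T.par^[T.l (S.w j) - (c + Δ)] (S.w j),
    hcase (P := fun _ A => A ⊆ {v | T.root v = a}) ?_ ?_, ?_,
    hcase (P := fun _ A => ∀ u ∈ A, ∀ v ∈ A, Lnk G A u v) S.A_conn ?_, ?_,
    hcase (P := fun k A => ∀ k' < k, Disjoint A (Function.update S.A m A' k')) ?_ ?_,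
    hcase (P := fun _ A => ∀ j, Disjoint A (B' j)) ?_ ?_,
    hcase (P := fun _ A => ∀ j, ∃ u ∈ A, ∃ v ∈ B' j, G.Adj u v) ?_ ?_, ?_, ?_,
    hcase (P := fun _ A => ∀ j, ∀ u ∈ A,
      ¬ Near H Δ (T.par^[T.l (S.w j) - (c + Δ)] (S.w j)) u) ?_ ?_⟩⟩
  · exact fun k hk v hv => (hX _ (S.A_sub k hk hv)).1
  · rintro _ ⟨⟨j, k, rfl⟩, -⟩
    exact hroot j k
  · rintro j v (h | ⟨⟨k, rfl⟩, -⟩)
    · exact (hX _ (S.B_sub j h)).1
    · exact hroot j k
  · exact fun u hu v hv => (hA' _ u hu rfl).trans (hA' _ v hv rfl).symm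
  · intro j u hu
    refine (hlnk j _ (by rw [hl]; omega)).symm.trans ?_
    rcases hu with h | ⟨⟨k, rfl⟩, h⟩
    · exact (S.B_conn j u h).mono Set.subset_union_left
    · exact hlnk j k h
  · intro k hk k' hk'
    rw [Function.update_of_ne (by omega)]
    exact S.AA k hk k' hk'
  · intro k hk
    rw [Function.update_of_ne (by omega), Set.disjoint_left]
    intro v hv hv'
    have := hX _ (S.A_sub k hk hv')
    have := hv.2
    omega
  · intro k hk j
    rw [Set.disjoint_left]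
    rintro v hv (h | ⟨⟨i, rfl⟩, -⟩)
    · exact Set.disjoint_left.1 (S.AB k hk j) hv h
    · have h1 := hX _ (S.A_sub k hk hv)
      have h2 := hw j
      rw [T.l_iter] at h1
      refine S.far k hk j _ hv ((T.near_iter (S.w j) i fun i' hi' h => ?_).mono le_rfl (by omega))
      refine hkeep _ _ h ?_ ?_ ?_ ?_ <;> rw [T.l_iter] <;> omega
  · intro j
    rw [Set.disjoint_left]
    intro v hv hv'
    have := hB' j v hv'
    have := hv.2
    omega
  · intro k hk j
    obtain ⟨u, hu, v, hv, h⟩ := S.adj k hk j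
    exact ⟨u, hu, v, Or.inl hv, h⟩
  · intro j
    have h1 := hw j
    have h2 : T.l (T.par^[T.l (S.w j) - c] (S.w j)) = c := by rw [T.l_iter]; omega
    have h3 := T.adj (v := T.par^[T.l (S.w j) - c] (S.w j)) (by omega)
    exact ⟨_, ⟨⟨j, _, (Function.iterate_succ_apply' _ _ _).symm⟩, by omega⟩, _,
      Or.inr ⟨⟨_, rfl⟩, h2.ge⟩, (hH h3.1).symm⟩
  · rintro j v (h | ⟨⟨i, rfl⟩, h⟩)
    · exact (S.near j v h).mono le_rfl (by omega)
    · have h1 := hw j
      rw [T.l_iter] at h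
      exact (S.near j _ (S.w_mem j)).trans
        ((T.near_iter (S.w j) i fun _ _ h => h).mono hH (by omega))
  · exact fun j => Or.inr ⟨⟨_, rfl⟩, by rw [hl]; omega⟩
  · intro k hk j u hu h
    have h1 := hX _ (S.A_sub k hk hu)
    have h2 := T.near_l h
    rw [hl] at h2
    omega
  · intro j u hu h
    have h1 := hu.2
    have h2 := T.near_l h
    rw [hl] at h2
    omega

theorem Stage.hasK33 {G H : SimpleGraph δ} {X : Set δ} {y : Fin 3 → δ} {Δ R : ℕ}
    (S : Stage G H X y Δ R 3) (hy : ∀ j j', j ≠ j' → ¬ Near G (R + R) (y j) (y j')) :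
    HasK33 G := by
  refine ⟨fun a => if a.1 then S.B a.2 else S.A a.2, ?_, ?_, fun i j => S.adj i i.2 j⟩
  · rintro ⟨_ | _, j⟩ u hu v hv
    · exact S.A_conn j j.2 u hu v hv
    · exact (S.B_conn j u hu).symm.trans (S.B_conn j v hv)
  · rintro ⟨_ | _, i⟩ ⟨_ | _, j⟩ h
    · have : (i : ℕ) ≠ j := fun e => h (by rw [Fin.ext e])
      rcases this.lt_or_gt with h | h
      · exact (S.AA j j.2 i h).symm
      · exact S.AA i i.2 j h
    · exact S.AB i i.2 j
    · exact (S.AB j j.2 i).symm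
    · exact Set.disjoint_left.2 fun v hv hv' =>
        hy i j (fun e => h (by rw [e])) ((S.near i v hv).trans (S.near j v hv').symm)

/-- Keep only the edges inside the fibres of `f`. -/
def cut (H : SimpleGraph δ) (f : δ → ℕ) : SimpleGraph δ where
  Adj u v := H.Adj u v ∧ f u = f v
  symm := ⟨fun _ _ h => ⟨h.1.symm, h.2.symm⟩⟩
  loopless := ⟨fun _ h => H.irrefl h.1⟩

open Classical in
theorem exists_offset {H : SimpleGraph δ} (T : BFS H) (E : Finset (δ × δ)) (Δ : ℕ) :
    ∃ o, (Δ + 1) * (E.filter fun x => H.Adj x.1 x.2 ∧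
      (T.l x.1 + o) / (Δ + 1) ≠ (T.l x.2 + o) / (Δ + 1)).card ≤ E.card := by
  have key : ∀ n o o' : ℕ, o < Δ + 1 → o' < Δ + 1 → (n + o) / (Δ + 1) ≠ (n + 1 + o) / (Δ + 1) →
      (n + o') / (Δ + 1) ≠ (n + 1 + o') / (Δ + 1) → o = o' := by
    intro n o o' ho ho' h h'
    rw [add_right_comm n 1, Nat.succ_div] at h h'
    have h1 : Δ + 1 ∣ n + o + 1 := by by_contra h1; simp [h1] at h
    have h2 : Δ + 1 ∣ n + o' + 1 := by by_contra h2; simp [h2] at h'
    have h3 := Nat.eq_zero_of_dvd_of_lt (Nat.dvd_sub h1 h2) (by omega)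
    have h4 := Nat.eq_zero_of_dvd_of_lt (Nat.dvd_sub h2 h1) (by omega)
    omega
  have h1 : ∑ o ∈ Finset.range (Δ + 1), (E.filter fun x => H.Adj x.1 x.2 ∧
      (T.l x.1 + o) / (Δ + 1) ≠ (T.l x.2 + o) / (Δ + 1)).card ≤ E.card := by
    rw [← Finset.card_biUnion]
    · exact Finset.card_le_card (Finset.biUnion_subset.2 fun _ _ => Finset.filter_subset _ _)
    · intro o ho o' ho' hne
      refine Finset.disjoint_filter.2 fun x _ h h' => hne ?_
      have := T.lip h.1
      have := T.lip h.1.symm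
      simp only [Finset.coe_range, Set.mem_Iio] at ho ho'
      rcases lt_trichotomy (T.l x.1) (T.l x.2) with h3 | h3 | h3
      · have e : T.l x.2 = T.l x.1 + 1 := by omega
        exact key _ _ _ ho ho' (e ▸ h.2) (e ▸ h'.2)
      · exact absurd (by rw [h3]) h.2
      · have e : T.l x.1 = T.l x.2 + 1 := by omega
        exact key _ _ _ ho ho' (e ▸ h.2.symm) (e ▸ h'.2.symm)
  obtain ⟨o, -, ho⟩ := Finset.exists_le_of_sum_le (s := Finset.range (Δ + 1)) (by simp)
    (f := fun o => (Δ + 1) * (E.filter fun x => H.Adj x.1 x.2 ∧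
      (T.l x.1 + o) / (Δ + 1) ≠ (T.l x.2 + o) / (Δ + 1)).card) (g := fun _ => E.card) (by
      rw [← Finset.mul_sum, Finset.sum_const, Finset.card_range, smul_eq_mul]
      exact Nat.mul_le_mul_left _ h1)
  exact ⟨o, ho⟩

/-- One backward step of the construction, in terms of bands. -/
theorem Stage.step' {G H : SimpleGraph δ} {X : Set δ} {y : Fin 3 → δ} {Δ R m o : ℕ} (T : BFS H)
    (S : Stage G (cut H fun v => (T.l v + o) / (Δ + 1)) X y Δ R m) (hH : H ≤ G) (z : δ)
    (hz : ¬ Near G (3 * Δ + 2) (T.root z) z)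
    (hX : ∀ v ∈ X, T.root v = T.root z ∧ (T.l v + o) / (Δ + 1) = (T.l z + o) / (Δ + 1)) :
    Nonempty (Stage G H {v | T.root v = T.root z} y Δ (R + (3 * Δ + 1)) (m + 1)) := by
  have h1 : 3 * Δ + 2 < T.l z := by
    by_contra h
    refine hz (Near.symm ?_)
    rw [← T.iter_l]
    exact (T.near_iter z _ fun _ _ h => h).mono hH (by omega)
  have h2 : ∀ n, n / (Δ + 1) = (T.l z + o) / (Δ + 1) ↔
      (T.l z + o) / (Δ + 1) * (Δ + 1) ≤ n ∧ n ≤ (T.l z + o) / (Δ + 1) * (Δ + 1) + Δ := by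
    intro n
    rw [Nat.div_eq_iff (by omega)]
    simp
  have h3 := (h2 _).1 rfl
  refine S.step hH T _ ((T.l z + o) / (Δ + 1) * (Δ + 1) - o - (2 * Δ + 1)) (by omega)
    (fun v hv => ⟨(hX v hv).1, ?_⟩) fun u v h _ _ _ _ => ⟨h, ?_⟩
  · have := (h2 _).1 (hX v hv).2
    omega
  · exact ((h2 _).2 (by omega)).trans ((h2 _).2 (by omega)).symm

end KPR

open KPR in
open Classical in
/-- Klein-Plotkin-Rao: subcubic graphs without a `K_{3,3}` minor are hyperfinite. -/
theorem kpr (ε : ℝ) (hε : 0 < ε) : ∃ K : ℕ, ∀ (δ : Type) (G : SimpleGraph δ) (U : Finset δ),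
    (∀ u, ∃ s : Finset δ, s.card ≤ 3 ∧ ∀ v, G.Adj u v → v ∈ s) → ¬ HasK33 G →
    ∃ part : δ → δ, (∀ a, (U.filter fun u => part u = a).card ≤ K) ∧
      (((U ×ˢ U).filter fun x => G.Adj x.1 x.2 ∧ part x.1 ≠ part x.2).card : ℝ) ≤ ε * U.card := by
  obtain ⟨Δ, hΔ⟩ := exists_nat_ge (9 / ε)
  refine ⟨3 * 4 ^ (18 * Δ + 6), fun δ G U hG hK => ?_⟩
  let E := (U ×ˢ U).filter fun x => G.Adj x.1 x.2
  have hE : E.card ≤ 3 * U.card := by
    choose N hN hN' using hG
    refine (Finset.card_le_card (t := U.biUnion fun u => (N u).image fun v => (u, v)) ?_).trans ?_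
    · intro x hx
      simp only [E, Finset.mem_filter, Finset.mem_product] at hx
      exact Finset.mem_biUnion.2 ⟨x.1, hx.1.1, Finset.mem_image.2 ⟨x.2, hN' _ _ hx.2, rfl⟩⟩
    · rw [mul_comm]
      exact Finset.card_biUnion_le_card_mul _ _ _ fun u _ => Finset.card_image_le.trans (hN u)
  obtain ⟨T1⟩ := exists_bfs G
  obtain ⟨o1, h1⟩ := exists_offset T1 E Δ
  obtain ⟨T2⟩ := exists_bfs (cut G fun v => (T1.l v + o1) / (Δ + 1))
  obtain ⟨o2, h2⟩ := exists_offset T2 E Δ
  obtain ⟨T3⟩ := exists_bfs (cut (cut G fun v => (T1.l v + o1) / (Δ + 1))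
    fun v => (T2.l v + o2) / (Δ + 1))
  obtain ⟨o3, h3⟩ := exists_offset T3 E Δ
  let lab : δ → δ × ℕ := fun v => (T3.root v, (T3.l v + o3) / (Δ + 1))
  let part : δ → δ := fun u => @Function.invFun δ _ ⟨u⟩ lab (lab u)
  have hp : ∀ u, lab (part u) = lab u := fun u => @Function.invFun_eq δ _ ⟨u⟩ lab _ ⟨u, rfl⟩
  have hp' : ∀ u v, lab u = lab v → part u = part v := fun u v h => by simp only [part, h]
  refine ⟨part, fun a => ?_, ?_⟩
  · by_contra hc
    choose ball hb hb' using exists_ball hG (18 * Δ + 6)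
    have pick : ∀ p q r, ∃ v ∈ U.filter fun u => part u = a, ¬ Near G (18 * Δ + 6) p v ∧
        ¬ Near G (18 * Δ + 6) q v ∧ ¬ Near G (18 * Δ + 6) r v := by
      intro p q r
      obtain ⟨v, hv, hv'⟩ := Finset.exists_mem_notMem_of_card_lt_card
        (s := ball p ∪ ball q ∪ ball r) (t := U.filter fun u => part u = a) (by
          have := Finset.card_union_le (ball p ∪ ball q) (ball r)
          have := Finset.card_union_le (ball p) (ball q)
          have := hb p
          have := hb q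
          have := hb r
          omega)
      simp only [Finset.mem_union, not_or] at hv'
      exact ⟨v, hv, fun h => hv'.1.1 (hb' _ _ h), fun h => hv'.1.2 (hb' _ _ h),
        fun h => hv'.2 (hb' _ _ h)⟩
    obtain ⟨z, hz, -⟩ := pick a a a
    obtain ⟨y0, hy0, f1, f2, f3⟩ := pick (T1.root z) (T2.root z) (T3.root z)
    obtain ⟨y1, hy1, f4, -⟩ := pick y0 y0 y0
    obtain ⟨y2, hy2, f5, f6, -⟩ := pick y0 y1 y1
    have hl : ∀ u ∈ U.filter fun u => part u = a, lab u = lab y0 := fun u hu => by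
      rw [← hp u, ← hp y0, (Finset.mem_filter.1 hu).2, (Finset.mem_filter.1 hy0).2]
    have i2 : ∀ u v, T3.root u = T3.root v → T2.root u = T2.root v ∧
        (T2.l u + o2) / (Δ + 1) = (T2.l v + o2) / (Δ + 1) := fun u v h =>
      ⟨T3.inv_root (fun _ _ h => T2.root_adj h.1) h,
        T3.inv_root (f := fun v => (T2.l v + o2) / (Δ + 1)) (fun _ _ h => h.2) h⟩
    have i1 : ∀ u v, T2.root u = T2.root v → T1.root u = T1.root v ∧
        (T1.l u + o1) / (Δ + 1) = (T1.l v + o1) / (Δ + 1) := fun u v h =>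
      ⟨T2.inv_root (fun _ _ h => T1.root_adj h.1) h,
        T2.inv_root (f := fun v => (T1.l v + o1) / (Δ + 1)) (fun _ _ h => h.2) h⟩
    have e3 : T3.root z = T3.root y0 := congrArg Prod.fst (hl z hz)
    rw [(i1 _ _ (i2 _ _ e3).1).1] at f1
    rw [(i2 _ _ e3).1] at f2
    rw [e3] at f3
    let y : Fin 3 → δ := ![y0, y1, y2]
    have hy : ∀ j, lab (y j) = lab y0 := fun j => by
      fin_cases j
      exacts [rfl, hl _ hy1, hl _ hy2]
    have S0 : ∀ H, Stage G H {v | lab v = lab y0} y Δ 0 0 := fun H =>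
      ⟨fun _ => ∅, fun j => {y j}, y, by simp, by simpa using hy, by simp,
        by rintro j _ rfl; exact .refl, by simp, by simp, by simp,
        by rintro j _ rfl; exact .refl _ _, by simp, by simp⟩
    obtain ⟨S1⟩ := (S0 _).step' (o := o3) T3 (fun _ _ h => h.1.1) y0
      (fun h => f3 (h.mono le_rfl (by omega))) fun v hv => ⟨congrArg Prod.fst hv, congrArg Prod.snd hv⟩
    obtain ⟨S2⟩ := S1.step' T2 (fun _ _ h => h.1) y0 (fun h => f2 (h.mono le_rfl (by omega)))
      fun v hv => i2 _ _ hv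
    obtain ⟨S3⟩ := S2.step' T1 le_rfl y0 (fun h => f1 (h.mono le_rfl (by omega)))
      fun v hv => i1 _ _ hv
    refine hK (S3.hasK33 fun j j' hj h => ?_)
    have h' : Near G (18 * Δ + 6) (y j) (y j') := h.mono le_rfl (by omega)
    fin_cases j <;> fin_cases j' <;>
      first | exact hj rfl | exact f4 h' | exact f5 h' | exact f6 h' | exact f4 h'.symm
            | exact f5 h'.symm | exact f6 h'.symm
  · set C := (U ×ˢ U).filter fun x => G.Adj x.1 x.2 ∧ part x.1 ≠ part x.2 with hC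
    have h4 : (Δ + 1) * C.card ≤ 9 * U.card := by
      refine le_trans (Nat.mul_le_mul_left _ ((Finset.card_le_card ?_).trans
        ((Finset.card_union_le _ _).trans (Nat.add_le_add_right (Finset.card_union_le _ _) _))))
        (by rw [mul_add, mul_add]; exact (add_le_add (add_le_add h1 h2) h3).trans (by omega))
      intro x hx
      simp only [hC, Finset.mem_filter] at hx
      have hxE : x ∈ E := Finset.mem_filter.2 ⟨hx.1, hx.2.1⟩
      simp only [Finset.mem_union, Finset.mem_filter]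
      by_contra hn
      simp only [not_or, not_and, not_not] at hn
      have a1 := hn.1.1 hxE hx.2.1
      have a2 := hn.1.2 hxE ⟨hx.2.1, a1⟩
      have a3 := hn.2 hxE ⟨⟨hx.2.1, a1⟩, a2⟩
      exact hx.2.2 (hp' _ _ (Prod.ext (T3.root_adj ⟨⟨hx.2.1, a1⟩, a2⟩) a3))
    have h5 : ((Δ : ℝ) + 1) * C.card ≤ 9 * U.card := by exact_mod_cast h4
    rw [div_le_iff₀ hε] at hΔ
    have h6 : (0 : ℝ) ≤ C.card := by positivity
    have h7 : (0 : ℝ) ≤ U.card := by positivity
    nlinarith [mul_le_mul_of_nonneg_left h5 hε.le, mul_le_mul_of_nonneg_right hΔ h6,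
      mul_nonneg hε.le h6]

end Vale.Agent.Kap
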