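import Vale.Agent.Kap.LocalE

namespace Vale.Agent.Kap

open Finset

theorem loc_fwalk {V E S : Type} {Γ : LG V E S} (o0 : E × Bool) {x y : V} {l : List (E × Bool)}
    (h : Γ.IsPath x l y) : ∃ v : ℕ → V, v 0 = x ∧
      ∀ i, i < l.length → Γ.ini (l.getD i o0) = v i ∧ Γ.ter (l.getD i o0) = v (i + 1) := by
  induction h with
  | nil x => exact ⟨fun _ => x, rfl, fun i hi => by simp at hi⟩
  | @cons o l y _ ih =>
    obtain ⟨v, h1, h2⟩ := ih
    refine ⟨fun i => Nat.rec (Γ.ini o) (fun k _ => v k) i, rfl, fun i hi => ?_⟩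
    rcases i with _ | i
    · exact ⟨rfl, h1.symm⟩
    · exact h2 i (by simpa using hi)

theorem loc_red {E : Type} (o0 : E × Bool) {l : List (E × Bool)} (h : Reduced l) (i : ℕ)
    (hi : i + 1 < l.length) : l.getD (i + 1) o0 ≠ rev (l.getD i o0) := by
  have := List.IsChain.getElem h i hi
  rwa [List.getD_eq_getElem _ _ hi, List.getD_eq_getElem _ _ (by omega : i < l.length)]

variable {V E E' S : Type} {F : Frame V E E' S} {x0 : V} {K lam : ℕ}

/-- The local inequality for one configuration. -/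
def Cfg.Ineq (c : Cfg F x0 K lam) (κ A B η : ℝ) : Prop :=
  κ * (∑ j ∈ c.W, (c.len j : ℝ)) ≤ A * ((c.W.card : ℝ) - c.Gl.card - c.ρ) +
    B * (∑ j ∈ c.W \ c.Pa, (c.len j : ℝ)) + η * lam

theorem localIso_of_cfg {β : E ≃ E'} (hm : F.IsMatching β)
    (hg : (F.graph β).Girth (2 * lam + 1)) {κ A B η : ℝ} (hη : 0 ≤ η)
    (h : ∀ c : Cfg F x0 K lam, c.β = β → c.Ineq κ A B η) :
    (F.graph β).LocalIso x0 K lam κ A B η := by
  intro δ _ W Gl Pa p φ ι ρ hW h1 hGl h2 hφ hPa h3 hρ
  rcases W.eq_empty_or_nonempty with rfl | ⟨z0, hz0⟩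
  · have a1 : Gl = ∅ := subset_empty.1 hGl
    have a2 : ρ = 0 := by
      rcases hρ with h | ⟨-, z, hz, -⟩
      · exact h
      · simp at hz
    subst a1 a2
    simp only [sum_empty, card_empty, Nat.cast_zero, mul_zero, sub_zero, empty_sdiff, zero_add]
    positivity
  obtain ⟨o0, -⟩ := List.exists_mem_of_ne_nil _ (h1 z0 hz0).1
  have : Nonempty (Fin K) := ⟨⟨0, (card_pos.2 ⟨z0, hz0⟩).trans_le hW⟩⟩
  have : Nonempty δ := ⟨z0⟩
  obtain ⟨f, -, hf⟩ := (W.finite_toSet).exists_injOn_of_encard_le (t := (Set.univ : Set (Fin K)))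
    (by simpa using hW)
  let g : Fin K → δ := Function.invFunOn f W
  have hgf : ∀ z ∈ W, g (f z) = z := fun z hz => hf.leftInvOn_invFunOn hz
  have hv : ∀ z : δ, ∃ v : ℕ → V, z ∈ W → ∀ i, i < (p z).length →
      (F.graph β).ini ((p z).getD i o0) = v i ∧ (F.graph β).ter ((p z).getD i o0) = v (i + 1) := by
    intro z
    by_cases hz : z ∈ W
    · obtain ⟨-, -, -, x, y, hxy⟩ := h1 z hz
      obtain ⟨v, -, hv⟩ := loc_fwalk o0 hxy
      exact ⟨v, fun _ => hv⟩
    · exact ⟨fun _ => x0, fun h => (hz h).elim⟩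
  choose v hv using hv
  have hpos : ∀ z ∈ W, 0 < (p z).length := fun z hz => List.length_pos_iff.2 (h1 z hz).1
  have hmin : ∀ z ∈ W, min lam (p (g (f z))).length = (p z).length := fun z hz => by
    rw [hgf z hz, min_eq_right (h1 z hz).2.1]
  let c : Cfg F x0 K lam :=
    { β := β, mat := hm, gir := hg, W := W.image f, Gl := Gl.image f, Pa := Pa.image f
      φ := fun j => f (φ (g j)), ι := fun j => f (ι (g j)), ρ := ρ
      len := fun j => min lam (p (g j)).length
      ed := fun j i => (p (g j)).getD i o0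
      vt := fun j => v (g j)
      len_le := fun j => min_le_left _ _
      len_pos := by
        intro j hj
        obtain ⟨z, hz, rfl⟩ := mem_image.1 hj
        rw [hmin z hz]
        exact hpos z hz
      walk := by
        intro j hj
        obtain ⟨z, hz, rfl⟩ := mem_image.1 hj
        rw [hmin z hz, hgf z hz]
        exact ⟨hv z hz, loc_red o0 (h1 z hz).2.2.1⟩
      Gl_sub := image_subset_image hGl
      gl := by
        intro j hj
        obtain ⟨z, hz, rfl⟩ := mem_image.1 hj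
        obtain ⟨a1, a2, x, y, a3⟩ := h2 z hz
        have a4 := hGl hz
        rw [hmin z a4, hgf z a4, hgf _ a1]
        have a5 := hpos z a4
        have a6 := hpos _ a1
        obtain ⟨k, hk⟩ : ∃ k, (p z).length = k + 1 := ⟨(p z).length - 1, by omega⟩
        have e1 : (p z ++ p (φ z)).getD k o0 = (p z).getD k o0 :=
          List.getD_append _ _ _ _ (by omega)
        have e2 : (p z ++ p (φ z)).getD (k + 1) o0 = (p (φ z)).getD 0 o0 := by
          rw [List.getD_append_right _ _ _ _ (by omega), hk, Nat.sub_self]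
        have hl : k + 1 < (p z ++ p (φ z)).length := by
          rw [List.length_append]
          omega
        obtain ⟨w, -, hw⟩ := loc_fwalk o0 a3
        have b1 := (hw k (by omega)).2
        have b2 := (hw (k + 1) hl).1
        have b3 := loc_red o0 a2 k hl
        rw [e1] at b1 b3
        rw [e2] at b2 b3
        refine ⟨mem_image_of_mem _ a1, ?_, ?_⟩
        · rw [hk, ← (hv z a4 k (by omega)).2, ← (hv _ a1 0 a6).1, b1, b2]
        · rw [hk, Nat.add_sub_cancel]
          exact b3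
      φ_inj := by
        intro j hj j' hj' h
        obtain ⟨z, hz, rfl⟩ := mem_image.1 (mem_coe.1 hj)
        obtain ⟨z', hz', rfl⟩ := mem_image.1 (mem_coe.1 hj')
        simp only [hgf z (hGl hz), hgf z' (hGl hz')] at h
        rw [hφ hz hz' (hf (h2 z hz).1 (h2 z' hz').1 h)]
      Pa_sub := image_subset_image hPa
      pa := by
        intro j hj
        obtain ⟨z, hz, rfl⟩ := mem_image.1 hj
        obtain ⟨a1, a2, a3⟩ := h3 z hz
        rw [hmin z (hPa hz), hgf z (hPa hz), hmin _ (hPa a1), hgf _ (hPa a1), a2]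
        have a4 : (p z).length = (p (ι z)).length := by simpa using a3.length_eq
        refine ⟨mem_image_of_mem _ a1, rfl, a4.symm, fun i hi => ?_⟩
        have a5 := a3.get hi (by simpa [← a4] using hi)
        simp only [List.get_eq_getElem, List.getElem_reverse] at a5
        rw [List.getD_eq_getElem _ _ hi, a4, List.getD_eq_getElem _ _ (by omega)]
        exact a5
      root := by
        rcases hρ with h | ⟨h, z, hz, y, hy⟩
        · exact Or.inl h
        · refine Or.inr ⟨h, f z, mem_image_of_mem _ hz, ?_⟩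
          obtain ⟨w, hw0, hw⟩ := loc_fwalk o0 hy
          rw [hgf z hz, ← (hv z hz 0 (hpos z hz)).1, (hw 0 (hpos z hz)).1, hw0] }
  have key := h c rfl
  have e1 : c.W \ c.Pa = (W \ Pa).image f := by
    ext j
    simp only [c, mem_sdiff, mem_image, not_exists, not_and]
    constructor
    · rintro ⟨⟨z, hz, rfl⟩, h⟩
      exact ⟨z, ⟨hz, fun h' => h z h' rfl⟩, rfl⟩
    · rintro ⟨z, ⟨hz, hz'⟩, rfl⟩
      exact ⟨⟨z, hz, rfl⟩, fun z' h' h => hz' (hf (hPa h') hz h ▸ h')⟩
  have e2 : ∀ X ⊆ W, ∑ j ∈ X.image f, (c.len j : ℝ) = ∑ z ∈ X, ((p z).length : ℝ) := by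
    intro X hX
    rw [sum_image fun a ha b hb h => hf (hX ha) (hX hb) h]
    exact sum_congr rfl fun z hz => congrArg Nat.cast (hmin z (hX hz))
  unfold Cfg.Ineq at key
  rw [e1, e2 _ sdiff_subset, show c.W = W.image f from rfl, e2 _ subset_rfl,
    show c.Gl = Gl.image f from rfl, card_image_of_injOn hf,
    card_image_of_injOn (hf.mono hGl)] at key
  exact key

theorem loc_union {X 𝔇 : Type} [Fintype 𝔇] (G : Finset X) (hne : G.Nonempty)
    (P : 𝔇 → X → Prop) [∀ d x, Decidable (P d x)]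
    (h : ∀ d, (G.filter (P d)).card * (Fintype.card 𝔇 + 1) ≤ G.card) :
    ∃ x ∈ G, ∀ d, ¬ P d x := by
  classical
  by_contra hc
  push Not at hc
  have h1 : G ⊆ univ.biUnion fun d => G.filter (P d) := by
    intro x hx
    obtain ⟨d, hd⟩ := hc x hx
    exact mem_biUnion.2 ⟨d, mem_univ _, mem_filter.2 ⟨hx, hd⟩⟩
  have h2 := (card_le_card h1).trans card_biUnion_le
  have h3 := sum_le_sum fun d (_ : d ∈ univ) => h d
  rw [← sum_mul, sum_const, card_univ, smul_eq_mul] at h3
  have h4 := card_pos.2 hne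
  nlinarith

/-- The numerical heart: a configuration violating the inequality is unlikely at some level. -/
theorem Cfg.exists_level (c : Cfg F x0 K lam) {n d m r' R Θ : ℕ} {η : ℝ} (hn : 1 ≤ n)
    (hd : d ≤ 4196) (hm : 1 ≤ m) (hr : r' = 65 * m) (hR : 1 ≤ R) (hΘ : 1 ≤ Θ)
    (h1 : Real.log r' ≤ Real.log R + 1 / 2000)
    (h2 : K * (Real.log Θ + 4 * K ^ 2 * Real.log n) + (2 * K ^ 2 + K) * Real.log 65 ≤ η * lam)
    (h : ¬ c.Ineq (1 / 1000) (Real.log r') (Real.log 4196 / 4) η) :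
    ∃ t, ∀ a b : ℕ, 2 * a ≤ (c.CT t).card → b ≤ 4 * K ^ 2 →
      n ^ b * d ^ a * (m ^ (c.A0 t).card * r' ^ (c.A1 t).card) * Θ ≤ R ^ (c.Et t).card := by
  by_contra hc
  push Not at hc
  apply h
  have hn' : (1 : ℝ) ≤ n := by exact_mod_cast hn
  have hm' : (1 : ℝ) ≤ m := by exact_mod_cast hm
  have hR' : (1 : ℝ) ≤ R := by exact_mod_cast hR
  have hΘ' : (1 : ℝ) ≤ Θ := by exact_mod_cast hΘ
  have hr' : (r' : ℝ) = 65 * m := by exact_mod_cast hr
  have l1 := Real.log_nonneg hn'
  have l2 := Real.log_nonneg hm'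
  have l3 := Real.log_nonneg hR'
  have l4 : 0 ≤ Real.log 4196 := Real.log_nonneg (by norm_num)
  have l5 : 0 ≤ Real.log 65 := Real.log_nonneg (by norm_num)
  have l6 : Real.log r' = Real.log 65 + Real.log m := by
    rw [hr', Real.log_mul (by norm_num) (by positivity)]
  have l7 : 29 / 4225 + Real.log 4196 ≤ 2 * Real.log 65 := by
    have a1 := Real.one_sub_inv_le_log_of_pos (x := 4225 / 4196) (by norm_num)
    rw [Real.log_div (by norm_num) (by norm_num), show (4225 : ℝ) = 65 ^ 2 by norm_num,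
      Real.log_pow] at a1
    norm_num at a1 ⊢
    linarith
  have key : ∀ t, ((c.Et t).card : ℝ) * Real.log R ≤ (Real.log Θ + 4 * K ^ 2 * Real.log n) +
      (c.CT t).card * (Real.log 4196 / 2) + ((c.A0 t).card + (c.A1 t).card : ℕ) * Real.log r' -
      (c.A0 t).card * Real.log 65 := by
    intro t
    obtain ⟨a, b, ha, hb, h3⟩ := hc t
    have h4 : R ^ (c.Et t).card ≤ n ^ b * 4196 ^ a * (m ^ (c.A0 t).card * r' ^ (c.A1 t).card) * Θ :=
      h3.le.trans (by gcongr)
    have h5 : (R : ℝ) ^ (c.Et t).card ≤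
        n ^ b * 4196 ^ a * (m ^ (c.A0 t).card * r' ^ (c.A1 t).card) * Θ := by exact_mod_cast h4
    have hr0 : (0 : ℝ) < r' := by rw [hr']; positivity
    have h6 := Real.log_le_log (by positivity) h5
    rw [Real.log_mul (by positivity) (by positivity), Real.log_mul (by positivity) (by positivity),
      Real.log_mul (by positivity) (by positivity), Real.log_mul (by positivity) (by positivity)]
      at h6
    simp only [Real.log_pow] at h6
    have ha' : (2 : ℝ) * a ≤ (c.CT t).card := by exact_mod_cast ha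
    have hb' : (b : ℝ) ≤ 4 * K ^ 2 := by exact_mod_cast hb
    have h7 := mul_le_mul_of_nonneg_right ha' l4
    have h8 := mul_le_mul_of_nonneg_right hb' l1
    push_cast
    rw [l6] at h6 ⊢
    nlinarith
  have h3 := sum_le_sum fun t (_ : t ∈ Icc 1 K) => key t
  simp only [sum_sub_distrib, sum_add_distrib, ← sum_mul, sum_const, Nat.card_Icc,
    Nat.add_sub_cancel, nsmul_eq_mul, ← Nat.cast_sum] at h3
  have s1 : (c.Zs.card : ℝ) ≤ ((∑ t ∈ Icc 1 K, (c.Et t).card : ℕ) : ℝ) := by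
    exact_mod_cast Cfg.sum_Et
  have s2 : 2 * ((∑ t ∈ Icc 1 K, (c.CT t).card : ℕ) : ℝ) ≤
      c.Zs.card + ∑ j ∈ c.W \ c.Pa, (c.len j : ℝ) := by exact_mod_cast Cfg.sum_CT
  have s3 : (c.Zs.card : ℝ) ≤ 2 * ((∑ t ∈ Icc 1 K, (c.A0 t).card : ℕ) : ℝ) +
      2 * (2 * K ^ 2 + K) := by exact_mod_cast Cfg.sum_A0
  have s4 : ((∑ t ∈ Icc 1 K, (c.A0 t).card + ∑ t ∈ Icc 1 K, (c.A1 t).card : ℕ) : ℝ) + c.Gl.card +
      c.ρ ≤ c.Zs.card + c.W.card := by
    have := Cfg.sum_A01 (c := c)
    rw [sum_add_distrib] at this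
    exact_mod_cast this
  have s5 : ∑ j ∈ c.W, (c.len j : ℝ) = c.Zs.card := by exact_mod_cast Cfg.card_Zs.symm
  unfold Cfg.Ineq
  rw [s5]
  have t1 := mul_le_mul_of_nonneg_right s1 l3
  have t2 := mul_le_mul_of_nonneg_right s2 l4
  have t3 := mul_le_mul_of_nonneg_right s3 l5
  have t4 := mul_le_mul_of_nonneg_right s4 (show 0 ≤ Real.log r' by linarith)
  have t5 := mul_le_mul_of_nonneg_left h1 (Nat.cast_nonneg (α := ℝ) c.Zs.card)
  have t6 := mul_le_mul_of_nonneg_left l7 (Nat.cast_nonneg (α := ℝ) c.Zs.card)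
  have t7 := Nat.cast_nonneg (α := ℝ) c.Zs.card
  nlinarith

end Vale.Agent.Kap
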