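import Vale.Agent.Kap.Switch
import Vale.Agent.Kap.LocalF

namespace Vale.Agent.Kap

open Finset

theorem loc_card_desc (K lam : ℕ) (h : K ≤ lam) :
    Fintype.card (LocDesc K lam) + 1 ≤ (lam + 2) ^ (4 * K ^ 2 + 8 * K + 2) := by
  have h2 : 2 ≤ lam + 2 := by omega
  have h3 : (lam + 1) * ((lam + 1) * ((lam + 1) * 2)) + 1 ≤ (lam + 2) ^ 4 := by
    ring_nf
    nlinarith [Nat.zero_le (lam ^ 2), Nat.zero_le (lam ^ 3), Nat.zero_le (lam ^ 4)]
  have h4 : (lam + 1) * (2 * (2 * (K * (lam + 1 + 1)))) ≤ (lam + 2) ^ 5 := by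
    calc _ ≤ (lam + 2) * ((lam + 2) * ((lam + 2) * ((lam + 2) * (lam + 2)))) := by
          gcongr <;> omega
      _ = _ := by ring
  have h5 : Fintype.card (LocDesc K lam) ≤ (lam + 2) ^ (4 * K ^ 2 + 8 * K + 1) := by
    simp only [Fintype.card_prod, Fintype.card_finset, Fintype.card_fin, Fintype.card_fun,
      Fintype.card_option, Fintype.card_bool]
    calc _ ≤ (lam + 2) ^ K * ((lam + 2) ^ K * (lam + 2) ^ K) * (((lam + 2) ^ 5) ^ K *
          ((((lam + 2) ^ 4) ^ K) ^ K * (lam + 2))) := by gcongr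
      _ = _ := by
          generalize lam + 2 = y
          ring
  have h6 : 1 ≤ (lam + 2) ^ (4 * K ^ 2 + 8 * K + 1) := Nat.one_le_pow _ _ (by omega)
  rw [show 4 * K ^ 2 + 8 * K + 2 = 4 * K ^ 2 + 8 * K + 1 + 1 from rfl, pow_succ]
  nlinarith

theorem loc_exists_lam (K : ℕ) (η P C : ℝ) (hη : 0 < η) (hP : 0 ≤ P) :
    ∃ lam : ℕ, 1 ≤ lam ∧ K ≤ lam ∧ P * Real.log (lam + 2) + C ≤ η * lam := by
  obtain ⟨a, ha, ha'⟩ : ∃ a : ℝ, 0 < a ∧ P * a⁻¹ ≤ η / 2 := by
    refine ⟨(2 * P + 1) / η, by positivity, ?_⟩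
    rw [inv_div, ← mul_div_assoc, div_le_div_iff₀ (by positivity) (by norm_num)]
    nlinarith
  obtain ⟨n, hn⟩ := exists_nat_ge ((η + P * Real.log a + C) / (η / 2))
  refine ⟨n + K + 1, by omega, by omega, ?_⟩
  rw [div_le_iff₀ (by positivity)] at hn
  generalize hx : ((n + K + 1 : ℕ) : ℝ) = x
  have hx' : (n : ℝ) ≤ x := by
    rw [← hx]
    exact_mod_cast (by omega : n ≤ n + K + 1)
  have h0 : (0 : ℝ) ≤ x := (Nat.cast_nonneg n).trans hx'
  have h1 := Real.log_le_sub_one_of_pos (x := (x + 2) * a⁻¹) (by positivity)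
  rw [Real.log_mul (by positivity) (by positivity), Real.log_inv] at h1
  have h2 := mul_le_mul_of_nonneg_left h1 hP
  have h3 := mul_le_mul_of_nonneg_left ha' (show 0 ≤ x + 2 by positivity)
  nlinarith

/-- A random matching of large girth satisfies the local isoperimetric inequality. -/
theorem exists_localIso : ∃ κ A0 B : ℝ, 0 < κ ∧ 0 ≤ A0 ∧ 0 ≤ B ∧ ∀ (K : ℕ) (η : ℝ), 0 < η →
    ∃ lam M : ℕ, 1 ≤ lam ∧ 1 ≤ M ∧
      ∀ (V E E' S : Type) [Fintype V] [Fintype E] [Fintype E'] [Fintype S] (F : Frame V E E' S)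
        (D : Finset (S × S)) (x0 : V), Fintype.card S = 4161 → D.card ≤ 4196 →
        F.Counts (260 * M) (260 * M + 65) (4 * M + 1) D →
        ∃ β : E ≃ E', F.IsMatching β ∧ (F.graph β).Girth (2 * lam + 1) ∧
          ∃ A : ℝ, 0 ≤ A ∧ A ≤ A0 * lam ∧ (F.graph β).LocalIso x0 K lam κ A B η := by
  classical
  have l1 : 0 ≤ Real.log 4162 := Real.log_nonneg (by norm_num)
  refine ⟨1 / 1000, 5 * Real.log 4162, Real.log 4196 / 4, by norm_num, by positivity,
    div_nonneg (Real.log_nonneg (by norm_num)) (by norm_num), fun K η hη => ?_⟩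
  obtain ⟨lam, hlam, hK, hnum⟩ := loc_exists_lam K η (K * (4 * K ^ 2 + 8 * K + 2))
    (K * (4 * K ^ 2 * Real.log 4161) + (2 * K ^ 2 + K) * Real.log 65) hη (by positivity)
  obtain ⟨Y, hY⟩ : ∃ Y, Y = 4162 ^ (2 * lam + 1) := ⟨_, rfl⟩
  have hY1 : K * lam + 65 ≤ Y := by
    have a1 : lam < 4162 ^ lam := Nat.lt_pow_self (by norm_num)
    have a2 : Y = 4162 ^ lam * 4162 ^ lam * 4162 := by rw [hY]; ring
    have a3 : K * lam ≤ lam * lam := Nat.mul_le_mul_right _ hK
    nlinarith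
  refine ⟨lam, 4162 * Y, hlam, by omega, fun V E E' S _ _ _ _ F D x0 hS hD hC => ?_⟩
  obtain ⟨hne, hsw⟩ := switching F hC (2 * lam + 1) (4 * Y) (by rw [hS, hY]) (by omega)
  obtain ⟨R, hR⟩ : ∃ R, R = 260 * (4162 * Y) - 5 * Y := ⟨_, rfl⟩
  have hR' : (R : ℝ) = 1082115 * Y := by exact_mod_cast (by omega : R = 1082115 * Y)
  have hY' : (65 : ℝ) ≤ Y := by exact_mod_cast (by omega : 65 ≤ Y)
  have h1 : Real.log (260 * (4162 * Y) + 65 : ℕ) ≤ Real.log R + 1 / 2000 := by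
    have a1 := Real.log_le_sub_one_of_pos (x := (260 * (4162 * Y) + 65 : ℕ) / R)
      (by rw [hR']; positivity)
    rw [Real.log_div (by positivity) (by rw [hR']; positivity)] at a1
    have a2 : ((260 * (4162 * Y) + 65 : ℕ) : ℝ) / R ≤ 1 + 1 / 2000 := by
      rw [hR', div_le_iff₀ (by positivity)]
      push_cast
      linarith
    linarith
  have h2 : K * (Real.log (Fintype.card (LocDesc K lam) + 1 : ℕ) +
      4 * K ^ 2 * Real.log (Fintype.card S)) + (2 * K ^ 2 + K) * Real.log 65 ≤ η * lam := by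
    have a1 : ((Fintype.card (LocDesc K lam) + 1 : ℕ) : ℝ) ≤ (lam + 2) ^ (4 * K ^ 2 + 8 * K + 2) := by
      exact_mod_cast loc_card_desc K lam hK
    have a2 := Real.log_le_log (by positivity) a1
    rw [Real.log_pow] at a2
    have a3 := mul_le_mul_of_nonneg_left a2 (Nat.cast_nonneg (α := ℝ) K)
    rw [hS]
    push_cast at a3 ⊢
    linarith
  obtain ⟨β, hβ, hgood⟩ := loc_union (F.good (2 * lam + 1)) hne
    (fun (d : LocDesc K lam) β => ∃ c : Cfg F x0 K lam, c.β = β ∧ c.desc = d ∧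
      ¬ c.Ineq (1 / 1000) (Real.log (260 * (4162 * Y) + 65 : ℕ)) (Real.log 4196 / 4) η) (by
    intro d
    by_cases hd : ∃ c : Cfg F x0 K lam, c.desc = d ∧
      ¬ c.Ineq (1 / 1000) (Real.log (260 * (4162 * Y) + 65 : ℕ)) (Real.log 4196 / 4) η
    swap
    · rw [filter_false_of_mem fun β _ ⟨c, _, h⟩ => hd ⟨c, h⟩]
      simp
    obtain ⟨c0, rfl, hc0⟩ := hd
    obtain ⟨t, ht⟩ := c0.exists_level (n := Fintype.card S) (m := 4 * (4162 * Y) + 1)
      (by omega) hD (by omega) (by omega) (by omega) (by omega) h1 h2 hc0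
    obtain ⟨T, a, b, ha, hb, hT, hT'⟩ := Cfg.count_HH hC c0 hlam t
    have a1 := (Nat.mul_le_mul_right _ hT).trans (ht a b ha hb)
    have a2 : ((F.good (2 * lam + 1)).filter fun β => ∃ c : Cfg F x0 K lam, c.β = β ∧
        c.desc = c0.desc ∧ ¬ c.Ineq (1 / 1000) (Real.log (260 * (4162 * Y) + 65 : ℕ))
          (Real.log 4196 / 4) η) ⊆ (T.filter fun H => H.card = (c0.Et t).card).biUnion fun H =>
          (F.good (2 * lam + 1)).filter fun β => ∀ x ∈ H, β x.1 = x.2 := by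
      intro β hβ
      obtain ⟨b1, c, rfl, b2, -⟩ := mem_filter.1 hβ
      have b3 := Cfg.sim_of_desc b2
      refine mem_biUnion.2 ⟨_, mem_filter.2 ⟨hT' c b3, Cfg.card_HH hlam b3 t⟩,
        mem_filter.2 ⟨b1, fun x hx => ?_⟩⟩
      obtain ⟨p, -, rfl⟩ := mem_image.1 hx
      rfl
    have a3 := (card_le_card a2).trans card_biUnion_le
    have a4 : (∑ H ∈ T.filter fun H => H.card = (c0.Et t).card, ((F.good (2 * lam + 1)).filter
        fun β => ∀ x ∈ H, β x.1 = x.2).card) * R ^ (c0.Et t).card ≤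
        T.card * (F.good (2 * lam + 1)).card := by
      rw [sum_mul]
      refine (sum_le_card_nsmul _ _ (F.good (2 * lam + 1)).card fun H hH => ?_).trans
        (Nat.mul_le_mul_right _ (card_filter_le _ _))
      have b1 := (mem_filter.1 hH).2
      have b2 := Cfg.card_Et_le (c := c0) t
      refine le_trans ?_ (hsw H)
      rw [b1]
      gcongr
      omega
    have a5 : 0 < R ^ (c0.Et t).card := Nat.pow_pos (by omega)
    refine Nat.le_of_mul_le_mul_right ?_ a5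
    calc _ ≤ T.card * (F.good (2 * lam + 1)).card * (Fintype.card (LocDesc K lam) + 1) := by
          rw [mul_right_comm]
          exact Nat.mul_le_mul_right _ ((Nat.mul_le_mul_right _ a3).trans a4)
      _ ≤ _ := by
          rw [mul_right_comm, mul_comm]
          exact Nat.mul_le_mul_left _ a1)
  obtain ⟨-, hm, hg⟩ := mem_filter.1 hβ
  refine ⟨β, hm, hg, Real.log (260 * (4162 * Y) + 65 : ℕ), Real.log_natCast_nonneg _, ?_,
    localIso_of_cfg hm hg hη.le fun c hc => ?_⟩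
  · have a1 : ((260 * (4162 * Y) + 65 : ℕ) : ℝ) ≤ 4162 ^ (5 * lam) := by
      have a2 : 4162 ^ (2 * lam + 1) * 4162 ^ 2 ≤ 4162 ^ (5 * lam) := by
        rw [← pow_add]
        exact Nat.pow_le_pow_right (by norm_num) (by omega)
      rw [← hY] at a2
      exact_mod_cast (by omega : 260 * (4162 * Y) + 65 ≤ 4162 ^ (5 * lam))
    have a2 := Real.log_le_log (by positivity) a1
    rw [Real.log_pow] at a2
    push_cast at a2 ⊢
    linarith
  · by_contra h
    exact hgood c.desc ⟨c, hc, rfl, h⟩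

end Vale.Agent.Kap
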