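import Vale.Agent.Kap.Defs

namespace Vale.Agent.Kap

open Finset

/-- Filtration lemma. -/
theorem loc_filtration {X Y G C : Type} [DecidableEq X] [DecidableEq Y] [DecidableEq G]
    (s : Finset X) (f : X → Y) (g : X → G) (m : X → ℕ) (c : Finset C) (u w : C → X) (K : ℕ)
    (hm : ∀ x ∈ s, m x ≤ (s.filter fun x' => f x' = f x ∧ g x' = g x).card)
    (hu : ∀ a ∈ c, u a ∈ s) (hw : ∀ a ∈ c, w a ∈ s)
    (hf : ∀ a ∈ c, f (w a) = f (u a)) (hg : ∀ a ∈ c, g (w a) ≠ g (u a))
    (hui : Set.InjOn u c) (hwi : Set.InjOn w c) (huw : ∀ a ∈ c, ∀ b ∈ c, u a ≠ w b) :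
    (∑ t ∈ Icc 1 K, ((s.filter fun x => t ≤ m x).image f).card) + c.card ≤ s.card := by
  classical
  have h1 : ∀ t, ((s.filter fun x => t ≤ m x).image f).card =
      ∑ y ∈ s.image f, if ∃ x ∈ s, f x = y ∧ t ≤ m x then 1 else 0 := by
    intro t
    rw [← card_filter]
    congr 1
    ext y
    simp only [mem_image, mem_filter]
    constructor
    · rintro ⟨x, ⟨hx, ht⟩, rfl⟩
      exact ⟨⟨x, hx, rfl⟩, x, hx, rfl, ht⟩
    · rintro ⟨-, x, hx, rfl, ht⟩
      exact ⟨x, ⟨hx, ht⟩, rfl⟩
  simp_rw [h1]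
  rw [sum_comm, card_eq_sum_card_fiberwise (f := f) (s := s) (t := s.image f)
      (fun x hx => mem_image_of_mem f hx),
    card_eq_sum_card_fiberwise (f := fun a => f (u a)) (s := c) (t := s.image f)
      (fun a ha => mem_image_of_mem f (hu a ha)), ← sum_add_distrib]
  refine sum_le_sum fun y hy => ?_
  obtain ⟨x0, hx0, hmax⟩ := exists_max_image (s.filter fun x => f x = y) m (by
    obtain ⟨x, hx, rfl⟩ := mem_image.1 hy
    exact ⟨x, mem_filter.2 ⟨hx, rfl⟩⟩)
  obtain ⟨hx0s, hx0y⟩ := mem_filter.1 hx0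
  have h2 : (∑ t ∈ Icc 1 K, if ∃ x ∈ s, f x = y ∧ t ≤ m x then 1 else 0) ≤ m x0 := by
    rw [← card_filter]
    calc _ ≤ (Icc 1 (m x0)).card := by
          refine card_le_card fun t ht => ?_
          obtain ⟨ht1, x, hx, hxy, htx⟩ := mem_filter.1 ht
          exact mem_Icc.2 ⟨(mem_Icc.1 ht1).1, htx.trans (hmax x (mem_filter.2 ⟨hx, hxy⟩))⟩
      _ = m x0 := by simp
  have h3 : (c.filter fun a => f (u a) = y).card ≤
      (s.filter fun x' => f x' = y ∧ ¬ g x' = g x0).card := by
    refine card_le_card_of_injOn (fun a => if g (u a) = g x0 then w a else u a) ?_ ?_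
    · intro a ha
      obtain ⟨hac, hay⟩ := mem_filter.1 (mem_coe.1 ha)
      refine mem_coe.2 (mem_filter.2 ?_)
      by_cases h : g (u a) = g x0
      · simp only [h, if_true]
        exact ⟨hw a hac, (hf a hac).trans hay, fun h' => hg a hac (h'.trans h.symm)⟩
      · simp only [h, if_false]
        exact ⟨hu a hac, hay, not_false⟩
    · intro a ha b hb hab
      have hac := (mem_filter.1 (mem_coe.1 ha)).1
      have hbc := (mem_filter.1 (mem_coe.1 hb)).1
      by_cases h : g (u a) = g x0 <;> by_cases h' : g (u b) = g x0 <;>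
        simp only [h, h', if_true, if_false] at hab
      · exact hwi hac hbc hab
      · exact absurd hab.symm (huw b hbc a hac)
      · exact absurd hab (huw a hac b hbc)
      · exact hui hac hbc hab
  have h4 := card_filter_add_card_filter_not (s := s.filter fun x => f x = y)
    (p := fun x' => g x' = g x0)
  rw [filter_filter, filter_filter] at h4
  have h5 := hm x0 hx0s
  rw [hx0y] at h5
  omega

/-- Objects determined by a code. -/
theorem loc_determined {ι α κ : Type} [DecidableEq α] (P : ι → Prop) (f : ι → α) (code : ι → κ)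
    (s : Finset κ) (b : ℕ) (hs : ∀ c, P c → code c ∈ s)
    (h : ∀ c₁, P c₁ → ∃ T : Finset α, T.card ≤ b ∧ ∀ c, P c → code c = code c₁ → f c ∈ T) :
    ∃ T : Finset α, T.card ≤ s.card * b ∧ ∀ c, P c → f c ∈ T := by
  classical
  have h' : ∀ k : κ, ∃ T : Finset α, T.card ≤ b ∧ ∀ c, P c → code c = k → f c ∈ T := by
    intro k
    by_cases hk : ∃ c₁, P c₁ ∧ code c₁ = k
    · obtain ⟨c₁, h1, rfl⟩ := hk
      exact h c₁ h1
    · exact ⟨∅, by simp, fun c hc hck => (hk ⟨c, hc, hck⟩).elim⟩
  choose T hT hT' using h'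
  refine ⟨s.biUnion T, ?_, fun c hc => mem_biUnion.2 ⟨code c, hs c hc, hT' _ c hc rfl⟩⟩
  calc _ ≤ ∑ k ∈ s, (T k).card := card_biUnion_le
    _ ≤ ∑ _k ∈ s, b := sum_le_sum fun k _ => hT k
    _ = s.card * b := by simp

/-- Half of a set with a fixed point free involution. -/
theorem loc_half {α : Type} [DecidableEq α] (Q : Finset α) (μ : α → α)
    (h1 : ∀ x ∈ Q, μ x ∈ Q) (h2 : ∀ x ∈ Q, μ (μ x) = x) (h3 : ∀ x ∈ Q, μ x ≠ x) :
    ∃ Q' ⊆ Q, 2 * Q'.card ≤ Q.card ∧ ∀ x ∈ Q, x ∈ Q' ∨ μ x ∈ Q' := by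
  classical
  let n : α → ℕ := fun x => if h : x ∈ Q then (Q.equivFin ⟨x, h⟩ : ℕ) else 0
  have hn : ∀ x ∈ Q, ∀ y ∈ Q, n x = n y → x = y := by
    intro x hx y hy hxy
    simp only [n, hx, hy, dif_pos] at hxy
    have := Q.equivFin.injective (Fin.ext hxy)
    exact congrArg Subtype.val this
  refine ⟨Q.filter fun x => n x < n (μ x), filter_subset _ _, ?_, ?_⟩
  · have h4 := card_filter_add_card_filter_not (s := Q) (p := fun x => n x < n (μ x))
    have h5 : (Q.filter fun x => n x < n (μ x)).card ≤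
        (Q.filter fun x => ¬ n x < n (μ x)).card := by
      refine card_le_card_of_injOn μ ?_ ?_
      · intro x hx
        obtain ⟨hxQ, hlt⟩ := mem_filter.1 (mem_coe.1 hx)
        refine mem_coe.2 (mem_filter.2 ⟨h1 x hxQ, ?_⟩)
        rw [h2 x hxQ]
        omega
      · intro x hx y hy hxy
        rw [← h2 x (mem_filter.1 (mem_coe.1 hx)).1, hxy, h2 y (mem_filter.1 (mem_coe.1 hy)).1]
    omega
  · intro x hx
    have hne : n x ≠ n (μ x) := fun h => h3 x hx (hn _ hx _ (h1 x hx) h).symm
    rcases lt_or_gt_of_ne hne with h | h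
    · exact Or.inl (mem_filter.2 ⟨hx, h⟩)
    · exact Or.inr (mem_filter.2 ⟨h1 x hx, by rw [h2 x hx]; exact h⟩)

@[simp] theorem loc_rev_rev {E : Type} (o : E × Bool) : rev (rev o) = o := by
  simp [rev]

@[simp] theorem loc_rev_fst {E : Type} (o : E × Bool) : (rev o).1 = o.1 := rfl

@[simp] theorem loc_rev_snd {E : Type} (o : E × Bool) : (rev o).2 = !o.2 := rfl

variable {V E S : Type} {Γ : LG V E S}

@[simp] theorem loc_ini_rev (o : E × Bool) : Γ.ini (rev o) = Γ.ter o := by
  obtain ⟨e, b⟩ := o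
  cases b <;> simp [LG.ini, LG.ter, rev]

@[simp] theorem loc_ter_rev (o : E × Bool) : Γ.ter (rev o) = Γ.ini o := by
  obtain ⟨e, b⟩ := o
  cases b <;> simp [LG.ini, LG.ter, rev]

/-- A walk without backtracking, as a function on `[0, n)`, with vertices `v`. -/
def FWalk (Γ : LG V E S) (n : ℕ) (f : ℕ → E × Bool) (v : ℕ → V) : Prop :=
  (∀ i, i < n → Γ.ini (f i) = v i ∧ Γ.ter (f i) = v (i + 1)) ∧
  ∀ i, i + 1 < n → f (i + 1) ≠ rev (f i)

theorem FWalk.isPath {n : ℕ} {f : ℕ → E × Bool} {v : ℕ → V} (h : FWalk Γ n f v) :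
    Γ.IsPath (v 0) ((List.range n).map f) (v n) ∧ Reduced ((List.range n).map f) := by
  induction n generalizing f v with
  | zero => exact ⟨LG.IsPath.nil _, List.IsChain.nil⟩
  | succ n ih =>
    have h' : FWalk Γ n (fun i => f (i + 1)) (fun i => v (i + 1)) :=
      ⟨fun i hi => h.1 (i + 1) (by omega), fun i hi => h.2 (i + 1) (by omega)⟩
    obtain ⟨h1, h2⟩ := ih h'
    have e1 : (List.range (n + 1)).map f = f 0 :: (List.range n).map (fun i => f (i + 1)) := by
      rw [List.range_succ_eq_map]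
      simp [Function.comp_def]
    rw [e1]
    obtain ⟨h3, h4⟩ := h.1 0 (by omega)
    constructor
    · rw [← h3]
      refine LG.IsPath.cons _ ?_
      rw [h4]
      exact h1
    · unfold Reduced at h2 ⊢
      rcases n with _ | n
      · simp
      · have e2 : (List.range (n + 1)).map (fun i => f (i + 1)) =
            f 1 :: (List.range n).map (fun i => f (i + 2)) := by
          rw [List.range_succ_eq_map]
          simp [Function.comp_def]
        rw [e2] at h2 ⊢
        exact List.IsChain.cons_cons (h.2 0 (by omega)) h2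

theorem FWalk.girth {g n : ℕ} (hg : Γ.Girth g) {f : ℕ → E × Bool} {v : ℕ → V}
    (h : FWalk Γ n f v) (hv : v n = v 0) (hn : n < g) : n = 0 := by
  by_contra h0
  obtain ⟨h1, h2⟩ := h.isPath
  rw [hv] at h1
  have := hg _ _ h1 h2 (by simpa using h0)
  simp at this
  omega

theorem FWalk.reverse {n : ℕ} {f : ℕ → E × Bool} {v : ℕ → V} (h : FWalk Γ n f v) :
    FWalk Γ n (fun i => rev (f (n - 1 - i))) (fun i => v (n - i)) := by
  constructor
  · intro i hi
    obtain ⟨h1, h2⟩ := h.1 (n - 1 - i) (by omega)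
    simp only [loc_ini_rev, loc_ter_rev, h1, h2]
    constructor
    · congr 1
      omega
    · congr 1
      omega
  · intro i hi hh
    apply h.2 (n - 1 - (i + 1)) (by omega)
    have e : n - 1 - (i + 1) + 1 = n - 1 - i := by omega
    simp only [loc_rev_rev] at hh
    rw [e, hh]

theorem FWalk.window {n : ℕ} {f : ℕ → E × Bool} {v : ℕ → V} (h : FWalk Γ n f v) (a k : ℕ)
    (hk : a + k ≤ n) : FWalk Γ k (fun i => f (a + i)) (fun i => v (a + i)) :=
  ⟨fun i hi => h.1 (a + i) (by omega), fun i hi => h.2 (a + i) (by omega)⟩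

theorem FWalk.append {n n' : ℕ} {f f' : ℕ → E × Bool} {v v' : ℕ → V} (h : FWalk Γ n f v)
    (h' : FWalk Γ n' f' v') (hv : v n = v' 0) (hj : 0 < n → 0 < n' → f' 0 ≠ rev (f (n - 1))) :
    FWalk Γ (n + n') (fun i => if i < n then f i else f' (i - n))
      (fun i => if i ≤ n then v i else v' (i - n)) := by
  constructor
  · intro i hi
    by_cases h1 : i < n
    · simp only [h1, if_true, h1.le, Nat.succ_le_of_lt h1]
      exact h.1 i h1
    · obtain ⟨h2, h3⟩ := h'.1 (i - n) (by omega)
      have h4 : ¬ i + 1 ≤ n := by omega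
      simp only [h1, h4, if_false, h2, h3]
      constructor
      · by_cases h5 : i ≤ n
        · have : i = n := by omega
          subst this
          simp [hv]
        · simp [h5]
      · congr 1
        omega
  · intro i hi
    by_cases h1 : i + 1 < n
    · have h2 : i < n := by omega
      simp only [h1, h2, if_true]
      exact h.2 i h1
    · by_cases h2 : i < n
      · have e : i = n - 1 := by omega
        have e2 : i + 1 - n = 0 := by omega
        simp only [h1, h2, if_true, if_false, e2]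
        rw [e]
        exact hj (by omega) (by omega)
      · simp only [h1, h2, if_false]
        have e : i + 1 - n = i - n + 1 := by omega
        rw [e]
        exact h'.2 (i - n) (by omega)

/-- Short walks without backtracking are determined by their ends. -/
theorem FWalk.unique {g : ℕ} (hg : Γ.Girth g) : ∀ (n n' : ℕ) (f f' : ℕ → E × Bool) (v v' : ℕ → V),
    FWalk Γ n f v → FWalk Γ n' f' v' → v 0 = v' 0 → v n = v' n' → n + n' < g →
    n = n' ∧ ∀ i, i < n → f i = f' i := by
  intro n
  induction n with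
  | zero =>
    intro n' f f' v v' _ h' h0 h1 hn
    have := h'.girth hg (by rw [← h1, h0]) (by omega)
    exact ⟨this.symm, fun i hi => by omega⟩
  | succ n ih =>
    intro n' f f' v v' h h' h0 h1 hn
    by_cases hc : 0 < n' ∧ f 0 = f' 0
    · obtain ⟨hn', hf⟩ := hc
      obtain ⟨k, rfl⟩ : ∃ k, n' = k + 1 := ⟨n' - 1, by omega⟩
      have w1 := h.window 1 n (by omega)
      have w2 := h'.window 1 k (by omega)
      have e0 : v (1 + 0) = v' (1 + 0) := by
        have a1 := (h.1 0 (by omega)).2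
        have a2 := (h'.1 0 (by omega)).2
        rw [hf] at a1
        simpa using a1.symm.trans a2
      obtain ⟨h2, h3⟩ := ih k _ _ _ _ w1 w2 e0 (by simpa [add_comm] using h1) (by omega)
      refine ⟨by omega, fun i hi => ?_⟩
      rcases i with _ | i
      · exact hf
      · simpa [add_comm] using h3 i (by omega)
    · exfalso
      have w := h'.reverse.append h (by simpa using h0.symm) (by
        intro h2 _ h3
        apply hc
        refine ⟨h2, ?_⟩
        have e : n' - 1 - (n' - 1) = 0 := by omega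
        rw [h3, e, loc_rev_rev])
      have := w.girth hg (by
        have h4 : ¬ n' + (n + 1) ≤ n' := by omega
        simp only [h4, if_false, Nat.zero_le, if_true, Nat.add_sub_cancel_left, Nat.sub_zero]
        exact h1) (by omega)
      omega

end Vale.Agent.Kap
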