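import Vale.Agent.Kap.LocalA

namespace Vale.Agent.Kap

open Finset
open scoped Classical

/-- A family of at most `K` short paths in the graph of a matching of large girth. -/
structure Cfg {V E E' S : Type} (F : Frame V E E' S) (x0 : V) (K lam : ℕ) where
  β : E ≃ E'
  mat : F.IsMatching β
  gir : (F.graph β).Girth (2 * lam + 1)
  W : Finset (Fin K)
  Gl : Finset (Fin K)
  Pa : Finset (Fin K)
  φ : Fin K → Fin K
  ι : Fin K → Fin K
  ρ : ℕ
  len : Fin K → ℕ
  ed : Fin K → ℕ → E × Bool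
  vt : Fin K → ℕ → V
  len_le : ∀ j, len j ≤ lam
  len_pos : ∀ j ∈ W, 1 ≤ len j
  walk : ∀ j ∈ W, FWalk (F.graph β) (len j) (ed j) (vt j)
  Gl_sub : Gl ⊆ W
  gl : ∀ j ∈ Gl, φ j ∈ W ∧ vt j (len j) = vt (φ j) 0 ∧ ed (φ j) 0 ≠ rev (ed j (len j - 1))
  φ_inj : Set.InjOn φ Gl
  Pa_sub : Pa ⊆ W
  pa : ∀ j ∈ Pa, ι j ∈ Pa ∧ ι (ι j) = j ∧ len (ι j) = len j ∧ ∀ i, i < len j →
    (F.graph β).ltr (ed (ι j) (len j - 1 - i)) = rev ((F.graph β).ltr (ed j i)) ∧
      (ed (ι j) (len j - 1 - i)).1 ≠ (ed j i).1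
  root : ρ = 0 ∨ (ρ = 1 ∧ ∃ j ∈ W, vt j 0 = x0)

/-- Reconstruction of the intersection of two paths from its extreme points. -/
def locRec {lam : ℕ} (q : Option (Fin (lam + 1) × Fin (lam + 1) × Fin (lam + 1) × Bool))
    (i i' : ℕ) : Prop :=
  match q with
  | none => False
  | some (a, a', b, o) =>
      (a : ℕ) ≤ i ∧ i ≤ (b : ℕ) ∧ if o = true then i' = a' + (i - a) else i' + (i - a) = a'

namespace Cfg

variable {V E E' S : Type} {F : Frame V E E' S} {x0 : V} {K lam : ℕ} (c : Cfg F x0 K lam)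

/-- Edge positions. -/
def Zs : Finset (Fin K × ℕ) := (c.W ×ˢ range lam).filter fun p => p.2 < c.len p.1

/-- Vertex positions. -/
def Vs : Finset (Fin K × ℕ) := (c.W ×ˢ range (lam + 1)).filter fun p => p.2 ≤ c.len p.1

def eg (p : Fin K × ℕ) : E := (c.ed p.1 p.2).1

def dir (p : Fin K × ℕ) : Bool := (c.ed p.1 p.2).2

def vx (q : Fin K × ℕ) : V := c.vt q.1 q.2

def tg (e : E) : V := F.tg (c.β e)

def lb (p : Fin K × ℕ) : S := F.lab (c.eg p)

def sp (p : Fin K × ℕ) : Fin K × ℕ := if c.dir p = true then p else (p.1, p.2 + 1)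

def tp (p : Fin K × ℕ) : Fin K × ℕ := if c.dir p = true then (p.1, p.2 + 1) else p

def star (p : Fin K × ℕ) : Fin K × ℕ := if c.dir p = true then (p.1, p.2 + 1) else (p.1, p.2 - 1)

def pr (p : Fin K × ℕ) : Fin K × ℕ := (c.ι p.1, c.len p.1 - 1 - p.2)

/-- All paths through `v` pass through it along the same two edges. -/
def GoodV (v : V) : Prop :=
  ∀ q ∈ c.Vs, c.vx q = v → (0 < q.2 ∧ q.2 < c.len q.1) ∧ ∀ q' ∈ c.Vs, c.vx q' = v →
    s(c.eg (q.1, q.2 - 1), c.eg q) = s(c.eg (q'.1, q'.2 - 1), c.eg q')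

variable {c}

theorem mem_Zs {p : Fin K × ℕ} : p ∈ c.Zs ↔ p.1 ∈ c.W ∧ p.2 < c.len p.1 := by
  have := c.len_le p.1
  simp only [Zs, mem_filter, mem_product, mem_range]
  constructor
  · rintro ⟨⟨h1, -⟩, h2⟩
    exact ⟨h1, h2⟩
  · rintro ⟨h1, h2⟩
    exact ⟨⟨h1, by omega⟩, h2⟩

theorem mem_Vs {p : Fin K × ℕ} : p ∈ c.Vs ↔ p.1 ∈ c.W ∧ p.2 ≤ c.len p.1 := by
  have := c.len_le p.1
  simp only [Vs, mem_filter, mem_product, mem_range]
  constructor
  · rintro ⟨⟨h1, -⟩, h2⟩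
    exact ⟨h1, h2⟩
  · rintro ⟨h1, h2⟩
    exact ⟨⟨h1, by omega⟩, h2⟩

theorem vx_of_dir {p : Fin K × ℕ} (hp : p ∈ c.Zs) :
    (c.dir p = true ∧ c.vx p = F.src (c.eg p) ∧ c.vx (p.1, p.2 + 1) = c.tg (c.eg p)) ∨
    (c.dir p = false ∧ c.vx p = c.tg (c.eg p) ∧ c.vx (p.1, p.2 + 1) = F.src (c.eg p)) := by
  obtain ⟨h1, h2⟩ := mem_Zs.1 hp
  obtain ⟨h3, h4⟩ := (c.walk _ h1).1 _ h2
  unfold LG.ini at h3
  unfold LG.ter at h4
  cases hd : c.dir p
  · right
    have hd' : ¬ (c.ed p.1 p.2).2 = true := by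
      unfold dir at hd
      simp [hd]
    rw [if_neg hd'] at h3 h4
    exact ⟨rfl, h3.symm, h4.symm⟩
  · left
    have hd' : (c.ed p.1 p.2).2 = true := hd
    rw [if_pos hd'] at h3 h4
    exact ⟨rfl, h3.symm, h4.symm⟩

theorem side_tg (e : E) : F.side (c.tg e) = true := F.side_tg _

theorem srt_tg (e : E) : F.srt (c.tg e) = F.srt (F.src e) := (c.mat e).2

theorem side_vx {p : Fin K × ℕ} (hp : p ∈ c.Zs) :
    F.side (c.vx p) = !c.dir p ∧ F.side (c.vx (p.1, p.2 + 1)) = c.dir p := by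
  rcases vx_of_dir hp with ⟨h1, h2, h3⟩ | ⟨h1, h2, h3⟩ <;>
    simp [h1, h2, h3, F.side_src, side_tg]

theorem srt_vx {p : Fin K × ℕ} (hp : p ∈ c.Zs) :
    F.srt (c.vx p) = F.srt (F.src (c.eg p)) ∧
      F.srt (c.vx (p.1, p.2 + 1)) = F.srt (F.src (c.eg p)) := by
  rcases vx_of_dir hp with ⟨h1, h2, h3⟩ | ⟨h1, h2, h3⟩ <;> simp [h2, h3, srt_tg]

theorem sp_mem {p : Fin K × ℕ} (hp : p ∈ c.Zs) : c.sp p ∈ c.Vs := by
  obtain ⟨h1, h2⟩ := mem_Zs.1 hp
  unfold sp
  split_ifs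
  · exact mem_Vs.2 ⟨h1, h2.le⟩
  · exact mem_Vs.2 ⟨h1, h2⟩

theorem tp_mem {p : Fin K × ℕ} (hp : p ∈ c.Zs) : c.tp p ∈ c.Vs := by
  obtain ⟨h1, h2⟩ := mem_Zs.1 hp
  unfold tp
  split_ifs
  · exact mem_Vs.2 ⟨h1, h2⟩
  · exact mem_Vs.2 ⟨h1, h2.le⟩

theorem vx_sp {p : Fin K × ℕ} (hp : p ∈ c.Zs) : c.vx (c.sp p) = F.src (c.eg p) := by
  unfold sp
  rcases vx_of_dir hp with ⟨h1, h2, h3⟩ | ⟨h1, h2, h3⟩ <;> simp [h1, h2, h3]

theorem vx_tp {p : Fin K × ℕ} (hp : p ∈ c.Zs) : c.vx (c.tp p) = c.tg (c.eg p) := by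
  unfold tp
  rcases vx_of_dir hp with ⟨h1, h2, h3⟩ | ⟨h1, h2, h3⟩ <;> simp [h1, h2, h3]

theorem dir_succ {j : Fin K} {i : ℕ} (hj : j ∈ c.W) (hi : i + 1 < c.len j) :
    c.dir (j, i + 1) = !c.dir (j, i) := by
  have h1 := (side_vx (c := c) (p := (j, i + 1)) (mem_Zs.2 ⟨hj, hi⟩)).1
  have h2 := (side_vx (c := c) (p := (j, i)) (mem_Zs.2 ⟨hj, by simp only; omega⟩)).2
  rw [h1] at h2
  rw [← h2]
  simp

theorem eg_succ_ne {j : Fin K} {i : ℕ} (hj : j ∈ c.W) (hi : i + 1 < c.len j) :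
    c.eg (j, i + 1) ≠ c.eg (j, i) := by
  intro h
  apply (c.walk j hj).2 i hi
  have h2 := dir_succ hj hi
  exact Prod.ext h h2

theorem vt_inj {j : Fin K} (hj : j ∈ c.W) {a b : ℕ} (ha : a ≤ c.len j) (hb : b ≤ c.len j)
    (h : c.vt j a = c.vt j b) : a = b := by
  have hl := c.len_le j
  wlog hab : a ≤ b generalizing a b
  · exact (this hb ha h.symm (by omega)).symm
  have w := (c.walk j hj).window a (b - a) (by omega)
  have := w.girth c.gir (by
    have e : a + (b - a) = b := by omega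
    simp only [e, add_zero]
    exact h.symm) (by omega)
  omega

theorem edge_ext (hlam : 1 ≤ lam) {e e' : E} (h1 : F.src e = F.src e') (h2 : c.tg e = c.tg e') :
    e = e' := by
  have w1 : FWalk (F.graph c.β) 1 (fun _ => (e, true))
      (fun i => if i = 0 then F.src e else c.tg e) :=
    ⟨fun i hi => by
      have : i = 0 := by omega
      subst this
      exact ⟨rfl, rfl⟩, fun i hi => by omega⟩
  have w2 : FWalk (F.graph c.β) 1 (fun _ => (e', true))
      (fun i => if i = 0 then F.src e' else c.tg e') :=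
    ⟨fun i hi => by
      have : i = 0 := by omega
      subst this
      exact ⟨rfl, rfl⟩, fun i hi => by omega⟩
  have := (FWalk.unique c.gir 1 1 _ _ _ _ w1 w2 (by simpa using h1) (by simpa using h2)
    (by omega)).2 0 (by omega)
  exact congrArg Prod.fst this

/-- Two common points of two paths span a common subpath. -/
theorem common {j j' : Fin K} (hj : j ∈ c.W) (hj' : j' ∈ c.W) {a a' b b' : ℕ} (hab : a ≤ b)
    (hb : b ≤ c.len j) (ha' : a' ≤ c.len j') (hb' : b' ≤ c.len j')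
    (h1 : c.vt j a = c.vt j' a') (h2 : c.vt j b = c.vt j' b') :
    (a' ≤ b' ∧ b' - a' = b - a ∧ (∀ n, n < b - a → c.ed j (a + n) = c.ed j' (a' + n)) ∧
      ∀ n, n ≤ b - a → c.vt j (a + n) = c.vt j' (a' + n)) ∨
    (b' ≤ a' ∧ a' - b' = b - a ∧
      (∀ n, n < b - a → c.ed j (a + n) = rev (c.ed j' (a' - 1 - n))) ∧
      ∀ n, n ≤ b - a → c.vt j (a + n) = c.vt j' (a' - n)) := by
  have hl := c.len_le j
  have hl' := c.len_le j'
  have w := (c.walk j hj).window a (b - a) (by omega)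
  have eb : a + (b - a) = b := by omega
  rcases le_total a' b' with h | h
  · left
    have w' := (c.walk j' hj').window a' (b' - a') (by omega)
    have eb' : a' + (b' - a') = b' := by omega
    obtain ⟨h3, h4⟩ := FWalk.unique c.gir _ _ _ _ _ _ w w' (by simpa using h1)
      (by simpa only [eb, eb'] using h2) (by omega)
    refine ⟨h, h3.symm, h4, fun n hn => ?_⟩
    rcases n with _ | n
    · simpa using h1
    · have e1 := (w.1 n (by omega)).2
      have e2 := (w'.1 n (by omega)).2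
      simp only at e1 e2
      rw [← e1, ← e2, h4 n (by omega)]
  · right
    have w' := ((c.walk j' hj').window b' (a' - b') (by omega)).reverse
    have eb' : b' + (a' - b') = a' := by omega
    obtain ⟨h3, h4⟩ := FWalk.unique c.gir _ _ _ _ _ _ w w' (by simpa [eb'] using h1)
      (by simpa [eb] using h2) (by omega)
    have h5 : ∀ n, n < b - a → c.ed j (a + n) = rev (c.ed j' (a' - 1 - n)) := by
      intro n hn
      have e : b' + (a' - b' - 1 - n) = a' - 1 - n := by omega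
      have := h4 n hn
      simp only [e] at this
      exact this
    refine ⟨h, h3.symm, h5, fun n hn => ?_⟩
    rcases n with _ | n
    · simpa using h1
    · have e1 := (w.1 n (by omega)).2
      have e2 := ((c.walk j' hj').1 (a' - 1 - n) (by omega)).1
      simp only at e1
      rw [← e1, h5 n (by omega), loc_ter_rev, e2]
      congr 1
      omega

/-- Description of the intersection of two paths. -/
theorem exists_rec (j j' : Fin K) :
    ∃ q : Option (Fin (lam + 1) × Fin (lam + 1) × Fin (lam + 1) × Bool), j ∈ c.W → j' ∈ c.W →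
      (∀ i i', i ≤ c.len j → i' ≤ c.len j' → (c.vt j i = c.vt j' i' ↔ locRec q i i')) ∧
      ∀ a a' b o, q = some (a, a', b, o) → ∀ i i', i' ≤ c.len j' → c.vt j i = c.vt j' i' →
        (a : ℕ) < i → i < (b : ℕ) → 0 < i' ∧ i' < c.len j' ∧ i < c.len j ∧
          s(c.eg (j, i - 1), c.eg (j, i)) = s(c.eg (j', i' - 1), c.eg (j', i')) := by
  by_cases hW : j ∈ c.W ∧ j' ∈ c.W
  swap
  · exact ⟨none, fun h1 h2 => (hW ⟨h1, h2⟩).elim⟩
  obtain ⟨hj, hj'⟩ := hW
  have hl := c.len_le j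
  have hl' := c.len_le j'
  let I : Finset ℕ := (range (c.len j + 1)).filter fun i => ∃ i', i' ≤ c.len j' ∧
    c.vt j i = c.vt j' i'
  have hI : ∀ i, i ∈ I ↔ i ≤ c.len j ∧ ∃ i', i' ≤ c.len j' ∧ c.vt j i = c.vt j' i' := by
    intro i
    simp only [I, mem_filter, mem_range, Nat.lt_succ_iff]
  by_cases hne : I.Nonempty
  swap
  · refine ⟨none, fun _ _ => ⟨fun i i' hi hi' => ⟨fun h => hne ⟨i, (hI i).2 ⟨hi, i', hi', h⟩⟩,
      fun h => h.elim⟩, fun a a' b o h => by simp at h⟩⟩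
  obtain ⟨ha, a', ha', haa⟩ := (hI _).1 (I.min'_mem hne)
  obtain ⟨hb, b', hb', hbb⟩ := (hI _).1 (I.max'_mem hne)
  have hmin : ∀ i ∈ I, I.min' hne ≤ i := fun i hi => I.min'_le i hi
  have hmax : ∀ i ∈ I, i ≤ I.max' hne := fun i hi => I.le_max' i hi
  have hab : I.min' hne ≤ I.max' hne := hmin _ (I.max'_mem hne)
  generalize I.min' hne = a at *
  generalize I.max' hne = b at *
  rcases common hj hj' hab hb ha' hb' haa hbb with ⟨h1, h2, h3, h4⟩ | ⟨h1, h2, h3, h4⟩
  · have key : ∀ i i', i ≤ c.len j → i' ≤ c.len j' → c.vt j i = c.vt j' i' →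
        a ≤ i ∧ i ≤ b ∧ i' = a' + (i - a) := by
      intro i i' hi hi' h
      have h5 := hmin i ((hI i).2 ⟨hi, i', hi', h⟩)
      have h6 := hmax i ((hI i).2 ⟨hi, i', hi', h⟩)
      have h7 := h4 (i - a) (by omega)
      rw [show a + (i - a) = i by omega, h] at h7
      exact ⟨h5, h6, vt_inj hj' hi' (by omega) h7⟩
    refine ⟨some (⟨a, by omega⟩, ⟨a', by omega⟩, ⟨b, by omega⟩, true), fun _ _ => ⟨?_, ?_⟩⟩
    · intro i i' hi hi'
      simp only [locRec, if_true]
      refine ⟨key i i' hi hi', ?_⟩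
      rintro ⟨h5, h6, rfl⟩
      have h7 := h4 (i - a) (by omega)
      rwa [show a + (i - a) = i by omega] at h7
    · intro a0 a0' b0 o hq i i' hi' h h5 h6
      simp only [Option.some.injEq, Prod.mk.injEq] at hq
      obtain ⟨rfl, -, rfl, -⟩ := hq
      simp only at h5 h6
      obtain ⟨-, -, h7⟩ := key i i' (by omega) hi' h
      refine ⟨by omega, by omega, by omega, ?_⟩
      have e1 := h3 (i - a - 1) (by omega)
      have e2 := h3 (i - a) (by omega)
      rw [show a + (i - a - 1) = i - 1 by omega, show a' + (i - a - 1) = i' - 1 by omega] at e1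
      rw [show a + (i - a) = i by omega, ← h7] at e2
      simp only [eg, e1, e2]
  · have key : ∀ i i', i ≤ c.len j → i' ≤ c.len j' → c.vt j i = c.vt j' i' →
        a ≤ i ∧ i ≤ b ∧ i' + (i - a) = a' := by
      intro i i' hi hi' h
      have h5 := hmin i ((hI i).2 ⟨hi, i', hi', h⟩)
      have h6 := hmax i ((hI i).2 ⟨hi, i', hi', h⟩)
      have h7 := h4 (i - a) (by omega)
      rw [show a + (i - a) = i by omega, h] at h7
      have := vt_inj hj' hi' (by omega) h7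
      exact ⟨h5, h6, by omega⟩
    refine ⟨some (⟨a, by omega⟩, ⟨a', by omega⟩, ⟨b, by omega⟩, false), fun _ _ => ⟨?_, ?_⟩⟩
    · intro i i' hi hi'
      simp only [locRec, Bool.false_eq_true, if_false]
      refine ⟨key i i' hi hi', ?_⟩
      rintro ⟨h5, h6, h8⟩
      have h7 := h4 (i - a) (by omega)
      rwa [show a + (i - a) = i by omega, show a' - (i - a) = i' by omega] at h7
    · intro a0 a0' b0 o hq i i' hi' h h5 h6
      simp only [Option.some.injEq, Prod.mk.injEq] at hq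
      obtain ⟨rfl, -, rfl, -⟩ := hq
      simp only at h5 h6
      obtain ⟨-, -, h7⟩ := key i i' (by omega) hi' h
      refine ⟨by omega, by omega, by omega, ?_⟩
      have e1 := h3 (i - a - 1) (by omega)
      have e2 := h3 (i - a) (by omega)
      rw [show a + (i - a - 1) = i - 1 by omega, show a' - 1 - (i - a - 1) = i' by omega] at e1
      rw [show a + (i - a) = i by omega, show a' - 1 - (i - a) = i' - 1 by omega] at e2
      simp only [eg, e1, e2, loc_rev_fst]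
      exact Sym2.eq_swap

/-- The chosen description. -/
noncomputable def rc (c : Cfg F x0 K lam) (j j' : Fin K) :
    Option (Fin (lam + 1) × Fin (lam + 1) × Fin (lam + 1) × Bool) := (exists_rec (c := c) j j').choose

theorem rc_iff {q q' : Fin K × ℕ} (hq : q ∈ c.Vs) (hq' : q' ∈ c.Vs) :
    c.vx q = c.vx q' ↔ locRec (c.rc q.1 q'.1) q.2 q'.2 :=
  ((exists_rec (c := c) q.1 q'.1).choose_spec (mem_Vs.1 hq).1 (mem_Vs.1 hq').1).1 _ _
    (mem_Vs.1 hq).2 (mem_Vs.1 hq').2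

/-- Few positions are bad. -/
theorem card_bad : (c.Vs.filter fun q => ¬ c.GoodV (c.vx q)).card ≤ 2 * K ^ 2 := by
  let ext : Fin K × Fin K × Bool → Fin K × ℕ := fun x =>
    match c.rc x.1 x.2.1 with
    | none => (x.1, 0)
    | some (a, _, b, _) => (x.1, if x.2.2 = true then (a : ℕ) else (b : ℕ))
  have h1 : (c.Vs.filter fun q => ¬ c.GoodV (c.vx q)) ⊆ univ.image ext := by
    intro q hq
    obtain ⟨hqV, hbad⟩ := mem_filter.1 hq
    by_contra hne
    apply hbad
    have key : ∀ q' ∈ c.Vs, c.vx q' = c.vx q → 0 < q'.2 ∧ q'.2 < c.len q'.1 ∧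
        s(c.eg (q.1, q.2 - 1), c.eg q) = s(c.eg (q'.1, q'.2 - 1), c.eg q') := by
      intro q' hq' hv
      have h2 := (rc_iff hqV hq').1 hv.symm
      have h3 := ((exists_rec (c := c) q.1 q'.1).choose_spec (mem_Vs.1 hqV).1
        (mem_Vs.1 hq').1).2
      rcases hrc : c.rc q.1 q'.1 with _ | ⟨a, a', b, o⟩
      · rw [hrc] at h2
        exact h2.elim
      · rw [hrc] at h2
        obtain ⟨h4, h5, -⟩ := h2
        have h6 : (a : ℕ) ≠ q.2 := by
          intro h
          refine hne (mem_image.2 ⟨(q.1, q'.1, true), mem_univ _, ?_⟩)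
          simp only [ext, hrc, if_true, h]
        have h7 : (b : ℕ) ≠ q.2 := by
          intro h
          refine hne (mem_image.2 ⟨(q.1, q'.1, false), mem_univ _, ?_⟩)
          simp only [ext, hrc, Bool.false_eq_true, if_false, h]
        obtain ⟨h8, h9, -, h10⟩ := h3 a a' b o hrc q.2 q'.2 (mem_Vs.1 hq').2 hv.symm
          (by omega) (by omega)
        exact ⟨h8, h9, h10⟩
    intro q1 hq1 hv1
    obtain ⟨a1, a2, a3⟩ := key q1 hq1 hv1
    refine ⟨⟨a1, a2⟩, fun q2 hq2 hv2 => ?_⟩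
    exact a3.symm.trans (key q2 hq2 hv2).2.2
  calc _ ≤ (univ.image ext).card := card_le_card h1
    _ ≤ (univ : Finset (Fin K × Fin K × Bool)).card := card_image_le
    _ = 2 * K ^ 2 := by simp; ring

end Cfg

end Vale.Agent.Kap
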