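import Vale.Agent.Kap.LocalB

namespace Vale.Agent.Kap

open Finset
open scoped Classical

namespace Cfg

variable {V E E' S : Type} {F : Frame V E E' S} {x0 : V} {K lam : ℕ} (c : Cfg F x0 K lam)

/-- Multiplicity of an edge. -/
noncomputable def mult (e : E) : ℕ := (c.Zs.filter fun p => c.eg p = e).card

noncomputable def Zt (t : ℕ) : Finset (Fin K × ℕ) := c.Zs.filter fun p => t ≤ c.mult (c.eg p)

noncomputable def Et (t : ℕ) : Finset E := (c.Zt t).image c.eg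

noncomputable def VT (t : ℕ) : Finset V := (c.Et t).image F.src ∪ (c.Et t).image c.tg

/-- Generating relation for the label classes. -/
def rel (p p' : Fin K × ℕ) : Prop :=
  p ∈ c.Zs ∧ p' ∈ c.Zs ∧ (c.eg p = c.eg p' ∨ (p.1 ∈ c.Pa ∧ p' = c.pr p))

noncomputable def cl (p : Fin K × ℕ) : Finset (Fin K × ℕ) :=
  c.Zs.filter fun p' => Relation.EqvGen c.rel p p'

noncomputable def CT (t : ℕ) : Finset (Finset (Fin K × ℕ)) := (c.Zt t).image c.cl

noncomputable def A0 (t : ℕ) : Finset V :=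
  (c.VT t).filter fun v => c.GoodV v ∧ F.side v = false ∧ v ≠ x0

noncomputable def A1 (t : ℕ) : Finset V :=
  (c.VT t).filter fun v => ¬ (c.GoodV v ∧ F.side v = false) ∧ v ≠ x0

variable {c}

theorem card_Zs : c.Zs.card = ∑ j ∈ c.W, c.len j := by
  rw [card_eq_sum_card_fiberwise (f := Prod.fst) (s := c.Zs) (t := c.W)
    (fun p hp => (mem_Zs.1 hp).1)]
  refine sum_congr rfl fun j hj => ?_
  have : (c.Zs.filter fun p => p.1 = j) = (range (c.len j)).image fun i => (j, i) := by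
    ext ⟨j', i⟩
    simp only [mem_filter, mem_Zs, mem_image, mem_range, Prod.mk.injEq]
    constructor
    · rintro ⟨⟨-, h2⟩, rfl⟩
      exact ⟨i, h2, rfl, rfl⟩
    · rintro ⟨i', h1, rfl, rfl⟩
      exact ⟨⟨hj, h1⟩, rfl⟩
  rw [this, card_image_of_injective _ (fun a b h => (Prod.ext_iff.1 h).2), card_range]

theorem card_Zs_le : c.Zs.card ≤ K * lam := by
  rw [card_Zs]
  calc _ ≤ ∑ _j ∈ c.W, lam := sum_le_sum fun j _ => c.len_le j
    _ = c.W.card * lam := by simp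
    _ ≤ K * lam := Nat.mul_le_mul_right _ (by simpa using card_le_univ c.W)

theorem card_at_le (v : V) : (c.Vs.filter fun q => c.vx q = v).card ≤ K := by
  calc _ ≤ (univ : Finset (Fin K)).card := by
        refine card_le_card_of_injOn Prod.fst (fun _ _ => by simp) ?_
        rintro ⟨j, i⟩ h1 ⟨j', i'⟩ h2 h
        obtain ⟨h3, h4⟩ := mem_filter.1 (mem_coe.1 h1)
        obtain ⟨h5, h6⟩ := mem_filter.1 (mem_coe.1 h2)
        simp only at h
        subst h
        have := vt_inj (mem_Vs.1 h3).1 (mem_Vs.1 h3).2 (mem_Vs.1 h5).2 (h4.trans h6.symm)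
        simp only at this
        rw [this]
    _ = K := by simp

theorem sp_fst (p : Fin K × ℕ) : (c.sp p).1 = p.1 := by
  unfold sp
  split_ifs <;> rfl

theorem tp_fst (p : Fin K × ℕ) : (c.tp p).1 = p.1 := by
  unfold tp
  split_ifs <;> rfl

theorem eg_inj {p p' : Fin K × ℕ} (hp : p ∈ c.Zs) (hp' : p' ∈ c.Zs) (h1 : p.1 = p'.1)
    (h : c.eg p = c.eg p') : p = p' := by
  obtain ⟨j, i⟩ := p
  obtain ⟨j', i'⟩ := p'
  simp only at h1
  subst h1
  have hj := (mem_Zs.1 hp).1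
  have hi := (mem_Zs.1 hp).2
  have hi' := (mem_Zs.1 hp').2
  simp only at hj hi hi'
  rcases vx_of_dir hp with ⟨-, h2, h3⟩ | ⟨-, h2, h3⟩ <;>
    rcases vx_of_dir hp' with ⟨-, h4, h5⟩ | ⟨-, h4, h5⟩ <;> rw [← h] at h4 h5
  · have := vt_inj hj hi.le hi'.le (h2.trans h4.symm)
    rw [this]
  · have a1 := vt_inj hj hi.le hi' (h2.trans h5.symm)
    have a2 := vt_inj hj hi hi'.le (h3.trans h4.symm)
    omega
  · have a1 := vt_inj hj hi.le hi' (h2.trans h5.symm)
    have a2 := vt_inj hj hi hi'.le (h3.trans h4.symm)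
    omega
  · have := vt_inj hj hi.le hi'.le (h2.trans h4.symm)
    rw [this]

theorem mult_le (e : E) : c.mult e ≤ K := by
  calc _ ≤ (univ : Finset (Fin K)).card := by
        refine card_le_card_of_injOn Prod.fst (fun _ _ => by simp) ?_
        intro p h1 p' h2 h
        obtain ⟨h3, h4⟩ := mem_filter.1 (mem_coe.1 h1)
        obtain ⟨h5, h6⟩ := mem_filter.1 (mem_coe.1 h2)
        exact eg_inj h3 h5 h (h4.trans h6.symm)
    _ = K := by simp

theorem one_le_mult {p : Fin K × ℕ} (hp : p ∈ c.Zs) : 1 ≤ c.mult (c.eg p) :=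
  card_pos.2 ⟨p, mem_filter.2 ⟨hp, rfl⟩⟩

theorem mem_Zt {t : ℕ} {p : Fin K × ℕ} : p ∈ c.Zt t ↔ p ∈ c.Zs ∧ t ≤ c.mult (c.eg p) :=
  mem_filter

theorem card_Et_le (t : ℕ) : (c.Et t).card ≤ K * lam :=
  card_image_le.trans ((card_filter_le _ _).trans card_Zs_le)

theorem sum_Et : c.Zs.card ≤ ∑ t ∈ Icc 1 K, (c.Et t).card := by
  have h1 : ∀ t, (c.Et t).card = ∑ e ∈ c.Zs.image c.eg, if t ≤ c.mult e then 1 else 0 := by
    intro t
    rw [← card_filter]
    congr 1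
    ext e
    simp only [Et, mem_image, mem_Zt, mem_filter]
    constructor
    · rintro ⟨p, ⟨h1, h2⟩, rfl⟩
      exact ⟨⟨p, h1, rfl⟩, h2⟩
    · rintro ⟨⟨p, h1, rfl⟩, h2⟩
      exact ⟨p, ⟨h1, h2⟩, rfl⟩
  simp_rw [h1]
  rw [sum_comm, card_eq_sum_card_fiberwise (f := c.eg) (s := c.Zs) (t := c.Zs.image c.eg)
    (fun p hp => mem_image_of_mem _ hp)]
  refine sum_le_sum fun e _ => ?_
  rw [← card_filter]
  calc _ = (Icc 1 (c.mult e)).card := by simp [mult]
    _ ≤ _ := by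
      refine card_le_card fun t ht => ?_
      obtain ⟨h1, h2⟩ := mem_Icc.1 ht
      exact mem_filter.2 ⟨mem_Icc.2 ⟨h1, h2.trans (mult_le e)⟩, h2⟩

theorem mem_VT {t : ℕ} {v : V} :
    v ∈ c.VT t ↔ ∃ p ∈ c.Zt t, c.vx p = v ∨ c.vx (p.1, p.2 + 1) = v := by
  simp only [VT, Et, mem_union, mem_image]
  constructor
  · rintro (⟨e, ⟨p, hp, rfl⟩, rfl⟩ | ⟨e, ⟨p, hp, rfl⟩, rfl⟩) <;> refine ⟨p, hp, ?_⟩ <;>
      rcases vx_of_dir (mem_Zt.1 hp).1 with ⟨-, h2, h3⟩ | ⟨-, h2, h3⟩ <;> simp [h2, h3]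
  · rintro ⟨p, hp, h⟩
    rcases vx_of_dir (mem_Zt.1 hp).1 with ⟨-, h2, h3⟩ | ⟨-, h2, h3⟩ <;> rcases h with h | h
    · exact Or.inl ⟨_, ⟨p, hp, rfl⟩, h2.symm.trans h⟩
    · exact Or.inr ⟨_, ⟨p, hp, rfl⟩, h3.symm.trans h⟩
    · exact Or.inr ⟨_, ⟨p, hp, rfl⟩, h2.symm.trans h⟩
    · exact Or.inl ⟨_, ⟨p, hp, rfl⟩, h3.symm.trans h⟩

theorem sum_VT : (∑ t ∈ Icc 1 K, (c.VT t).card) + c.W.card * 0 + c.Zs.card + c.Gl.card ≤
    2 * c.Zs.card + c.W.card := by
  let f : (Fin K × ℕ) × Bool → V := fun x =>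
    if x.2 = true then c.vx (x.1.1, x.1.2 + 1) else c.vx x.1
  let nx : Fin K × ℕ → Fin K × ℕ := fun p =>
    if p.2 + 1 < c.len p.1 then (p.1, p.2 + 1) else (c.φ p.1, 0)
  let C : Finset (Fin K × ℕ) := c.Zs.filter fun p => p.2 + 1 < c.len p.1 ∨ p.1 ∈ c.Gl
  have hC : ∀ p ∈ C, p.1 ∈ c.W ∧ p.2 < c.len p.1 ∧
      (p.2 + 1 < c.len p.1 ∨ (p.1 ∈ c.Gl ∧ p.2 + 1 = c.len p.1)) := by
    intro p hp
    obtain ⟨h1, h2⟩ := mem_filter.1 hp
    obtain ⟨h3, h4⟩ := mem_Zs.1 h1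
    refine ⟨h3, h4, ?_⟩
    by_cases h5 : p.2 + 1 < c.len p.1
    · exact Or.inl h5
    · exact Or.inr ⟨h2.resolve_left h5, by omega⟩
  have hnx : ∀ p ∈ C, nx p ∈ c.Zs ∧ c.vx (nx p) = c.vx (p.1, p.2 + 1) ∧
      c.eg (nx p) ≠ c.eg p := by
    intro p hp
    obtain ⟨h1, h2, h3 | ⟨h3, h4⟩⟩ := hC p hp
    · simp only [nx, h3, if_true]
      exact ⟨mem_Zs.2 ⟨h1, h3⟩, trivial, eg_succ_ne h1 h3⟩
    · have h5 : ¬ p.2 + 1 < c.len p.1 := by omega
      simp only [nx, h5, if_false]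
      obtain ⟨h6, h7, h8⟩ := c.gl _ h3
      have h9 : (c.φ p.1, 0) ∈ c.Zs := mem_Zs.2 ⟨h6, c.len_pos _ h6⟩
      have h10 : c.vx (c.φ p.1, 0) = c.vx (p.1, p.2 + 1) := by
        simp only [vx, h4, h7]
      refine ⟨h9, h10, fun h => h8 ?_⟩
      have h11 := (side_vx h9).1
      have h12 := (side_vx (mem_Zs.2 ⟨h1, h2⟩)).2
      rw [h10, h12] at h11
      have e : c.len p.1 - 1 = p.2 := by omega
      rw [e]
      refine Prod.ext h ?_
      change c.dir (c.φ p.1, 0) = !c.dir p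
      rw [h11]
      simp
  have key := loc_filtration (c.Zs ×ˢ (univ : Finset Bool)) f (fun x => c.eg x.1)
    (fun x => c.mult (c.eg x.1)) C (fun p => (p, true)) (fun p => (nx p, false)) K
    ?_ ?_ ?_ ?_ ?_ ?_ ?_ ?_
  · have h1 : ∀ t, (((c.Zs ×ˢ (univ : Finset Bool)).filter
        fun x => t ≤ c.mult (c.eg x.1)).image f) = c.VT t := by
      intro t
      ext v
      simp only [mem_VT, mem_image, mem_filter, mem_product, mem_univ, and_true, mem_Zt]
      constructor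
      · rintro ⟨⟨p, b⟩, h1, h2⟩
        refine ⟨p, h1, ?_⟩
        cases b
        · exact Or.inl h2
        · exact Or.inr h2
      · rintro ⟨p, h1, h2 | h2⟩
        · exact ⟨(p, false), h1, h2⟩
        · exact ⟨(p, true), h1, h2⟩
    simp_rw [h1] at key
    rw [card_product, card_univ, Fintype.card_bool] at key
    have h2 := card_filter_add_card_filter_not (s := c.Zs)
      (p := fun p => p.2 + 1 < c.len p.1 ∨ p.1 ∈ c.Gl)
    have h3 : (c.Zs.filter fun p => ¬ (p.2 + 1 < c.len p.1 ∨ p.1 ∈ c.Gl)).card ≤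
        (c.W \ c.Gl).card := by
      refine card_le_card_of_injOn Prod.fst ?_ ?_
      · intro p hp
        obtain ⟨h1, h2⟩ := mem_filter.1 (mem_coe.1 hp)
        exact mem_coe.2 (mem_sdiff.2 ⟨(mem_Zs.1 h1).1, fun h => h2 (Or.inr h)⟩)
      · rintro ⟨j, i⟩ hp ⟨j', i'⟩ hp' h
        obtain ⟨h1, h2⟩ := mem_filter.1 (mem_coe.1 hp)
        obtain ⟨h3, h4⟩ := mem_filter.1 (mem_coe.1 hp')
        simp only at h
        subst h
        have a1 := (mem_Zs.1 h1).2
        have a2 := (mem_Zs.1 h3).2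
        simp only [not_or] at h2 h4 a1 a2
        have : i = i' := by omega
        rw [this]
    have h4 := card_sdiff_add_card_eq_card c.Gl_sub
    have h5 : C.card = (c.Zs.filter fun p => p.2 + 1 < c.len p.1 ∨ p.1 ∈ c.Gl).card := rfl
    omega
  · rintro ⟨p, b⟩ hx
    have hp : p ∈ c.Zs := (mem_product.1 hx).1
    refine card_le_card_of_injOn (fun p' => (p', if c.dir p' = c.dir p then b else !b)) ?_ ?_
    · intro p' hp'
      obtain ⟨h1, h2⟩ := mem_filter.1 (mem_coe.1 hp')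
      refine mem_coe.2 (mem_filter.2 ⟨mem_product.2 ⟨h1, mem_univ _⟩, ?_, h2⟩)
      simp only at h2
      rcases vx_of_dir hp with ⟨a1, a2, a3⟩ | ⟨a1, a2, a3⟩ <;>
        rcases vx_of_dir h1 with ⟨b1, b2, b3⟩ | ⟨b1, b2, b3⟩ <;> cases b <;>
        simp [f, a1, a2, a3, b1, b2, b3, h2]
    · intro p1 _ p2 _ h
      exact (Prod.ext_iff.1 h).1
  · intro p hp
    exact mem_product.2 ⟨(mem_filter.1 hp).1, mem_univ _⟩
  · intro p hp
    exact mem_product.2 ⟨(hnx p hp).1, mem_univ _⟩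
  · intro p hp
    simp [f, (hnx p hp).2.1]
  · intro p hp
    exact (hnx p hp).2.2
  · intro p _ p' _ h
    exact (Prod.ext_iff.1 h).1
  · intro p hp p' hp' h
    have h0 : nx p = nx p' := (Prod.ext_iff.1 h).1
    obtain ⟨h1, h2, h3 | ⟨h3, h4⟩⟩ := hC p hp <;> obtain ⟨h5, h6, h7 | ⟨h7, h8⟩⟩ := hC p' hp'
    · simp only [nx, h3, h7, if_true, Prod.mk.injEq] at h0
      exact Prod.ext h0.1 (by omega)
    · have : ¬ p'.2 + 1 < c.len p'.1 := by omega
      simp only [nx, h3, this, if_true, if_false, Prod.mk.injEq] at h0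
      omega
    · have : ¬ p.2 + 1 < c.len p.1 := by omega
      simp only [nx, h7, this, if_true, if_false, Prod.mk.injEq] at h0
      omega
    · have a1 : ¬ p.2 + 1 < c.len p.1 := by omega
      have a2 : ¬ p'.2 + 1 < c.len p'.1 := by omega
      simp only [nx, a1, a2, if_false, Prod.mk.injEq] at h0
      have a3 := c.φ_inj h3 h7 h0.1
      refine Prod.ext a3 ?_
      rw [a3] at h4
      omega
  · intro p _ p' _ h
    simpa using (Prod.ext_iff.1 h).2

theorem pr_spec {p : Fin K × ℕ} (hp : p ∈ c.Zs) (hPa : p.1 ∈ c.Pa) :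
    c.pr p ∈ c.Zs ∧ (c.pr p).1 ∈ c.Pa ∧ c.pr (c.pr p) = p ∧ c.lb (c.pr p) = c.lb p ∧
      c.dir (c.pr p) = (!c.dir p) ∧ c.eg (c.pr p) ≠ c.eg p := by
  obtain ⟨h1, h2, h3, h4⟩ := c.pa _ hPa
  have h5 := (mem_Zs.1 hp).2
  obtain ⟨h6, h7⟩ := h4 _ h5
  refine ⟨mem_Zs.2 ⟨c.Pa_sub h1, ?_⟩, h1, ?_, congrArg Prod.fst h6, congrArg Prod.snd h6, h7⟩
  · simp only [pr, h3]
    omega
  · simp only [pr, h2, h3]
    exact Prod.ext rfl (by simp only; omega)

theorem cl_eq {p p' : Fin K × ℕ} (h : Relation.EqvGen c.rel p p') : c.cl p = c.cl p' := by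
  ext x
  simp only [cl, mem_filter]
  exact and_congr_right fun _ => ⟨fun h' => (h.symm _ _).trans _ _ _ h',
    fun h' => h.trans _ _ _ h'⟩

theorem eqv_of_cl_eq {p p' : Fin K × ℕ} (hp' : p' ∈ c.Zs) (h : c.cl p = c.cl p') :
    Relation.EqvGen c.rel p p' := by
  have : p' ∈ c.cl p' := mem_filter.2 ⟨hp', Relation.EqvGen.refl _⟩
  rw [← h] at this
  exact (mem_filter.1 this).2

theorem sum_CT : 2 * (∑ t ∈ Icc 1 K, (c.CT t).card) ≤
    c.Zs.card + ∑ j ∈ c.W \ c.Pa, c.len j := by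
  let C : Finset (Fin K × ℕ) := c.Zs.filter fun p => p.1 ∈ c.Pa ∧ c.dir p = true
  have key := loc_filtration c.Zs c.cl c.eg (fun x => c.mult (c.eg x)) C id c.pr K
    ?_ ?_ ?_ ?_ ?_ ?_ ?_ ?_
  · have h1 : (c.Zs.filter fun p => p.1 ∈ c.Pa ∧ ¬ c.dir p = true).card ≤ C.card := by
      refine card_le_card_of_injOn c.pr ?_ ?_
      · intro p hp
        obtain ⟨h1, h2, h3⟩ := mem_filter.1 (mem_coe.1 hp)
        obtain ⟨a1, a2, -, -, a5, -⟩ := pr_spec h1 h2
        exact mem_coe.2 (mem_filter.2 ⟨a1, a2, by simpa [a5] using h3⟩)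
      · intro p hp p' hp' h
        obtain ⟨h1, h2, -⟩ := mem_filter.1 (mem_coe.1 hp)
        obtain ⟨h3, h4, -⟩ := mem_filter.1 (mem_coe.1 hp')
        rw [← (pr_spec h1 h2).2.2.1, h, (pr_spec h3 h4).2.2.1]
    have h2 := card_filter_add_card_filter_not (s := c.Zs) (p := fun p => p.1 ∈ c.Pa)
    have h3 := card_filter_add_card_filter_not (s := c.Zs.filter fun p => p.1 ∈ c.Pa)
      (p := fun p => c.dir p = true)
    rw [filter_filter, filter_filter] at h3
    have h4 : (c.Zs.filter fun p => ¬ p.1 ∈ c.Pa).card = ∑ j ∈ c.W \ c.Pa, c.len j := by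
      rw [card_eq_sum_card_fiberwise (f := Prod.fst) (t := c.W \ c.Pa) (fun p hp =>
        mem_coe.2 (mem_sdiff.2 ⟨(mem_Zs.1 (mem_filter.1 (mem_coe.1 hp)).1).1,
          (mem_filter.1 (mem_coe.1 hp)).2⟩))]
      refine sum_congr rfl fun j hj => ?_
      obtain ⟨hj1, hj2⟩ := mem_sdiff.1 hj
      have : ((c.Zs.filter fun p => ¬ p.1 ∈ c.Pa).filter fun p => p.1 = j) =
          (range (c.len j)).image fun i => (j, i) := by
        ext ⟨j', i⟩
        simp only [mem_filter, mem_Zs, mem_image, mem_range, Prod.mk.injEq]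
        constructor
        · rintro ⟨⟨⟨-, h2⟩, -⟩, rfl⟩
          exact ⟨i, h2, rfl, rfl⟩
        · rintro ⟨i', h1, rfl, rfl⟩
          exact ⟨⟨⟨hj1, h1⟩, hj2⟩, rfl⟩
      rw [this, card_image_of_injective _ (fun a b h => (Prod.ext_iff.1 h).2), card_range]
    have h5 : ∀ t, ((c.Zs.filter fun x => t ≤ c.mult (c.eg x)).image c.cl) = c.CT t :=
      fun t => rfl
    simp_rw [h5] at key
    have h6 : C.card = (c.Zs.filter fun p => p.1 ∈ c.Pa ∧ c.dir p = true).card := rfl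
    omega
  · intro p hp
    refine card_le_card fun p' hp' => ?_
    obtain ⟨h1, h2⟩ := mem_filter.1 hp'
    exact mem_filter.2 ⟨h1, cl_eq (Relation.EqvGen.rel _ _ ⟨h1, hp, Or.inl h2⟩), h2⟩
  · intro p hp
    exact (mem_filter.1 hp).1
  · intro p hp
    obtain ⟨h1, h2, -⟩ := mem_filter.1 hp
    exact (pr_spec h1 h2).1
  · intro p hp
    obtain ⟨h1, h2, -⟩ := mem_filter.1 hp
    exact (cl_eq (Relation.EqvGen.rel _ _ ⟨h1, (pr_spec h1 h2).1, Or.inr ⟨h2, rfl⟩⟩)).symm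
  · intro p hp
    obtain ⟨h1, h2, -⟩ := mem_filter.1 hp
    exact (pr_spec h1 h2).2.2.2.2.2
  · intro p _ p' _ h
    exact h
  · intro p hp p' hp' h
    obtain ⟨h1, h2, -⟩ := mem_filter.1 (mem_coe.1 hp)
    obtain ⟨h3, h4, -⟩ := mem_filter.1 (mem_coe.1 hp')
    rw [← (pr_spec h1 h2).2.2.1, h, (pr_spec h3 h4).2.2.1]
  · intro p hp p' hp' h
    obtain ⟨-, -, h2⟩ := mem_filter.1 hp
    obtain ⟨h3, h4, h5⟩ := mem_filter.1 hp'
    have h6 := (pr_spec h3 h4).2.2.2.2.1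
    simp only [id] at h
    rw [← h, h2, h5] at h6
    simp at h6

/-- At a good vertex both edges have multiplicity at least the number of visits. -/
theorem good_mult {q : Fin K × ℕ} (hq : q ∈ c.Vs) (hg : c.GoodV (c.vx q)) :
    (c.Vs.filter fun q' => c.vx q' = c.vx q).card ≤ c.mult (c.eg q) := by
  refine card_le_card_of_injOn (fun q' => if c.eg q' = c.eg q then q' else (q'.1, q'.2 - 1)) ?_ ?_
  · intro q' hq'
    obtain ⟨h1, h2⟩ := mem_filter.1 (mem_coe.1 hq')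
    obtain ⟨⟨h3, h4⟩, h5⟩ := hg q' h1 h2
    have h6 := h5 q hq rfl
    have h7 := (mem_Vs.1 h1).1
    refine mem_coe.2 (mem_filter.2 ?_)
    by_cases h : c.eg q' = c.eg q
    · simp only [h, if_true]
      exact ⟨mem_Zs.2 ⟨h7, h4⟩, trivial⟩
    · simp only [h, if_false]
      refine ⟨mem_Zs.2 ⟨h7, by simp only; omega⟩, ?_⟩
      rcases Sym2.eq_iff.1 h6 with ⟨-, h8⟩ | ⟨h8, -⟩
      · exact absurd h8 h
      · exact h8
  · rintro ⟨j, i⟩ h1 ⟨j', i'⟩ h2 h
    obtain ⟨h3, h4⟩ := mem_filter.1 (mem_coe.1 h1)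
    obtain ⟨h5, h6⟩ := mem_filter.1 (mem_coe.1 h2)
    have h7 : j = j' := by
      have := congrArg Prod.fst h
      simp only at this
      split_ifs at this <;> exact this
    subst h7
    have := vt_inj (mem_Vs.1 h3).1 (mem_Vs.1 h3).2 (mem_Vs.1 h5).2 (h4.trans h6.symm)
    simp only at this
    rw [this]

theorem sum_A0 : c.Zs.card ≤ 2 * (∑ t ∈ Icc 1 K, (c.A0 t).card) + 2 * (2 * K ^ 2 + K) := by
  let G0 : Finset (Fin K × ℕ) :=
    c.Vs.filter fun q => c.GoodV (c.vx q) ∧ F.side (c.vx q) = false ∧ c.vx q ≠ x0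
  have h1 : G0.card ≤ ∑ t ∈ Icc 1 K, (c.A0 t).card := by
    have h2 : ∀ t, (∑ v ∈ G0.image c.vx, if v ∈ c.A0 t then 1 else 0) ≤ (c.A0 t).card := by
      intro t
      rw [← card_filter]
      exact card_le_card fun v hv => (mem_filter.1 hv).2
    refine le_trans ?_ (sum_le_sum fun t _ => h2 t)
    rw [sum_comm, card_eq_sum_card_fiberwise (f := c.vx) (s := G0) (t := G0.image c.vx)
      (fun p hp => mem_image_of_mem _ hp)]
    refine sum_le_sum fun v hv => ?_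
    obtain ⟨q, hq, rfl⟩ := mem_image.1 hv
    obtain ⟨hq1, hq2, hq3⟩ := mem_filter.1 hq
    rw [← card_filter]
    have h3 := good_mult hq1 hq2
    have h4 := mult_le (c := c) (c.eg q)
    calc _ ≤ (c.Vs.filter fun q' => c.vx q' = c.vx q).card :=
          card_le_card fun q' hq' => mem_filter.2
            ⟨(mem_filter.1 (mem_filter.1 hq').1).1, (mem_filter.1 hq').2⟩
      _ ≤ (Icc 1 (c.mult (c.eg q))).card := by simpa using h3
      _ ≤ _ := by
        refine card_le_card fun t ht => ?_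
        obtain ⟨a1, a2⟩ := mem_Icc.1 ht
        refine mem_filter.2 ⟨mem_Icc.2 ⟨a1, a2.trans h4⟩, mem_filter.2 ⟨mem_VT.2 ⟨q, mem_Zt.2
          ⟨mem_Zs.2 ⟨(mem_Vs.1 hq1).1, (hq2 q hq1 rfl).1.2⟩, a2⟩, Or.inl rfl⟩, hq2, hq3⟩⟩
  have h2 : c.Zs.card ≤ 2 * (c.Vs.filter fun q => F.side (c.vx q) = false).card := by
    calc _ ≤ ((c.Vs.filter fun q => F.side (c.vx q) = false) ×ˢ (univ : Finset Bool)).card := by
          refine card_le_card_of_injOn (fun p => (c.sp p, c.dir p)) ?_ ?_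
          · intro p hp
            refine mem_coe.2 (mem_product.2 ⟨mem_filter.2 ⟨sp_mem hp, ?_⟩, mem_univ _⟩)
            rw [vx_sp hp, F.side_src]
          · intro p _ p' _ h
            obtain ⟨a1, a2⟩ := Prod.ext_iff.1 h
            simp only [sp] at a1 a2
            rw [a2] at a1
            split_ifs at a1
            · exact a1
            · obtain ⟨b1, b2⟩ := Prod.ext_iff.1 a1
              exact Prod.ext b1 (by simpa using b2)
      _ = _ := by rw [card_product, card_univ, Fintype.card_bool, mul_comm]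
  have h3 : (c.Vs.filter fun q => F.side (c.vx q) = false) ⊆
      G0 ∪ (c.Vs.filter fun q => ¬ c.GoodV (c.vx q)) ∪ (c.Vs.filter fun q => c.vx q = x0) := by
    intro q hq
    obtain ⟨a1, a2⟩ := mem_filter.1 hq
    simp only [G0, mem_union, mem_filter]
    tauto
  have h4 := (card_le_card h3).trans ((card_union_le _ _).trans
    (Nat.add_le_add_right (card_union_le _ _) _))
  have h5 := card_bad (c := c)
  have h6 := card_at_le (c := c) x0
  omega

theorem sum_A01 : (∑ t ∈ Icc 1 K, ((c.A0 t).card + (c.A1 t).card)) + c.Gl.card + c.ρ ≤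
    c.Zs.card + c.W.card := by
  have h1 : ∀ t, (c.A0 t).card + (c.A1 t).card + (if x0 ∈ c.VT t then 1 else 0) ≤
      (c.VT t).card := by
    intro t
    have h2 := card_filter_add_card_filter_not (s := (c.VT t).erase x0)
      (p := fun v => c.GoodV v ∧ F.side v = false)
    have h3 : c.A0 t = ((c.VT t).erase x0).filter fun v => c.GoodV v ∧ F.side v = false := by
      ext v
      simp only [A0, mem_filter, mem_erase]
      tauto
    have h4 : c.A1 t = ((c.VT t).erase x0).filter fun v => ¬ (c.GoodV v ∧ F.side v = false) := by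
      ext v
      simp only [A1, mem_filter, mem_erase]
      tauto
    rw [h3, h4, h2]
    split_ifs with h
    · rw [card_erase_add_one h]
    · rw [erase_eq_of_notMem h, add_zero]
  have h2 := sum_le_sum fun t (_ : t ∈ Icc 1 K) => h1 t
  rw [sum_add_distrib] at h2
  have h3 := sum_VT (c := c)
  have h4 : c.ρ ≤ ∑ t ∈ Icc 1 K, if x0 ∈ c.VT t then 1 else 0 := by
    rcases c.root with h | ⟨h, j, hj, hj0⟩
    · omega
    · have h5 : (j, 0) ∈ c.Zs := mem_Zs.2 ⟨hj, c.len_pos j hj⟩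
      have h6 : x0 ∈ c.VT 1 := mem_VT.2 ⟨(j, 0), mem_Zt.2 ⟨h5, one_le_mult h5⟩, Or.inl hj0⟩
      have h7 : 1 ∈ Icc 1 K := mem_Icc.2 ⟨le_rfl, j.pos⟩
      have h8 := single_le_sum (f := fun t => if x0 ∈ c.VT t then 1 else 0)
        (fun t _ => Nat.zero_le _) h7
      simp only [h6, if_true] at h8
      omega
  omega

end Cfg

end Vale.Agent.Kap
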