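import Vale.Agent.Kap.LocalC

namespace Vale.Agent.Kap

open Finset
open scoped Classical

namespace Cfg

variable {V E E' S : Type} {F : Frame V E E' S} {x0 : V} {K lam : ℕ} {c : Cfg F x0 K lam}

theorem good_mult2 {q : Fin K × ℕ} (hq : q ∈ c.Vs) (hg : c.GoodV (c.vx q)) {e : E}
    (he : e ∈ s(c.eg (q.1, q.2 - 1), c.eg q)) :
    (c.Vs.filter fun q' => c.vx q' = c.vx q).card ≤ c.mult e := by
  refine card_le_card_of_injOn (fun q' => if c.eg q' = e then q' else (q'.1, q'.2 - 1)) ?_ ?_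
  · intro q' hq'
    obtain ⟨h1, h2⟩ := mem_filter.1 (mem_coe.1 hq')
    obtain ⟨⟨h3, h4⟩, h5⟩ := hg q' h1 h2
    have h6 := h5 q hq rfl
    have h7 := (mem_Vs.1 h1).1
    rw [← h6] at he
    refine mem_coe.2 (mem_filter.2 ?_)
    by_cases h : c.eg q' = e
    · simp only [h, if_true]
      exact ⟨mem_Zs.2 ⟨h7, h4⟩, trivial⟩
    · simp only [h, if_false]
      refine ⟨mem_Zs.2 ⟨h7, by simp only; omega⟩, ?_⟩
      rcases Sym2.mem_iff.1 he with h8 | h8
      · exact h8.symm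
      · exact absurd h8.symm h
  · rintro ⟨j, i⟩ h1 ⟨j', i'⟩ h2 h
    obtain ⟨h3, h4⟩ := mem_filter.1 (mem_coe.1 h1)
    obtain ⟨h5, h6⟩ := mem_filter.1 (mem_coe.1 h2)
    have h7 : j = j' := by
      have := congrArg Prod.fst h
      simp only at this
      split_ifs at this <;> exact this
    subst h7
    have := vt_inj (mem_Vs.1 h3).1 (mem_Vs.1 h3).2 (mem_Vs.1 h5).2 (h4.trans h6.symm)
    simp only at this
    rw [this]

theorem mult_le_visits {p : Fin K × ℕ} (hp : p ∈ c.Zs) {v : V}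
    (hv : c.vx p = v ∨ c.vx (p.1, p.2 + 1) = v) :
    c.mult (c.eg p) ≤ (c.Vs.filter fun q' => c.vx q' = v).card := by
  refine card_le_card_of_injOn (fun p' => if c.vx p' = v then p' else (p'.1, p'.2 + 1)) ?_ ?_
  · intro p' hp'
    obtain ⟨h1, h2⟩ := mem_filter.1 (mem_coe.1 hp')
    obtain ⟨h3, h4⟩ := mem_Zs.1 h1
    refine mem_coe.2 (mem_filter.2 ?_)
    by_cases h : c.vx p' = v
    · simp only [h, if_true]
      exact ⟨mem_Vs.2 ⟨h3, h4.le⟩, trivial⟩
    · simp only [h, if_false]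
      refine ⟨mem_Vs.2 ⟨h3, h4⟩, ?_⟩
      rcases vx_of_dir hp with ⟨-, a2, a3⟩ | ⟨-, a2, a3⟩ <;>
        rcases vx_of_dir h1 with ⟨-, b2, b3⟩ | ⟨-, b2, b3⟩ <;> rw [h2] at b2 b3 <;>
        rcases hv with hv | hv <;> simp_all
  · intro p1 h1 p2 h2 h
    obtain ⟨h3, h4⟩ := mem_filter.1 (mem_coe.1 h1)
    obtain ⟨h5, h6⟩ := mem_filter.1 (mem_coe.1 h2)
    refine eg_inj h3 h5 ?_ (h4.trans h6.symm)
    have := congrArg Prod.fst h
    simp only at this
    split_ifs at this <;> exact this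

theorem good_Zt {t : ℕ} {q : Fin K × ℕ} (hq : q ∈ c.Vs) (hg : c.GoodV (c.vx q))
    (hv : c.vx q ∈ c.VT t) : 0 < q.2 ∧ q ∈ c.Zt t ∧ (q.1, q.2 - 1) ∈ c.Zt t := by
  obtain ⟨p, hp, h⟩ := mem_VT.1 hv
  obtain ⟨h1, h2⟩ := mem_Zt.1 hp
  have h3 := h2.trans (mult_le_visits h1 h)
  obtain ⟨⟨h4, h5⟩, -⟩ := hg q hq rfl
  have h6 := (mem_Vs.1 hq).1
  exact ⟨h4, mem_Zt.2 ⟨mem_Zs.2 ⟨h6, h5⟩, h3.trans (good_mult2 hq hg (Sym2.mem_mk_right _ _))⟩,
    mem_Zt.2 ⟨mem_Zs.2 ⟨h6, by simp only; omega⟩,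
      h3.trans (good_mult2 hq hg (Sym2.mem_mk_left _ _))⟩⟩

theorem star_spec {p : Fin K × ℕ} (hp : p ∈ c.Zs) (hg : c.GoodV (c.tg (c.eg p))) :
    c.star p ∈ c.Zs ∧ c.star (c.star p) = p ∧ c.tp (c.star p) = c.tp p ∧
      c.eg (c.star p) ≠ c.eg p ∧
      s(c.eg ((c.tp p).1, (c.tp p).2 - 1), c.eg (c.tp p)) = s(c.eg p, c.eg (c.star p)) ∧
      (p.1 ∈ c.Pa → c.star (c.pr p) = c.pr (c.star p)) := by
  obtain ⟨⟨h1, h2⟩, -⟩ := hg _ (tp_mem hp) (vx_tp hp)
  obtain ⟨j, i⟩ := p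
  obtain ⟨hj, hi⟩ := mem_Zs.1 hp
  simp only at hj hi
  cases hd : c.dir (j, i)
  · simp only [tp, hd, Bool.false_eq_true, if_false] at h1 h2
    obtain ⟨k, rfl⟩ : ∃ k, i = k + 1 := ⟨i - 1, by omega⟩
    have h3 := dir_succ hj hi
    have h4 : c.dir (j, k) = true := by
      rw [hd] at h3
      simpa using h3
    have e : c.star (j, k + 1) = (j, k) := by simp [star, hd]
    rw [e]
    refine ⟨mem_Zs.2 ⟨hj, by simp only; omega⟩, by simp [star, h4], by simp [tp, h4, hd],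
      (eg_succ_ne hj hi).symm, ?_, fun hPa => ?_⟩
    · simp only [tp, hd, Bool.false_eq_true, if_false, Nat.add_sub_cancel]
      exact Sym2.eq_swap
    · have h5 := (pr_spec hp hPa).2.2.2.2.1
      rw [hd] at h5
      simp only [star, h5, Bool.not_false, if_true]
      simp only [pr]
      exact Prod.ext rfl (by simp only; omega)
  · simp only [tp, hd, if_true] at h1 h2
    have h3 := dir_succ hj h2
    rw [hd] at h3
    have e : c.star (j, i) = (j, i + 1) := by simp [star, hd]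
    rw [e]
    refine ⟨mem_Zs.2 ⟨hj, h2⟩, by simp [star, h3], by simp [tp, h3, hd],
      eg_succ_ne hj h2, ?_, fun hPa => ?_⟩
    · simp only [tp, hd, if_true, Nat.add_sub_cancel]
    · have h5 := (pr_spec hp hPa).2.2.2.2.1
      rw [hd] at h5
      simp only [star, h5, Bool.not_true, Bool.false_eq_true, if_false]
      simp only [pr]
      exact Prod.ext rfl (by simp only; omega)

theorem tg_star {p : Fin K × ℕ} (hp : p ∈ c.Zs) (hg : c.GoodV (c.tg (c.eg p))) :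
    c.tg (c.eg (c.star p)) = c.tg (c.eg p) := by
  obtain ⟨h1, -, h3, -⟩ := star_spec hp hg
  rw [← vx_tp h1, h3, vx_tp hp]

theorem star_eg {p p' : Fin K × ℕ} (hp : p ∈ c.Zs) (hp' : p' ∈ c.Zs)
    (hg : c.GoodV (c.tg (c.eg p))) (h : c.eg p = c.eg p') :
    c.eg (c.star p) = c.eg (c.star p') := by
  have hg' : c.GoodV (c.tg (c.eg p')) := h ▸ hg
  obtain ⟨-, -, -, -, h5, -⟩ := star_spec hp hg
  obtain ⟨-, -, -, -, h6, -⟩ := star_spec hp' hg'
  have h7 := (hg _ (tp_mem hp) (vx_tp hp)).2 _ (tp_mem hp') (by rw [vx_tp hp', h])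
  rw [h5, h6, h] at h7
  exact Sym2.congr_right.1 h7

theorem star_Zt {t : ℕ} {p : Fin K × ℕ} (hp : p ∈ c.Zt t) (hg : c.GoodV (c.tg (c.eg p))) :
    c.star p ∈ c.Zt t := by
  have h1 := (mem_Zt.1 hp).1
  have h2 : c.vx (c.tp p) ∈ c.VT t := by
    rw [vx_tp h1]
    exact mem_union_right _ (mem_image_of_mem _ (mem_image_of_mem _ hp))
  obtain ⟨-, h3, h4⟩ := good_Zt (tp_mem h1) (by rw [vx_tp h1]; exact hg) h2
  unfold tp at h3 h4
  unfold star
  split_ifs at h3 h4 ⊢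
  · exact h3
  · exact h4

theorem rel_star {p p' : Fin K × ℕ} (h : c.rel p p') (hg : c.GoodV (c.tg (c.eg p)))
    (hg' : c.GoodV (c.tg (c.eg p'))) : c.rel (c.star p) (c.star p') := by
  obtain ⟨h1, h2, h3⟩ := h
  refine ⟨(star_spec h1 hg).1, (star_spec h2 hg').1, ?_⟩
  rcases h3 with h3 | ⟨h3, rfl⟩
  · exact Or.inl (star_eg h1 h2 hg h3)
  · refine Or.inr ⟨?_, (star_spec h1 hg).2.2.2.2.2 h3⟩
    unfold star
    split_ifs <;> exact h3

theorem eqv_mem {p p' : Fin K × ℕ} (h : Relation.EqvGen c.rel p p') : p ∈ c.Zs ↔ p' ∈ c.Zs := by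
  induction h with
  | rel a b h => exact ⟨fun _ => h.2.1, fun _ => h.1⟩
  | refl a => rfl
  | symm a b _ ih => exact ih.symm
  | trans a b d _ _ ih ih' => exact ih.trans ih'

theorem eqv_star {p p' : Fin K × ℕ} (h : Relation.EqvGen c.rel p p')
    (hg : ∀ x, Relation.EqvGen c.rel p x → c.GoodV (c.tg (c.eg x))) :
    Relation.EqvGen c.rel (c.star p) (c.star p') := by
  induction h with
  | rel a b h =>
    exact Relation.EqvGen.rel _ _ (rel_star h (hg _ (Relation.EqvGen.refl _))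
      (hg _ (Relation.EqvGen.rel _ _ h)))
  | refl a => exact Relation.EqvGen.refl _
  | symm a b h ih => exact (ih fun x hx => hg x ((h.symm _ _).trans _ _ _ hx)).symm _ _
  | trans a b d h _ ih ih' => exact (ih hg).trans _ _ _ (ih' fun x hx => hg x (h.trans _ _ _ hx))

/-- The class of `star p` consists of good positions if the class of `p` does. -/
theorem good_star {p : Fin K × ℕ} (hp : p ∈ c.Zs)
    (hg : ∀ x, Relation.EqvGen c.rel p x → c.GoodV (c.tg (c.eg x))) :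
    ∀ x, Relation.EqvGen c.rel (c.star p) x → c.GoodV (c.tg (c.eg x)) := by
  let P : Fin K × ℕ → Prop := fun x => x ∈ c.Zs ∧ c.GoodV (c.tg (c.eg x)) ∧
    Relation.EqvGen c.rel p (c.star x)
  have step : ∀ a b, c.rel a b ∨ c.rel b a → P a → P b := by
    rintro a b hab ⟨a1, a2, a3⟩
    have hb : b ∈ c.Zs := hab.elim (fun h => h.2.1) fun h => h.1
    have key : c.GoodV (c.tg (c.eg b)) := by
      have h2 : ∀ b, b ∈ c.Zs → a.1 ∈ c.Pa → b = c.pr a → c.GoodV (c.tg (c.eg b)) := by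
        rintro b hb hPa rfl
        obtain ⟨s1, s2, -, -, -, s6⟩ := star_spec a1 a2
        have hPa' : (c.star a).1 ∈ c.Pa := by
          unfold star
          split_ifs <;> exact hPa
        have g1 := hg _ (a3.trans _ _ _ (Relation.EqvGen.rel _ _
          ⟨s1, (pr_spec s1 hPa').1, Or.inr ⟨hPa', rfl⟩⟩))
        have g2 := hg _ a3
        have g3 := (star_spec s1 g2).2.2.2.2.2 hPa'
        rw [s2] at g3
        rw [← g3, tg_star (pr_spec s1 hPa').1 g1]
        exact g1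
      rcases hab with ⟨-, -, h | ⟨h, h'⟩⟩ | ⟨-, -, h | ⟨h, h'⟩⟩
      · exact h ▸ a2
      · exact h2 b hb h h'
      · exact h.symm ▸ a2
      · refine h2 b hb (h' ▸ (pr_spec hb h).2.1) ?_
        rw [h', (pr_spec hb h).2.2.1]
    refine ⟨hb, key, a3.trans _ _ _ ?_⟩
    rcases hab with h | h
    · exact Relation.EqvGen.rel _ _ (rel_star h a2 key)
    · exact (Relation.EqvGen.rel _ _ (rel_star h key a2)).symm _ _
  have main : ∀ a b, Relation.EqvGen c.rel a b → (P a ↔ P b) := by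
    intro a b h
    induction h with
    | rel a b h => exact ⟨step a b (Or.inl h), step b a (Or.inr h)⟩
    | refl a => rfl
    | symm a b _ ih => exact ih.symm
    | trans a b d _ _ ih ih' => exact ih.trans ih'
  intro x hx
  have g0 := hg p (Relation.EqvGen.refl _)
  obtain ⟨s1, s2, -⟩ := star_spec hp g0
  refine ((main _ _ hx).1 ⟨s1, ?_, ?_⟩).2.1
  · rw [tg_star hp g0]
    exact g0
  · rw [s2]
    exact Relation.EqvGen.refl _

theorem lb_rel {p p' : Fin K × ℕ} (h : c.rel p p') : c.lb p = c.lb p' := by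
  obtain ⟨h1, -, h3 | ⟨h3, rfl⟩⟩ := h
  · unfold lb
    rw [h3]
  · exact (pr_spec h1 h3).2.2.2.1.symm

theorem lb_eqv {p p' : Fin K × ℕ} (h : Relation.EqvGen c.rel p p') : c.lb p = c.lb p' := by
  induction h with
  | rel a b h => exact lb_rel h
  | refl a => rfl
  | symm a b _ ih => exact ih.symm
  | trans a b d _ _ ih ih' => exact ih.trans ih'

theorem eq_of_tg {e e' : E} (h1 : c.tg e = c.tg e') (h2 : F.lab e = F.lab e') : e = e' :=
  c.β.injective (F.inj' _ _ h1 (by rw [(c.mat e).1, (c.mat e').1, h2]))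

/-- Representatives from which all labels can be read off. -/
theorem exists_reps (c : Cfg F x0 K lam) (t : ℕ) : ∃ RB RL : Finset (Fin K × ℕ),
    RB.card ≤ 4 * K ^ 2 ∧ 2 * RL.card ≤ (c.CT t).card ∧
    (∀ x ∈ RL, x ∈ c.Zs ∧ c.GoodV (c.tg (c.eg x))) ∧
    ∀ p ∈ c.Zt t, (∃ x ∈ RB, Relation.EqvGen c.rel p x) ∨
      ∃ x ∈ RL, Relation.EqvGen c.rel p x ∨ Relation.EqvGen c.rel p (c.star x) := by
  let G : Fin K × ℕ → Prop := fun p => ∀ x, Relation.EqvGen c.rel p x → c.GoodV (c.tg (c.eg x))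
  let Q : Finset (Finset (Fin K × ℕ)) := ((c.Zt t).filter G).image c.cl
  have himg : ∀ p ∈ c.Zs, G p → (c.cl p).image c.star = c.cl (c.star p) := by
    intro p hp hG
    ext y
    simp only [cl, mem_image, mem_filter]
    constructor
    · rintro ⟨x, ⟨h1, h2⟩, rfl⟩
      exact ⟨(star_spec h1 (hG x h2)).1, eqv_star h2 hG⟩
    · rintro ⟨h1, h2⟩
      have h3 := good_star hp hG
      have h4 := eqv_star h2 h3
      rw [(star_spec hp (hG p (Relation.EqvGen.refl _))).2.1] at h4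
      exact ⟨c.star y, ⟨(star_spec h1 (h3 y h2)).1, h4⟩, (star_spec h1 (h3 y h2)).2.1⟩
  have hQ : ∀ X ∈ Q, ∃ p, p ∈ c.Zt t ∧ G p ∧ c.cl p = X := by
    intro X hX
    obtain ⟨p, hp, rfl⟩ := mem_image.1 hX
    exact ⟨p, (mem_filter.1 hp).1, (mem_filter.1 hp).2, rfl⟩
  obtain ⟨Q', hQ1, hQ2, hQ3⟩ := loc_half Q (fun X => X.image c.star) (by
    intro X hX
    obtain ⟨p, h1, h2, rfl⟩ := hQ X hX
    have h3 := (mem_Zt.1 h1).1
    rw [himg p h3 h2]
    exact mem_image_of_mem _ (mem_filter.2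
      ⟨star_Zt h1 (h2 p (Relation.EqvGen.refl _)), good_star h3 h2⟩)) (by
    intro X hX
    obtain ⟨p, h1, h2, rfl⟩ := hQ X hX
    have h3 := (mem_Zt.1 h1).1
    obtain ⟨s1, s2, -⟩ := star_spec h3 (h2 p (Relation.EqvGen.refl _))
    rw [himg p h3 h2, himg _ s1 (good_star h3 h2), s2]) (by
    intro X hX
    obtain ⟨p, h1, h2, rfl⟩ := hQ X hX
    have h3 := (mem_Zt.1 h1).1
    have g0 := h2 p (Relation.EqvGen.refl _)
    rw [himg p h3 h2]
    intro h
    exact (star_spec h3 g0).2.2.2.1 (eq_of_tg (tg_star h3 g0) (lb_eqv (eqv_of_cl_eq h3 h))))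
  choose rp hrp using fun (X : Q') => hQ X.1 (hQ1 X.2)
  refine ⟨c.Zs.filter fun p => ¬ c.GoodV (c.tg (c.eg p)), univ.image rp, ?_, ?_, ?_, ?_⟩
  · calc _ ≤ ((c.Vs.filter fun q => ¬ c.GoodV (c.vx q)) ×ˢ (univ : Finset Bool)).card := by
          refine card_le_card_of_injOn (fun p => (c.tp p, c.dir p)) ?_ ?_
          · intro p hp
            obtain ⟨h1, h2⟩ := mem_filter.1 (mem_coe.1 hp)
            refine mem_coe.2 (mem_product.2 ⟨mem_filter.2 ⟨tp_mem h1, ?_⟩, mem_univ _⟩)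
            rw [vx_tp h1]
            exact h2
          · intro p _ p' _ h
            obtain ⟨a1, a2⟩ := Prod.ext_iff.1 h
            simp only [tp] at a1 a2
            rw [a2] at a1
            split_ifs at a1
            · obtain ⟨b1, b2⟩ := Prod.ext_iff.1 a1
              exact Prod.ext b1 (by simpa using b2)
            · exact a1
      _ ≤ _ := by
          rw [card_product, card_univ, Fintype.card_bool]
          have := card_bad (c := c)
          omega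
  · have h1 : (univ.image rp).card ≤ Q'.card := card_image_le.trans (by simp)
    have h2 : Q.card ≤ (c.CT t).card := card_le_card (image_subset_image (filter_subset _ _))
    omega
  · intro x hx
    obtain ⟨X, -, rfl⟩ := mem_image.1 hx
    exact ⟨(mem_Zt.1 (hrp X).1).1, (hrp X).2.1 _ (Relation.EqvGen.refl _)⟩
  · intro p hp
    have h3 := (mem_Zt.1 hp).1
    by_cases hG : G p
    · right
      rcases hQ3 (c.cl p) (mem_image_of_mem _ (mem_filter.2 ⟨hp, hG⟩)) with h | h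
      · obtain ⟨a1, -, a3⟩ := hrp ⟨_, h⟩
        exact ⟨_, mem_image_of_mem _ (mem_univ ⟨_, h⟩), Or.inl
          (eqv_of_cl_eq (mem_Zt.1 a1).1 a3.symm)⟩
      · obtain ⟨a1, -, a3⟩ := hrp ⟨_, h⟩
        refine ⟨_, mem_image_of_mem _ (mem_univ ⟨_, h⟩), Or.inr ?_⟩
        have h4 := eqv_star (eqv_of_cl_eq (mem_Zt.1 a1).1 ((himg p h3 hG).symm.trans a3.symm))
          (good_star h3 hG)
        rwa [(star_spec h3 (hG p (Relation.EqvGen.refl _))).2.1] at h4
    · left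
      simp only [G, not_forall] at hG
      obtain ⟨x, h1, h2⟩ := hG
      exact ⟨x, mem_filter.2 ⟨(eqv_mem h1).1 h3, h2⟩, h1⟩

end Cfg

end Vale.Agent.Kap
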