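import Vale.Agent.Kap.LocalD

namespace Vale.Agent.Kap

open Finset
open scoped Classical

/-- The finite type of combinatorial descriptions of configurations. -/
abbrev LocDesc (K lam : ℕ) : Type :=
  (Finset (Fin K) × Finset (Fin K) × Finset (Fin K)) ×
    (Fin K → Fin (lam + 1) × Bool × Bool × Fin K × Option (Fin (lam + 1))) ×
    (Fin K → Fin K → Option (Fin (lam + 1) × Fin (lam + 1) × Fin (lam + 1) × Bool)) × Bool

namespace Cfg

variable {V E E' S : Type} {F : Frame V E E' S} {x0 : V} {K lam : ℕ}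

theorem exists_rt (c : Cfg F x0 K lam) (j : Fin K) : ∃ o : Option (Fin (lam + 1)), j ∈ c.W →
    ∀ i, i ≤ c.len j → (c.vt j i = x0 ↔ ∃ a, o = some a ∧ (a : ℕ) = i) := by
  by_cases h : ∃ i, i ≤ c.len j ∧ c.vt j i = x0
  · obtain ⟨i, h1, h2⟩ := h
    have := c.len_le j
    refine ⟨some ⟨i, by omega⟩, fun hj i' hi' => ⟨fun h3 => ⟨_, rfl, ?_⟩, ?_⟩⟩
    · exact vt_inj hj h1 hi' (h2.trans h3.symm)
    · rintro ⟨a, h3, rfl⟩
      rw [← Option.some.inj h3]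
      exact h2
  · exact ⟨none, fun _ i hi => ⟨fun h3 => (h ⟨i, hi, h3⟩).elim, fun ⟨a, h3, _⟩ => by simp at h3⟩⟩

/-- The description of a configuration. -/
noncomputable def desc (c : Cfg F x0 K lam) : LocDesc K lam :=
  ((c.W, c.Gl, c.Pa), fun j => (⟨c.len j, Nat.lt_succ_of_le (c.len_le j)⟩, F.side (c.vt j 0),
    F.srt (c.vt j 0), c.ι j, (c.exists_rt j).choose), c.rc, decide (c.ρ = 1))

/-- Two configurations with the same combinatorics. -/
structure Sim (c0 c : Cfg F x0 K lam) : Prop where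
  W : c.W = c0.W
  Gl : c.Gl = c0.Gl
  Pa : c.Pa = c0.Pa
  len : c.len = c0.len
  ι : c.ι = c0.ι
  ρ : c.ρ = c0.ρ
  side : ∀ q ∈ c0.Vs, F.side (c.vx q) = F.side (c0.vx q)
  srt : ∀ q ∈ c0.Vs, F.srt (c.vx q) = F.srt (c0.vx q)
  ker : ∀ q ∈ c0.Vs, ∀ q' ∈ c0.Vs, (c.vx q = c.vx q' ↔ c0.vx q = c0.vx q')
  rt : ∀ q ∈ c0.Vs, (c.vx q = x0 ↔ c0.vx q = x0)

theorem sim_of_desc {c0 c : Cfg F x0 K lam} (h : c.desc = c0.desc) : Sim c0 c := by
  simp only [desc, Prod.mk.injEq] at h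
  obtain ⟨⟨hW, hGl, hPa⟩, hf, hrc, hρ⟩ := h
  have hf' := fun j => congrFun hf j
  simp only [Prod.mk.injEq, Fin.mk.injEq] at hf'
  have hlen : c.len = c0.len := funext fun j => (hf' j).1
  have hV : ∀ q, q ∈ c0.Vs → q ∈ c.Vs := by
    intro q hq
    rw [mem_Vs] at hq ⊢
    rw [hW, hlen]
    exact hq
  have ind : ∀ j ∈ c0.W, ∀ i, i ≤ c0.len j → F.side (c.vx (j, i)) = F.side (c0.vx (j, i)) ∧
      F.srt (c.vx (j, i)) = F.srt (c0.vx (j, i)) := by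
    intro j hj i
    induction i with
    | zero => exact fun _ => ⟨(hf' j).2.1, (hf' j).2.2.1⟩
    | succ i ih =>
      intro hi
      obtain ⟨h1, h2⟩ := ih (by omega)
      have a0 : (j, i) ∈ c0.Zs := mem_Zs.2 ⟨hj, hi⟩
      have a1 : (j, i) ∈ c.Zs := mem_Zs.2 ⟨hW ▸ hj, hlen ▸ hi⟩
      obtain ⟨b1, b2⟩ := side_vx a0
      obtain ⟨b3, b4⟩ := side_vx a1
      obtain ⟨b5, b6⟩ := srt_vx a0
      obtain ⟨b7, b8⟩ := srt_vx a1
      simp only at b2 b4 b6 b8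
      constructor
      · rw [b2, b4]
        rw [b1, b3] at h1
        simpa using h1
      · rw [b6, b8, ← b5, ← b7, h2]
  refine ⟨hW, hGl, hPa, hlen, funext fun j => (hf' j).2.2.2.1, ?_,
    fun q hq => (ind q.1 (mem_Vs.1 hq).1 q.2 (mem_Vs.1 hq).2).1,
    fun q hq => (ind q.1 (mem_Vs.1 hq).1 q.2 (mem_Vs.1 hq).2).2, ?_, ?_⟩
  · rcases c.root with h1 | ⟨h1, -⟩ <;> rcases c0.root with h2 | ⟨h2, -⟩ <;> simp_all
  · intro q hq q' hq'
    rw [rc_iff (hV q hq) (hV q' hq'), rc_iff hq hq', hrc]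
  · intro q hq
    have a1 := (c.exists_rt q.1).choose_spec (mem_Vs.1 (hV q hq)).1 q.2 (mem_Vs.1 (hV q hq)).2
    have a2 := (c0.exists_rt q.1).choose_spec (mem_Vs.1 hq).1 q.2 (mem_Vs.1 hq).2
    rw [(hf' q.1).2.2.2.2] at a1
    exact a1.trans a2.symm

namespace Sim

variable {c0 c : Cfg F x0 K lam} (h : Sim c0 c)
include h

theorem Zs {p : Fin K × ℕ} (hp : p ∈ c0.Zs) : p ∈ c.Zs := by
  rw [mem_Zs] at hp ⊢
  rw [h.W, h.len]
  exact hp

theorem dir {p : Fin K × ℕ} (hp : p ∈ c0.Zs) : c.dir p = c0.dir p := by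
  have h1 := h.side p (mem_Vs.2 ⟨(mem_Zs.1 hp).1, (mem_Zs.1 hp).2.le⟩)
  rw [(side_vx hp).1, (side_vx (h.Zs hp)).1] at h1
  simpa using h1

theorem vx_sp {p : Fin K × ℕ} (hp : p ∈ c0.Zs) : c.vx (c0.sp p) = F.src (c.eg p) := by
  rw [← Cfg.vx_sp (h.Zs hp)]
  simp only [sp, h.dir hp]

theorem vx_tp {p : Fin K × ℕ} (hp : p ∈ c0.Zs) : c.vx (c0.tp p) = c.tg (c.eg p) := by
  rw [← Cfg.vx_tp (h.Zs hp)]
  simp only [tp, h.dir hp]

theorem eg (hlam : 1 ≤ lam) {p p' : Fin K × ℕ} (hp : p ∈ c0.Zs) (hp' : p' ∈ c0.Zs) :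
    c.eg p = c.eg p' ↔ c0.eg p = c0.eg p' := by
  have h1 := h.ker _ (sp_mem hp) _ (sp_mem hp')
  have h2 := h.ker _ (tp_mem hp) _ (tp_mem hp')
  rw [h.vx_sp hp, h.vx_sp hp', Cfg.vx_sp hp, Cfg.vx_sp hp'] at h1
  rw [h.vx_tp hp, h.vx_tp hp', Cfg.vx_tp hp, Cfg.vx_tp hp'] at h2
  constructor
  · intro h3
    exact edge_ext hlam (h1.1 (by rw [h3])) (h2.1 (by rw [h3]))
  · intro h3
    exact edge_ext hlam (h1.2 (by rw [h3])) (h2.2 (by rw [h3]))

theorem lb (hlam : 1 ≤ lam) {p p' : Fin K × ℕ} (h1 : Relation.EqvGen c0.rel p p') :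
    c.lb p = c.lb p' := by
  induction h1 with
  | rel a b h1 =>
    obtain ⟨a1, a2, a3⟩ := h1
    refine lb_rel ⟨h.Zs a1, h.Zs a2, ?_⟩
    rcases a3 with a3 | ⟨a3, a4⟩
    · exact Or.inl ((h.eg hlam a1 a2).2 a3)
    · refine Or.inr ⟨h.Pa ▸ a3, ?_⟩
      rw [a4]
      simp only [pr, h.ι, h.len]
  | refl a => rfl
  | symm a b _ ih => exact ih.symm
  | trans a b d _ _ ih ih' => exact ih.trans ih'

end Sim

/-- The matched pairs used by the edges of multiplicity at least `t`. -/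
noncomputable def HH (c0 c : Cfg F x0 K lam) (t : ℕ) : Finset (E × E') :=
  (c0.Zt t).image fun p => (c.eg p, c.β (c.eg p))

theorem card_HH (hlam : 1 ≤ lam) {c0 c : Cfg F x0 K lam} (h : Sim c0 c) (t : ℕ) :
    (HH c0 c t).card = (c0.Et t).card := by
  have key : ∀ {α β : Type} [DecidableEq α] [DecidableEq β] (f : Fin K × ℕ → α)
      (g : Fin K × ℕ → β),
      (∀ p ∈ c0.Zt t, ∀ p' ∈ c0.Zt t, g p = g p' → f p = f p') →
      ((c0.Zt t).image f).card ≤ ((c0.Zt t).image g).card := by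
    intro α β _ _ f g hfg
    have h1 : ∀ y : (c0.Zt t).image g, ∃ p ∈ c0.Zt t, g p = y := fun y => mem_image.1 y.2
    choose r hr hr' using h1
    calc _ ≤ (univ.image fun y => f (r y)).card := by
          refine card_le_card fun x hx => ?_
          obtain ⟨p, hp, rfl⟩ := mem_image.1 hx
          exact mem_image.2 ⟨⟨g p, mem_image_of_mem _ hp⟩, mem_univ _,
            hfg _ (hr _) _ hp (hr' _)⟩
      _ ≤ _ := card_image_le.trans (by simp)
  apply le_antisymm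
  · refine key _ _ fun p hp p' hp' h1 => ?_
    rw [(h.eg hlam (mem_Zt.1 hp).1 (mem_Zt.1 hp').1).2 h1]
  · exact key _ (fun p => (c.eg p, c.β (c.eg p))) fun p hp p' hp' h1 =>
      (h.eg hlam (mem_Zt.1 hp).1 (mem_Zt.1 hp').1).1 (Prod.ext_iff.1 h1).1

variable [Fintype V] [Fintype E] [Fintype E'] {r r' m : ℕ} {D : Finset (S × S)}

/-- Possible images of a vertex when the labels are known. -/
theorem exists_allowed (hC : F.Counts r r' m D) {c0 c1 : Cfg F x0 K lam}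
    (h1 : Sim c0 c1) (hlam : 1 ≤ lam) (t : ℕ) (v : V) (hv : v ∈ c0.VT t) :
    ∃ T : Finset V, T.card ≤ (if v = x0 then 1 else if c0.GoodV v ∧ F.side v = false then m
      else r') ∧ ∀ c, Sim c0 c → (∀ p ∈ c0.Zt t, c.lb p = c1.lb p) →
        ∀ q ∈ c0.Vs, c0.vx q = v → c.vx q ∈ T := by
  split_ifs with h2 h3
  · exact ⟨{x0}, by simp, fun c hc _ q hq hqv => mem_singleton.2 ((hc.rt q hq).2 (hqv.trans h2))⟩
  · obtain ⟨p, hp, hpv⟩ := mem_VT.1 hv
    obtain ⟨a1, a2⟩ := mem_Zs.1 (mem_Zt.1 hp).1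
    obtain ⟨q0, hq0, rfl⟩ : ∃ q0 ∈ c0.Vs, c0.vx q0 = v := by
      rcases hpv with h | h
      · exact ⟨p, mem_Vs.2 ⟨a1, a2.le⟩, h⟩
      · exact ⟨(p.1, p.2 + 1), mem_Vs.2 ⟨a1, a2⟩, h⟩
    obtain ⟨b1, b2, b3⟩ := good_Zt hq0 h3.1 hv
    obtain ⟨j, i⟩ := q0
    obtain ⟨k, rfl⟩ : ∃ k, i = k + 1 := ⟨i - 1, by simp only at b1; omega⟩
    simp only [Nat.add_sub_cancel] at b3
    have b4 := (mem_Zt.1 b2).1
    have b5 := (mem_Zt.1 b3).1
    have d1 : c0.sp (j, k + 1) = (j, k + 1) := by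
      have := (side_vx b4).1
      rw [h3.2] at this
      have h4 : c0.dir (j, k + 1) = true := by simpa using this
      simp [sp, h4]
    have d2 : c0.sp (j, k) = (j, k + 1) := by
      have := (side_vx b5).2
      rw [h3.2] at this
      simp [sp, ← this]
    have e1 : ∀ c, Sim c0 c → F.src (c.eg (j, k + 1)) = c.vx (j, k + 1) ∧
        F.src (c.eg (j, k)) = c.vx (j, k + 1) :=
      fun c hc => ⟨by rw [← hc.vx_sp b4, d1], by rw [← hc.vx_sp b5, d2]⟩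
    refine ⟨_, hC.pairs (F.srt (c0.vx (j, k + 1))) (c1.lb (j, k + 1)) (c1.lb (j, k)) ?_, ?_⟩
    · intro h
      have h5 := F.inj _ _ ((e1 c1 h1).1.trans (e1 c1 h1).2.symm) h
      exact eg_succ_ne (mem_Zs.1 b4).1 (mem_Zs.1 b4).2 ((h1.eg hlam b4 b5).1 h5)
    · intro c hc hl q hq hqv
      rw [(hc.ker q hq _ hq0).2 hqv]
      exact mem_filter.2 ⟨mem_univ _, hc.srt _ hq0, ⟨_, (e1 c hc).1, hl _ b2⟩,
        ⟨_, (e1 c hc).2, hl _ b3⟩⟩
  · rcases mem_union.1 hv with hv | hv <;> obtain ⟨e, he, rfl⟩ := mem_image.1 hv <;>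
      obtain ⟨p, hp, rfl⟩ := mem_image.1 he <;> have a1 := (mem_Zt.1 hp).1
    · refine ⟨_, (card_image_le (f := F.src)).trans
        (hC.upper (F.srt (F.src (c0.eg p))) (c1.lb p)), ?_⟩
      intro c hc hl q hq hqv
      rw [(hc.ker q hq _ (sp_mem a1)).2 (hqv.trans (vx_sp a1).symm), hc.vx_sp a1]
      refine mem_image_of_mem _ (mem_filter.2 ⟨mem_univ _, ?_, hl p hp⟩)
      rw [← hc.vx_sp a1, hc.srt _ (sp_mem a1), vx_sp a1]
    · refine ⟨_, (card_image_le (f := F.tg)).trans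
        ((hC.eq (F.srt (c0.tg (c0.eg p))) (c1.lb p)).symm.le.trans (hC.upper _ _)), ?_⟩
      intro c hc hl q hq hqv
      rw [(hc.ker q hq _ (tp_mem a1)).2 (hqv.trans (vx_tp a1).symm), hc.vx_tp a1]
      refine mem_image_of_mem _ (mem_filter.2 ⟨mem_univ _, ?_, (c.mat _).1.trans (hl p hp)⟩)
      rw [← vx_tp a1, ← hc.srt _ (tp_mem a1), hc.vx_tp a1]
      rfl

theorem count_vertices (hC : F.Counts r r' m D) {c0 c1 : Cfg F x0 K lam}
    (h1 : Sim c0 c1) (hlam : 1 ≤ lam) (t : ℕ) :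
    ∃ T : Finset (Finset (E × E')), T.card ≤ m ^ (c0.A0 t).card * r' ^ (c0.A1 t).card ∧
      ∀ c, Sim c0 c → (∀ p ∈ c0.Zt t, c.lb p = c1.lb p) → HH c0 c t ∈ T := by
  choose T hT hT' using fun v : c0.VT t => exists_allowed hC h1 hlam t v.1 v.2
  have hrep : ∀ v : c0.VT t, ∃ q ∈ c0.Vs, c0.vx q = v := by
    intro v
    obtain ⟨p, hp, hpv⟩ := mem_VT.1 v.2
    obtain ⟨a1, a2⟩ := mem_Zs.1 (mem_Zt.1 hp).1
    rcases hpv with h | h
    · exact ⟨p, mem_Vs.2 ⟨a1, a2.le⟩, h⟩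
    · exact ⟨(p.1, p.2 + 1), mem_Vs.2 ⟨a1, a2⟩, h⟩
  choose rp hrp hrp' using hrep
  obtain ⟨T', hT1, hT2⟩ := loc_determined
    (fun c : Cfg F x0 K lam => Sim c0 c ∧ ∀ p ∈ c0.Zt t, c.lb p = c1.lb p)
    (fun c => HH c0 c t) (fun c => fun v : c0.VT t => c.vx (rp v)) (Fintype.piFinset T) 1
    (fun c hc => Fintype.mem_piFinset.2 fun v => hT' v c hc.1 hc.2 _ (hrp v) (hrp' v)) (by
      rintro c2 ⟨h2, h3⟩
      refine ⟨{HH c0 c2 t}, by simp, ?_⟩
      rintro c ⟨h4, h5⟩ h6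
      have key : ∀ q ∈ c0.Vs, c0.vx q ∈ c0.VT t → c.vx q = c2.vx q := by
        intro q hq hv
        have a1 : c.vx (rp ⟨_, hv⟩) = c2.vx (rp ⟨_, hv⟩) := congrFun h6 ⟨_, hv⟩
        rw [(h4.ker q hq _ (hrp ⟨_, hv⟩)).2 (hrp' ⟨_, hv⟩).symm, a1,
          (h2.ker q hq _ (hrp ⟨_, hv⟩)).2 (hrp' ⟨_, hv⟩).symm]
      refine mem_singleton.2 (image_congr fun p hp => ?_)
      have a1 := (mem_Zt.1 hp).1
      have a2 : c.lb p = c2.lb p := (h5 p hp).trans (h3 p hp).symm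
      have a3 := key _ (sp_mem a1) (by
        rw [vx_sp a1]
        exact mem_union_left _ (mem_image_of_mem _ (mem_image_of_mem _ hp)))
      have a4 := key _ (tp_mem a1) (by
        rw [vx_tp a1]
        exact mem_union_right _ (mem_image_of_mem _ (mem_image_of_mem _ hp)))
      rw [h4.vx_sp a1, h2.vx_sp a1] at a3
      rw [h4.vx_tp a1, h2.vx_tp a1] at a4
      exact Prod.ext (F.inj _ _ a3 a2)
        (F.inj' _ _ a4 ((c.mat _).1.trans (a2.trans (c2.mat _).1.symm))))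
  refine ⟨T', hT1.trans ?_, fun c hc hl => hT2 c ⟨hc, hl⟩⟩
  rw [mul_one, Fintype.card_piFinset]
  refine (prod_le_prod' fun v _ => hT v).trans (le_of_eq ?_)
  rw [prod_coe_sort (c0.VT t) fun v => if v = x0 then 1 else
    if c0.GoodV v ∧ F.side v = false then m else r', prod_ite, prod_const_one, one_mul, prod_ite,
    prod_const, prod_const, filter_filter, filter_filter]
  congr 3
  · exact filter_congr fun v _ => by tauto
  · exact filter_congr fun v _ => by tauto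

theorem count_HH [Fintype S] (hC : F.Counts r r' m D) (c0 : Cfg F x0 K lam) (hlam : 1 ≤ lam)
    (t : ℕ) : ∃ (T : Finset (Finset (E × E'))) (a b : ℕ), 2 * a ≤ (c0.CT t).card ∧
      b ≤ 4 * K ^ 2 ∧ T.card ≤ Fintype.card S ^ b * D.card ^ a *
        (m ^ (c0.A0 t).card * r' ^ (c0.A1 t).card) ∧ ∀ c, Sim c0 c → HH c0 c t ∈ T := by
  obtain ⟨RB, RL, h1, h2, h3, h4⟩ := c0.exists_reps t
  obtain ⟨T, hT1, hT2⟩ := loc_determined (fun c : Cfg F x0 K lam => Sim c0 c)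
    (fun c => HH c0 c t)
    (fun c => ((fun x : RB => c.lb x), fun x : RL => (c.lb x, c.lb (c0.star x))))
    (univ ×ˢ Fintype.piFinset fun _ => D) (m ^ (c0.A0 t).card * r' ^ (c0.A1 t).card)
    (fun c hc => mem_product.2 ⟨mem_univ _, Fintype.mem_piFinset.2 fun x => by
      obtain ⟨a1, a2⟩ := h3 x.1 x.2
      obtain ⟨s1, -, s3, s4, -⟩ := star_spec a1 a2
      have a3 := hC.dirs (c.β (c.eg x)) (c.β (c.eg (c0.star x)))
        (fun h => s4 ((hc.eg hlam s1 a1).1 (c.β.injective h).symm)) (by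
          have b1 := hc.vx_tp a1
          have b2 := hc.vx_tp s1
          rw [s3, b1] at b2
          exact b2)
      rw [(c.mat _).1, (c.mat _).1] at a3
      exact a3⟩) (by
      intro c1 hc1
      obtain ⟨T, hT1, hT2⟩ := count_vertices hC hc1 hlam t
      refine ⟨T, hT1, fun c hc h => hT2 c hc fun p hp => ?_⟩
      obtain ⟨a1, a2⟩ := Prod.ext_iff.1 h
      rcases h4 p hp with ⟨x, hx, h5⟩ | ⟨x, hx, h5 | h5⟩ <;> rw [hc.lb hlam h5, hc1.lb hlam h5]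
      · exact congrFun a1 ⟨x, hx⟩
      · exact congrArg Prod.fst (congrFun a2 ⟨x, hx⟩)
      · exact congrArg Prod.snd (congrFun a2 ⟨x, hx⟩))
  refine ⟨T, RL.card, RB.card, h2, h1, hT1.trans (le_of_eq ?_), hT2⟩
  simp [card_product, Fintype.card_piFinset]

end Cfg

end Vale.Agent.Kap
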