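import Vale.Agent.Kap.Global
import Vale.Agent.Kap.Diagram
import Vale.Agent.Kap.Design
import Vale.Agent.Kap.Algebra
import Vale.Agent.Kap.Local

namespace Vale.Agent.Kap

/-- The graph with all the required properties. -/
theorem exists_graph : ∃ (V E S : Type) (_ : Fintype E) (_ : Fintype S) (Γ : LG V E S)
    (pos : V → Γ.Grp) (C : ℕ), Γ.IsPos pos ∧ Γ.FillBound pos C ∧
    ∃ a b c : MonoidAlgebra (ZMod 2) Γ.Grp, a * b = 1 ∧ a * c = 0 ∧ c ≠ 0 := by
  obtain ⟨κ, A0, B, hκ, hA0, hB, hloc⟩ := exists_localIso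
  obtain ⟨K, η, hη, hglob⟩ := isoIneq_of_localIso κ A0 B hκ hA0 hB
  obtain ⟨lam, M, hlam, hM, hloc⟩ := hloc K η hη
  obtain ⟨V, E, E', S, iV, iE, iE', iS, F, D, u0, x0, hS, hD, hC, hP⟩ := exists_design M hM
  obtain ⟨β, hβ, hg, A, hA, hA', hL⟩ := hloc V E E' S F D x0 hS hD hC
  have hF := F.graph_folded hβ
  have hBip := F.graph_bip β
  obtain ⟨C, hI⟩ := hglob lam hlam V E S (F.graph β) x0 A hF hBip hg hA hA' hL
  obtain ⟨pos, hpos⟩ := (F.graph β).exists_isPos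
  have hx0 : ∀ e, (F.graph β).tgt e ≠ x0 := by
    intro e he
    have h1 := F.side_tg (β e)
    have h2 := hP.side_x0
    have h3 : F.tg (β e) = x0 := he
    rw [h3, h2] at h1
    exact Bool.false_ne_true h1
  exact ⟨V, E, S, iE, iS, F.graph β, pos, C, hpos, fillBound_of_isoIneq hF hBip hI hpos,
    exists_abc F hP hβ (rootInj_of_isoIneq hF hBip hI hx0)⟩

theorem not_symm_of_abc {R : Type} [Ring R] {a b c : R} (h2 : a * c = 0)
    (h3 : c ≠ 0) : b * a ≠ 1 := by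
  intro h
  apply h3
  calc c = b * a * c := by rw [h, one_mul]
    _ = 0 := by rw [mul_assoc, h2, mul_zero]

end Vale.Agent.Kap
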