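import Vale.Agent.Kap.Defs

/-!
No `K_{3,3}` minor in the cubic graph of a planar map.
-/

namespace Vale.Agent.Kap

open Finset

namespace PMap

variable {δ : Type} (M : PMap δ)

/-- other end of a multigraph edge -/
def plHd (e : δ × Bool) : δ := if e.2 = true then M.φ e.1 else M.ι e.1

open Classical in
/-- indicator chain of a multigraph edge -/
noncomputable def plElem (e e' : δ × Bool) : ZMod 2 :=
  if e'.2 = e.2 ∧ (e'.1 = e.1 ∨ (e.2 = false ∧ e'.1 = M.ι e.1)) then 1 else 0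

/-- boundary of a chain -/
def plBd (x : δ × Bool → ZMod 2) (y : δ) : ZMod 2 :=
  x (y, true) + x (M.φ.symm y, true) + x (y, false)

/-- chains take the same value on both names of an edge -/
def PlInv (x : δ × Bool → ZMod 2) : Prop := ∀ z ∈ M.Ω, x (M.ι z, false) = x (z, false)

theorem pl_inv_mem {y : δ} (hy : y ∈ M.Ω) : M.φ.symm y ∈ M.Ω := by
  rw [← M.φ_mem]; simpa using hy

theorem plElem_self (e : δ × Bool) : M.plElem e e = 1 := by simp [plElem]

theorem plElem_ends {e e' : δ × Bool} (he : e.1 ∈ M.Ω) (h : M.plElem e e' ≠ 0) :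
    (e'.1 = e.1 ∧ M.plHd e' = M.plHd e) ∨ (e'.1 = M.plHd e ∧ M.plHd e' = e.1) := by
  unfold plElem at h
  split_ifs at h with h1
  · obtain ⟨h2, h3 | ⟨h3, h4⟩⟩ := h1
    · left
      exact ⟨h3, by unfold plHd; rw [h2, h3]⟩
    · right
      unfold plHd
      rw [h2, h3, h4]
      simp [M.ι_ι _ he]
  · exact absurd rfl h

theorem plElem_val {x : δ × Bool → ZMod 2} (hx : M.PlInv x) {e e' : δ × Bool} (he : e.1 ∈ M.Ω)
    (h : M.plElem e e' ≠ 0) : x e' = x e := by
  unfold plElem at h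
  split_ifs at h with h1
  · obtain ⟨z, b⟩ := e
    obtain ⟨z', b'⟩ := e'
    obtain ⟨h2, h3 | ⟨h3, h4⟩⟩ := h1
    · simp only at h2 h3; rw [h2, h3]
    · simp only at h2 h3 h4; rw [h2, h3, h4]; exact hx z he
  · exact absurd rfl h

theorem plElem_inv {e : δ × Bool} (he : e.1 ∈ M.Ω) : M.PlInv (M.plElem e) := by
  classical
  intro z hz
  unfold plElem
  refine if_congr ?_ rfl rfl
  simp only
  constructor
  · rintro ⟨h1, h2 | ⟨h2, h3⟩⟩
    · exact ⟨h1, Or.inr ⟨h1.symm, by rw [← h2, M.ι_ι z hz]⟩⟩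
    · exact ⟨h1, Or.inl (M.ι.injective h3)⟩
  · rintro ⟨h1, h2 | ⟨h2, h3⟩⟩
    · exact ⟨h1, Or.inr ⟨h1.symm, by rw [h2]⟩⟩
    · exact ⟨h1, Or.inl (by rw [h3, M.ι_ι _ he])⟩

open Classical in
theorem plBd_elem {e : δ × Bool} (he : e.1 ∈ M.Ω) (y : δ) :
    M.plBd (M.plElem e) y = (if y = e.1 then 1 else 0) + (if y = M.plHd e then 1 else 0) := by
  obtain ⟨z, b⟩ := e
  cases b with
  | true =>
    have : M.φ.symm y = z ↔ y = M.φ z := Equiv.symm_apply_eq _
    simp [plBd, plElem, plHd, this]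
  | false =>
    have h := M.ι_ne z he
    by_cases h1 : y = z
    · subst h1; simp [plBd, plElem, plHd, h.symm]
    · simp [plBd, plElem, plHd, h1]

theorem pl_pairing {x : δ × Bool → ZMod 2} (hx : M.PlInv x) (χ : δ → ZMod 2)
    (h : ∀ e : δ × Bool, e.1 ∈ M.Ω → x e ≠ 0 → χ e.1 = χ (M.plHd e)) :
    ∑ y ∈ M.Ω, χ y * M.plBd x y = 0 := by
  have h2 : ∀ a : ZMod 2, a + a = 0 := by decide
  have e1 : ∑ y ∈ M.Ω, χ y * x (M.φ.symm y, true) = ∑ z ∈ M.Ω, χ (M.φ z) * x (z, true) := by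
    symm
    refine Finset.sum_nbij' M.φ M.φ.symm (fun z hz => (M.φ_mem z).2 hz)
      (fun y hy => M.pl_inv_mem hy) (fun z _ => by simp) (fun y _ => by simp) (fun z _ => by simp)
  have e2 : ∑ y ∈ M.Ω, χ y * x (y, false) = 0 := by
    refine Finset.sum_involution (fun y _ => M.ι y) (fun y hy => ?_) (fun y hy _ => M.ι_ne y hy)
      (fun y hy => (M.ι_mem y).2 hy) (fun y hy => M.ι_ι y hy)
    rw [hx y hy]
    by_cases h0 : x (y, false) = 0
    · simp [h0]
    · have := h (y, false) hy h0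
      simp only [plHd, Bool.false_eq_true, if_false] at this
      rw [this, h2]
  simp only [plBd, mul_add, Finset.sum_add_distrib, e1, e2, add_zero]
  rw [← Finset.sum_add_distrib]
  refine Finset.sum_eq_zero fun z hz => ?_
  by_cases h0 : x (z, true) = 0
  · simp [h0]
  · have := h (z, true) hz h0
    simp only [plHd, if_true] at this
    rw [this, h2]

theorem pl_edge_of_adj {u v : δ} (h : M.graph.Adj u v) :
    ∃ e : δ × Bool, e.1 ∈ M.Ω ∧ ((e.1 = u ∧ M.plHd e = v) ∨ (e.1 = v ∧ M.plHd e = u)) := by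
  rw [graph, SimpleGraph.fromRel_adj] at h
  obtain ⟨_, ⟨h1, h2 | h2⟩ | ⟨h1, h2 | h2⟩⟩ := h
  · exact ⟨(u, true), h1, Or.inl ⟨rfl, h2.symm⟩⟩
  · exact ⟨(u, false), h1, Or.inl ⟨rfl, h2.symm⟩⟩
  · exact ⟨(v, true), h1, Or.inr ⟨rfl, h2.symm⟩⟩
  · exact ⟨(v, false), h1, Or.inr ⟨rfl, h2.symm⟩⟩

open Classical in
theorem pl_path {X : Set δ} {u v : δ}
    (h : Relation.ReflTransGen (fun x y => M.graph.Adj x y ∧ x ∈ X ∧ y ∈ X) u v) :
    ∃ x : δ × Bool → ZMod 2, M.PlInv x ∧ (∀ e, x e ≠ 0 → e.1 ∈ X ∧ M.plHd e ∈ X) ∧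
      ∀ y, M.plBd x y = (if y = u then 1 else 0) + (if y = v then 1 else 0) := by
  have h2 : ∀ a : ZMod 2, a + a = 0 := by decide
  induction h with
  | refl => exact ⟨0, fun _ _ => rfl, fun e he => absurd rfl he, fun y => by rw [h2]; simp [plBd]⟩
  | @tail b c _ hbc ih =>
    obtain ⟨x, h3, h4, h5⟩ := ih
    obtain ⟨e, he, hends⟩ := M.pl_edge_of_adj hbc.1
    have hX : e.1 ∈ X ∧ M.plHd e ∈ X := by
      rcases hends with ⟨r1, r2⟩ | ⟨r1, r2⟩ <;> rw [r1, r2]
      exacts [⟨hbc.2.1, hbc.2.2⟩, ⟨hbc.2.2, hbc.2.1⟩]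
    refine ⟨x + M.plElem e, fun z hz => ?_, fun e' he' => ?_, fun y => ?_⟩
    · simp only [Pi.add_apply, h3 z hz, M.plElem_inv he z hz]
    · by_cases h6 : x e' = 0
      · have h7 : M.plElem e e' ≠ 0 := by simpa [h6] using he'
        rcases M.plElem_ends he h7 with ⟨r1, r2⟩ | ⟨r1, r2⟩ <;> rw [r1, r2]
        exacts [hX, ⟨hX.2, hX.1⟩]
      · exact h4 e' h6
    · have e1 : M.plBd (x + M.plElem e) y = M.plBd x y + M.plBd (M.plElem e) y := by
        simp only [plBd, Pi.add_apply]; ring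
      rw [e1, h5, M.plBd_elem he]
      have h8 := h2 (if y = b then 1 else 0)
      rcases hends with ⟨r1, r2⟩ | ⟨r1, r2⟩ <;> rw [r1, r2] <;> linear_combination h8

/-- first side of an edge -/
def plA (k h : δ → ZMod 2) (e : δ × Bool) : ZMod 2 := if e.2 = true then k e.1 else h e.1

/-- region functions -/
def PlReg (k h : δ → ZMod 2) : Prop := ∀ z ∈ M.Ω, k (M.φ z) = k z ∧ h (M.φ z) = h (M.ι z)

theorem pl_region {x : δ × Bool → ZMod 2} (hx : M.PlInv x) (hb : ∀ y ∈ M.Ω, M.plBd x y = 0) :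
    ∃ k h, M.PlReg k h ∧ ∀ e : δ × Bool, e.1 ∈ M.Ω → x e = plA k h e + h (M.plHd e) := by
  have h2 : ∀ a : ZMod 2, a + a = 0 := by decide
  have key : ∀ z ∈ M.Ω, x (M.φ.symm (M.φ z), true) + x (M.φ.symm z, true) = x (z, false) := by
    intro z hz
    have := hb z hz
    simp only [plBd] at this
    rw [Equiv.symm_apply_apply]
    linear_combination this - h2 (x (z, false))
  obtain ⟨h, hh⟩ := M.planar (fun z => x (M.φ.symm z, true)) fun z hz => by
    rw [key z hz, key _ ((M.ι_mem z).2 hz), hx z hz]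
  refine ⟨fun z => x (M.φ.symm z, true) + h z, h, fun z hz => ⟨?_, (hh z hz).1⟩, ?_⟩
  · obtain ⟨h3, h4⟩ := hh z hz
    dsimp only at h4 ⊢
    linear_combination h3 - h4 + h2 (h (M.ι z)) - h2 (x (M.φ.symm z, true))
  · rintro ⟨z, b⟩ hz
    obtain ⟨h3, h4⟩ := hh z hz
    have h5 := key z hz
    cases b with
    | true =>
      simp only [plA, plHd, if_true]
      rw [Equiv.symm_apply_apply] at h4
      linear_combination -h3 - h4 - h2 (x (M.φ.symm z, true))
    | false =>
      simp only [plA, plHd, Bool.false_eq_true, if_false]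
      linear_combination -h5 - h4

theorem pl_cob {k h : δ → ZMod 2} (H : M.PlReg k h) :
    M.PlInv (fun e => plA k h e + h (M.plHd e)) ∧
      ∀ y ∈ M.Ω, M.plBd (fun e => plA k h e + h (M.plHd e)) y = 0 := by
  have h2 : ∀ a : ZMod 2, a + a = 0 := by decide
  constructor
  · intro z hz
    simp only [plA, plHd, Bool.false_eq_true, if_false, M.ι_ι z hz]
    ring
  · intro y hy
    have h3 := (H _ (M.pl_inv_mem hy)).1
    have h4 := (H y hy).2
    simp only [plBd, plA, plHd, Bool.false_eq_true, if_false, if_true,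
      Equiv.apply_symm_apply] at h3 ⊢
    linear_combination -h3 + h4 + h2 (k y) + h2 (h y) + h2 (h (M.ι y))

end PMap

/-- the four basic cycles of `K_{3,3}` -/
def plT (p q : Fin 3) (i j : Fin 3) : ZMod 2 :=
  if (i = p ∨ i = 2) ∧ (j = q ∨ j = 2) then 1 else 0

theorem plT_eq : ∀ p q i j : Fin 3, p ≠ 2 → q ≠ 2 →
    ((((if p = i ∧ q = j then 1 else 0) + if p = i ∧ 2 = j then 1 else 0) +
      if 2 = i ∧ q = j then 1 else 0) + if 2 = i ∧ 2 = j then 1 else 0 : ZMod 2) =
      if (i = p ∨ i = 2) ∧ (j = q ∨ j = 2) then 1 else 0 := by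
  decide

theorem pl_finite (w : Fin 3 → Fin 3 → Fin 3 → Fin 3 → ZMod 2)
    (hr : ∀ p q p' q' : Fin 3, p ≠ 2 → q ≠ 2 → p' ≠ 2 → q' ≠ 2 → ∀ i,
      ∑ j, (w p q i j * w p' q' i j +
        (w p q i j + plT p q i j) * (w p' q' i j + plT p' q' i j)) = 0)
    (hc : ∀ p q p' q' : Fin 3, p ≠ 2 → q ≠ 2 → p' ≠ 2 → q' ≠ 2 → ∀ j,
      ∑ i, (w p q i j * w p' q' i j +
        (w p q i j + plT p q i j) * (w p' q' i j + plT p' q' i j)) = 0) : False := by
  have e : ∀ a b s t : ZMod 2, a * b + (a + s) * (b + t) = a * t + s * b + s * t := by decide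
  have h1 := hr 0 0 0 1 (by decide) (by decide) (by decide) (by decide) 2
  have h2 := hr 0 0 1 1 (by decide) (by decide) (by decide) (by decide) 0
  have h3 := hr 0 0 1 1 (by decide) (by decide) (by decide) (by decide) 2
  have h4 := hc 0 0 1 1 (by decide) (by decide) (by decide) (by decide) 0
  have h5 := hr 0 1 1 0 (by decide) (by decide) (by decide) (by decide) 1
  have h6 := hc 0 1 1 0 (by decide) (by decide) (by decide) (by decide) 0
  have h7 := hc 0 1 1 1 (by decide) (by decide) (by decide) (by decide) 2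
  simp only [e, Fin.sum_univ_three] at h1 h2 h3 h4 h5 h6 h7
  simp [plT] at h1 h2 h3 h4 h5 h6 h7
  grind

open Classical in
/-- The cubic graph of a planar map has no `K_{3,3}` minor. -/
theorem PMap.not_hasK33' {δ : Type} (M : PMap δ) : ¬ HasK33 M.graph := by
  rintro ⟨X, hconn, hdis, hadj⟩
  have h2 : ∀ a : ZMod 2, a + a = 0 := by decide
  choose u hu v hv huv using hadj
  choose ε hε hends using fun i j => M.pl_edge_of_adj (huv i j)
  have hcls : ∀ {a b : Bool × Fin 3} {y : δ}, y ∈ X a → y ∈ X b → a = b := by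
    intro a b y ha hb
    by_contra h
    exact Set.disjoint_left.1 (hdis a b h) ha hb
  have hel : ∀ i j e, M.plElem (ε i j) e ≠ 0 →
      (e.1 ∈ X (false, i) ∧ M.plHd e ∈ X (true, j)) ∨
        (e.1 ∈ X (true, j) ∧ M.plHd e ∈ X (false, i)) := by
    intro i j e h
    rcases M.plElem_ends (hε i j) h with ⟨r1, r2⟩ | ⟨r1, r2⟩ <;>
      rcases hends i j with ⟨s1, s2⟩ | ⟨s1, s2⟩ <;> rw [r1, r2, s1, s2]
    exacts [Or.inl ⟨hu i j, hv i j⟩, Or.inr ⟨hv i j, hu i j⟩, Or.inr ⟨hv i j, hu i j⟩,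
      Or.inl ⟨hu i j, hv i j⟩]
  have huniq : ∀ i j k l e, M.plElem (ε i j) e ≠ 0 → M.plElem (ε k l) e ≠ 0 → i = k ∧ j = l := by
    intro i j k l e h h'
    rcases hel i j e h with ⟨r1, r2⟩ | ⟨r1, r2⟩ <;> rcases hel k l e h' with ⟨s1, s2⟩ | ⟨s1, s2⟩
    · exact ⟨by simpa using hcls r1 s1, by simpa using hcls r2 s2⟩
    · simpa using hcls r1 s1
    · simpa using hcls r1 s1
    · exact ⟨by simpa using hcls r2 s2, by simpa using hcls r1 s1⟩
  have hval : ∀ i j k l, M.plElem (ε i j) (ε k l) = if i = k ∧ j = l then 1 else 0 := by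
    intro i j k l
    split_ifs with h
    · rw [h.1, h.2, M.plElem_self]
    · by_contra h'
      exact h (huniq i j k l _ h' (by rw [M.plElem_self]; exact one_ne_zero))
  have hnin : ∀ i j a, ¬((ε i j).1 ∈ X a ∧ M.plHd (ε i j) ∈ X a) := by
    rintro i j a ⟨r1, r2⟩
    rcases hel i j (ε i j) (by rw [M.plElem_self]; exact one_ne_zero) with ⟨s1, s2⟩ | ⟨s1, s2⟩
    · simpa using (hcls s1 r1).trans (hcls r2 s2)
    · simpa using (hcls s1 r1).trans (hcls r2 s2)
  have hbdε : ∀ i j y, M.plBd (M.plElem (ε i j)) y =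
      (if y = u i j then 1 else 0) + (if y = v i j then 1 else 0) := by
    intro i j y
    rw [M.plBd_elem (hε i j)]
    rcases hends i j with ⟨s1, s2⟩ | ⟨s1, s2⟩ <;> rw [s1, s2]
    ring
  let Good : (δ × Bool → ZMod 2) → Prop := fun x => ∀ e : δ × Bool, e.1 ∈ M.Ω → x e ≠ 0 →
    (∃ a, e.1 ∈ X a ∧ M.plHd e ∈ X a) ∨ ∃ i j, M.plElem (ε i j) e ≠ 0
  have huΩ : ∀ i j, u i j ∈ M.Ω ∧ v i j ∈ M.Ω := by
    intro i j
    have h3 : M.plHd (ε i j) ∈ M.Ω := by
      unfold PMap.plHd
      split_ifs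
      · exact (M.φ_mem _).2 (hε i j)
      · exact (M.ι_mem _).2 (hε i j)
    rcases hends i j with ⟨s1, s2⟩ | ⟨s1, s2⟩
    · exact ⟨s1 ▸ hε i j, s2 ▸ h3⟩
    · exact ⟨s2 ▸ h3, s1 ▸ hε i j⟩
  have heven : ∀ x, M.PlInv x → (∀ y ∈ M.Ω, M.plBd x y = 0) → Good x → ∀ a : Bool × Fin 3,
      ∑ i, ∑ j, x (ε i j) * ((if a = (false, i) then 1 else 0) + if a = (true, j) then 1 else 0) =
        0 := by
    intro x hx hb hg a
    let x' : δ × Bool → ZMod 2 := fun e => x e + ∑ i, ∑ j, x (ε i j) * M.plElem (ε i j) e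
    let χ : δ → ZMod 2 := fun y => if y ∈ X a then 1 else 0
    have i1 : M.PlInv x' := fun z hz => by
      simp only [x', hx z hz, fun i j => M.plElem_inv (hε i j) z hz]
    have i2 : ∀ e : δ × Bool, e.1 ∈ M.Ω → x' e ≠ 0 → χ e.1 = χ (M.plHd e) := by
      intro e he h0
      by_cases h3 : ∃ i j, M.plElem (ε i j) e ≠ 0
      · exfalso
        obtain ⟨i, j, h4⟩ := h3
        apply h0
        have h5 : M.plElem (ε i j) e = 1 := by
          have : ∀ a : ZMod 2, a ≠ 0 → a = 1 := by decide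
          exact this _ h4
        simp only [x']
        rw [Finset.sum_eq_single i, Finset.sum_eq_single j, h5, mul_one,
          M.plElem_val hx (hε i j) h4, h2]
        · intro l _ hl
          have : M.plElem (ε i l) e = 0 := by
            by_contra h6; exact hl (huniq i l i j e h6 h4).2
          rw [this, mul_zero]
        · simp
        · intro k _ hk
          refine Finset.sum_eq_zero fun l _ => ?_
          have : M.plElem (ε k l) e = 0 := by
            by_contra h6; exact hk (huniq k l i j e h6 h4).1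
          rw [this, mul_zero]
        · simp
      · have h4 : ∀ i j, M.plElem (ε i j) e = 0 := fun i j => by
          by_contra h5; exact h3 ⟨i, j, h5⟩
        have h5 : x e ≠ 0 := by simpa [x', h4] using h0
        obtain ⟨b, r1, r2⟩ := (hg e he h5).resolve_right h3
        refine if_congr ⟨fun h => hcls r1 h ▸ r2, fun h => hcls r2 h ▸ r1⟩ rfl rfl
    have i3 := M.pl_pairing i1 χ i2
    have i4 : ∀ y ∈ M.Ω, χ y * M.plBd x' y = ∑ i, ∑ j, x (ε i j) *
        ((if y = u i j then χ y else 0) + (if y = v i j then χ y else 0)) := by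
      intro y hy
      have : M.plBd x' y = M.plBd x y + ∑ i, ∑ j, x (ε i j) * M.plBd (M.plElem (ε i j)) y := by
        simp only [x', PMap.plBd, mul_add, Finset.sum_add_distrib]
        ring
      rw [this, hb y hy, zero_add, Finset.mul_sum]
      refine Finset.sum_congr rfl fun i _ => ?_
      rw [Finset.mul_sum]
      refine Finset.sum_congr rfl fun j _ => ?_
      rw [hbdε]
      split_ifs <;> ring
    rw [Finset.sum_congr rfl i4, Finset.sum_comm] at i3
    refine Eq.trans (Finset.sum_congr rfl fun i _ => ?_) i3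
    rw [Finset.sum_comm]
    refine Finset.sum_congr rfl fun j _ => ?_
    rw [← Finset.mul_sum, Finset.sum_add_distrib, Finset.sum_ite_eq', Finset.sum_ite_eq',
      if_pos (huΩ i j).1, if_pos (huΩ i j).2]
    congr 2
    · exact if_congr ⟨fun h => h ▸ hu i j, fun h => hcls h (hu i j)⟩ rfl rfl
    · exact if_congr ⟨fun h => h ▸ hv i j, fun h => hcls h (hv i j)⟩ rfl rfl
  have hcyc : ∀ p q : Fin 3, ∃ k h : δ → ZMod 2, p ≠ 2 → q ≠ 2 → M.PlReg k h ∧
      Good (fun e => PMap.plA k h e + h (M.plHd e)) ∧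
      ∀ i j, h (M.plHd (ε i j)) = PMap.plA k h (ε i j) + plT p q i j := by
    intro p q
    obtain ⟨x1, a1, b1, c1⟩ := M.pl_path (hconn (false, p) _ (hu p q) _ (hu p 2))
    obtain ⟨x2, a2, b2, c2⟩ := M.pl_path (hconn (false, 2) _ (hu 2 q) _ (hu 2 2))
    obtain ⟨x3, a3, b3, c3⟩ := M.pl_path (hconn (true, q) _ (hv p q) _ (hv 2 q))
    obtain ⟨x4, a4, b4, c4⟩ := M.pl_path (hconn (true, 2) _ (hv p 2) _ (hv 2 2))
    let x : δ × Bool → ZMod 2 := fun e => x1 e + x2 e + x3 e + x4 e + (M.plElem (ε p q) e +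
      M.plElem (ε p 2) e + M.plElem (ε 2 q) e + M.plElem (ε 2 2) e)
    have i1 : M.PlInv x := fun z hz => by
      simp only [x, a1 z hz, a2 z hz, a3 z hz, a4 z hz, fun i j => M.plElem_inv (hε i j) z hz]
    have i2 : ∀ y ∈ M.Ω, M.plBd x y = 0 := by
      intro y _
      have : M.plBd x y = M.plBd x1 y + M.plBd x2 y + M.plBd x3 y + M.plBd x4 y +
          (M.plBd (M.plElem (ε p q)) y + M.plBd (M.plElem (ε p 2)) y +
            M.plBd (M.plElem (ε 2 q)) y + M.plBd (M.plElem (ε 2 2)) y) := by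
        simp only [x, PMap.plBd]; ring
      rw [this, c1, c2, c3, c4, hbdε, hbdε, hbdε, hbdε]
      linear_combination h2 (if y = u p q then 1 else 0) + h2 (if y = u p 2 then 1 else 0) +
        h2 (if y = u 2 q then 1 else 0) + h2 (if y = u 2 2 then 1 else 0) +
        h2 (if y = v p q then 1 else 0) + h2 (if y = v p 2 then 1 else 0) +
        h2 (if y = v 2 q then 1 else 0) + h2 (if y = v 2 2 then 1 else 0)
    obtain ⟨k, h, H1, H2⟩ := M.pl_region i1 i2
    refine ⟨k, h, fun hp hq => ⟨H1, fun e he h0 => ?_, fun i j => ?_⟩⟩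
    · by_contra hcon
      rw [not_or, not_exists] at hcon
      obtain ⟨n1, n2⟩ := hcon
      have n3 : ∀ i j, M.plElem (ε i j) e = 0 := fun i j => by
        by_contra h5; exact n2 ⟨i, j, h5⟩
      have z1 : x1 e = 0 := by by_contra h5; exact n1 _ (b1 e h5)
      have z2 : x2 e = 0 := by by_contra h5; exact n1 _ (b2 e h5)
      have z3 : x3 e = 0 := by by_contra h5; exact n1 _ (b3 e h5)
      have z4 : x4 e = 0 := by by_contra h5; exact n1 _ (b4 e h5)
      apply h0
      dsimp only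
      rw [← H2 e he]
      simp [x, z1, z2, z3, z4, n3]
    · have z1 : x1 (ε i j) = 0 := by by_contra h5; exact hnin i j _ (b1 _ h5)
      have z2 : x2 (ε i j) = 0 := by by_contra h5; exact hnin i j _ (b2 _ h5)
      have z3 : x3 (ε i j) = 0 := by by_contra h5; exact hnin i j _ (b3 _ h5)
      have z4 : x4 (ε i j) = 0 := by by_contra h5; exact hnin i j _ (b4 _ h5)
      have z5 : x (ε i j) = plT p q i j := by
        simp only [x, z1, z2, z3, z4, hval, add_zero, zero_add, plT]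
        exact plT_eq p q i j hp hq
      have z6 := H2 _ (hε i j)
      rw [z5] at z6
      linear_combination -z6 - h2 (PMap.plA k h (ε i j)) + h2 (plT p q i j) - h2 (plT p q i j)
  choose k h H using hcyc
  have hprod : ∀ p q p' q' : Fin 3, p ≠ 2 → q ≠ 2 → p' ≠ 2 → q' ≠ 2 → ∀ a : Bool × Fin 3,
      ∑ i, ∑ j, (PMap.plA (k p q) (h p q) (ε i j) * PMap.plA (k p' q') (h p' q') (ε i j) +
        (PMap.plA (k p q) (h p q) (ε i j) + plT p q i j) *
          (PMap.plA (k p' q') (h p' q') (ε i j) + plT p' q' i j)) *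
        ((if a = (false, i) then 1 else 0) + if a = (true, j) then 1 else 0) = 0 := by
    intro p q p' q' hp hq hp' hq' a
    obtain ⟨r1, r2, r3⟩ := H p q hp hq
    obtain ⟨s1, s2, s3⟩ := H p' q' hp' hq'
    have t1 : M.PlReg (k p q * k p' q') (h p q * h p' q') := fun z hz => by
      simp only [Pi.mul_apply, (r1 z hz).1, (r1 z hz).2, (s1 z hz).1, (s1 z hz).2, and_self]
    have t2 : ∀ e, PMap.plA (k p q * k p' q') (h p q * h p' q') e =
        PMap.plA (k p q) (h p q) e * PMap.plA (k p' q') (h p' q') e := by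
      intro e; unfold PMap.plA; split_ifs <;> rfl
    obtain ⟨t3, t4⟩ := M.pl_cob t1
    have t5 := heven _ t3 t4 (fun e he h0 => by
      by_cases z1 : PMap.plA (k p q) (h p q) e + h p q (M.plHd e) = 0
      · by_cases z2 : PMap.plA (k p' q') (h p' q') e + h p' q' (M.plHd e) = 0
        · exfalso
          apply h0
          have : ∀ a b c d : ZMod 2, a + b = 0 → c + d = 0 → a * c + b * d = 0 := by decide
          dsimp only
          rw [t2]
          exact this _ _ _ _ z1 z2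
        · exact s2 e he z2
      · exact r2 e he z1) a
    simp only [t2, Pi.mul_apply, r3, s3] at t5
    exact t5
  refine pl_finite (fun p q i j => PMap.plA (k p q) (h p q) (ε i j))
    (fun p q p' q' hp hq hp' hq' i => ?_) (fun p q p' q' hp hq hp' hq' j => ?_)
  · have := hprod p q p' q' hp hq hp' hq' (false, i)
    simpa [Finset.sum_comm, ite_and, eq_comm] using this
  · have := hprod p q p' q' hp hq hp' hq' (true, j)
    simpa [ite_and, eq_comm] using this

end Vale.Agent.Kap
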