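import Vale.Agent.Kap.Defs

/-! The switching lemma for colour preserving matchings of large girth. -/

namespace Vale.Agent.Kap

namespace LG

variable {V E S : Type}

/-- `b` can be reached from `a` in at most `n` steps along edges of `A`. -/
inductive SwNr (Γ : LG V E S) (A : Set E) : ℕ → V → V → Prop
  | refl (n : ℕ) (a : V) : SwNr Γ A n a a
  | step {n : ℕ} {b : V} (o : E × Bool) : o.1 ∈ A → SwNr Γ A n (Γ.ter o) b →
      SwNr Γ A (n + 1) (Γ.ini o) b

/-- Every edge of `A` has its ends far apart after removing it. -/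
def SwG (Γ : LG V E S) (g : ℕ) (A : Set E) : Prop :=
  ∀ e ∈ A, ∀ n, Γ.SwNr (A \ {e}) n (Γ.src e) (Γ.tgt e) → g ≤ n + 1

variable {Γ Γ' : LG V E S} {A A' : Set E} {n m g : ℕ} {a b c : V}

@[simp] lemma sw_ini_rev (o : E × Bool) : Γ.ini (rev o) = Γ.ter o := by
  obtain ⟨e, _ | _⟩ := o <;> rfl

@[simp] lemma sw_ter_rev (o : E × Bool) : Γ.ter (rev o) = Γ.ini o := by
  obtain ⟨e, _ | _⟩ := o <;> rfl

lemma SwNr.mono (h : Γ.SwNr A n a b) (hA : A ⊆ A') (hn : n ≤ m) : Γ.SwNr A' m a b := by
  induction h generalizing m with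
  | refl n a => exact .refl _ _
  | step o ho _ ih =>
    obtain ⟨m, rfl⟩ : ∃ k, m = k + 1 := ⟨m - 1, by omega⟩
    exact .step o (hA ho) (ih (by omega))

lemma SwNr.trans (h : Γ.SwNr A n a b) (h' : Γ.SwNr A m b c) : Γ.SwNr A (m + n) a c := by
  induction h with
  | refl n a => exact h'.mono le_rfl (by omega)
  | step o ho _ ih => exact .step o ho (ih h')

lemma SwNr.single (o : E × Bool) (ho : o.1 ∈ A) : Γ.SwNr A 1 (Γ.ini o) (Γ.ter o) :=
  .step o ho (.refl _ _)

lemma SwNr.symm (h : Γ.SwNr A n a b) : Γ.SwNr A n b a := by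
  induction h with
  | refl n a => exact .refl _ _
  | step o ho _ ih =>
    have := SwNr.single (Γ := Γ) (rev o) ho
    rw [sw_ini_rev, sw_ter_rev] at this
    exact (ih.trans this).mono le_rfl (by omega)

lemma SwNr.congr (h : Γ.SwNr A n a b)
    (hA : ∀ e ∈ A, Γ'.src e = Γ.src e ∧ Γ'.tgt e = Γ.tgt e) : Γ'.SwNr A n a b := by
  induction h with
  | refl n a => exact .refl _ _
  | step o ho _ ih =>
    have h1 : Γ.ini o = Γ'.ini o := by simp only [ini, hA _ ho]
    have h2 : Γ.ter o = Γ'.ter o := by simp only [ter, hA _ ho]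
    rw [h1]
    exact .step o ho (h2 ▸ ih)

lemma SwNr.split (f : E) (h : Γ.SwNr (insert f A) n a b) :
    Γ.SwNr A n a b ∨ ∃ d n₁ n₂, n₁ + n₂ + 1 ≤ n ∧ Γ.SwNr A n₁ a (Γ.ini (f, d)) ∧
      Γ.SwNr A n₂ (Γ.ter (f, d)) b := by
  induction h with
  | refl n a => exact .inl (.refl _ _)
  | @step n b o ho _ ih =>
    rcases ho with ho | ho
    · obtain ⟨f, d⟩ := o
      obtain rfl : f = _ := ho
      rcases ih with h | ⟨d', n₁, n₂, h1, -, h3⟩
      · exact .inr ⟨d, 0, n, by omega, .refl _ _, h⟩
      · by_cases hd : d' = d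
        · subst hd
          exact .inr ⟨d', 0, n₂, by omega, .refl _ _, h3⟩
        · have : Γ.ter (f, d') = Γ.ini (f, d) := by
            cases d <;> cases d' <;> simp_all [ini, ter]
          exact .inl ((this ▸ h3).mono le_rfl (by omega))
    · rcases ih with h | ⟨d', n₁, n₂, h1, h2, h3⟩
      · exact .inl (.step o ho h)
      · exact .inr ⟨d', n₁ + 1, n₂, by omega, .step o ho h2, h3⟩

lemma SwG.mono (h : Γ.SwG g A) (hA : A' ⊆ A) : Γ.SwG g A' := fun e he n hn =>
  h e (hA he) n (hn.mono (Set.sdiff_subset_sdiff_left hA) le_rfl)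

lemma SwG.congr (h : Γ.SwG g A) (hA : ∀ e ∈ A, Γ'.src e = Γ.src e ∧ Γ'.tgt e = Γ.tgt e) :
    Γ'.SwG g A := fun e he n hn => by
  rw [(hA e he).1, (hA e he).2] at hn
  exact h e he n (hn.congr fun e he => ⟨(hA e he.1).1.symm, (hA e he.1).2.symm⟩)

lemma SwG.insert (h : Γ.SwG g A) (f : E)
    (hf : ∀ n, Γ.SwNr A n (Γ.src f) (Γ.tgt f) → g ≤ n + 1) : Γ.SwG g (insert f A) := by
  intro e he n hn
  by_cases hef : e = f
  · subst hef
    exact hf n (hn.mono (fun x hx => hx.1.resolve_left hx.2) le_rfl)
  · have he : e ∈ A := he.resolve_left hef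
    have hn' : Γ.SwNr (Insert.insert f (A \ {e})) n (Γ.src e) (Γ.tgt e) :=
      hn.mono (fun x hx => hx.1.imp id fun h => ⟨h, hx.2⟩) le_rfl
    rcases hn'.split with h1 | ⟨d, n₁, n₂, h1, h2, h3⟩
    · exact h e he n h1
    · have h4 := ((h2.symm.mono Set.sdiff_subset le_rfl).trans
        (SwNr.single (Γ := Γ) (e, true) he)).trans (h3.symm.mono Set.sdiff_subset le_rfl)
      cases d
      · have := hf _ h4.symm
        omega
      · have := hf _ h4
        omega

lemma sw_path_append {l l' : List (E × Bool)} (h : Γ.IsPath a l b) (h' : Γ.IsPath b l' c) :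
    Γ.IsPath a (l ++ l') c := by
  induction h with
  | nil x => exact h'
  | cons o _ ih => exact .cons o (ih h')

lemma sw_path_cons {o : E × Bool} {l : List (E × Bool)} (h : Γ.IsPath a (o :: l) b) :
    a = Γ.ini o ∧ Γ.IsPath (Γ.ter o) l b := by
  cases h with
  | cons _ h => exact ⟨rfl, h⟩

lemma sw_path_split {l l' : List (E × Bool)} (h : Γ.IsPath a (l ++ l') c) :
    ∃ b, Γ.IsPath a l b ∧ Γ.IsPath b l' c := by
  induction l generalizing a with
  | nil => exact ⟨a, .nil a, h⟩
  | cons o l ih =>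
    obtain ⟨rfl, h1⟩ := sw_path_cons h
    obtain ⟨b, h2, h3⟩ := ih h1
    exact ⟨b, .cons o h2, h3⟩

lemma swNr_of_path {l : List (E × Bool)} (h : Γ.IsPath a l b) (hA : ∀ o ∈ l, o.1 ∈ A) :
    Γ.SwNr A l.length a b := by
  induction h with
  | nil x => exact .refl _ _
  | cons o _ ih => exact .step o (hA o (by simp)) (ih fun o' ho' => hA o' (by simp [ho']))

lemma SwNr.exists_path (h : Γ.SwNr A n a b) :
    ∃ l, Γ.IsPath a l b ∧ Reduced l ∧ (∀ o ∈ l, o.1 ∈ A) ∧ l.length ≤ n := by
  induction h with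
  | refl n a => exact ⟨[], .nil a, List.IsChain.nil, by simp, by simp⟩
  | step o ho _ ih =>
    obtain ⟨l, h1, h2, h3, h4⟩ := ih
    rcases l with _ | ⟨o', l⟩
    · exact ⟨[o], .cons o h1, List.IsChain.singleton _, by simpa using ho, by simp⟩
    · by_cases h5 : o' = rev o
      · refine ⟨l, ?_, h2.tail, fun x hx => h3 x (by simp [hx]), by simp at h4; omega⟩
        have := (sw_path_cons h1).2
        rwa [h5, sw_ter_rev] at this
      · refine ⟨o :: o' :: l, .cons o h1, List.IsChain.cons_cons h5 h2, fun x hx => ?_,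
          by simpa using h4⟩
        rcases List.mem_cons.mp hx with rfl | hx
        exacts [ho, h3 x hx]

lemma swG_of_girth (h : Γ.Girth g) : Γ.SwG g Set.univ := by
  intro e _ n hn
  obtain ⟨l, h1, h2, h3, h4⟩ := hn.exists_path
  have h5 : Γ.IsPath (Γ.tgt e) ((e, false) :: l) (Γ.tgt e) := .cons (e, false) h1
  have h6 : Reduced ((e, false) :: l) := by
    rcases l with _ | ⟨o, l⟩
    · exact List.IsChain.singleton _
    · exact List.IsChain.cons_cons (fun h => (h3 o (by simp)).2 (by rw [h]; rfl)) h2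
  have := h _ _ h5 h6 (by simp)
  simp at this
  omega

lemma girth_of_swG (h : Γ.SwG g Set.univ) : Γ.Girth g := by
  intro x l
  induction hl : l.length using Nat.strong_induction_on generalizing x l with
  | _ k ih =>
    intro h1 h2 h3
    subst hl
    obtain _ | ⟨o, l⟩ := l
    · exact absurd rfl h3
    obtain ⟨rfl, h4⟩ := sw_path_cons h1
    by_cases h5 : ∃ o' ∈ l, o'.1 = o.1
    · obtain ⟨o', h6, h7⟩ := h5
      obtain ⟨l₁, l₂, rfl⟩ := List.append_of_mem h6
      obtain ⟨b, h8, h9⟩ := sw_path_split h4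
      obtain rfl := (sw_path_cons h9).1
      by_cases hd : o' = o
      · subst hd
        have h10 : Reduced (o' :: l₁) := List.IsChain.left_of_append (l₂ := o' :: l₂) h2
        have := ih _ (by simp) _ _ rfl (.cons o' h8) h10 (by simp)
        simp at this ⊢
        omega
      · have hd' : o' = rev o := by
          obtain ⟨e, d⟩ := o
          obtain ⟨e', d'⟩ := o'
          cases d <;> cases d' <;> simp_all [rev]
        subst hd'
        rw [sw_ini_rev] at h8
        have h10 : Reduced l₁ := List.IsChain.left_of_append (List.IsChain.tail h2)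
        have h11 : l₁ ≠ [] := by
          rintro rfl
          exact (List.isChain_cons_cons.mp h2).1 rfl
        have := ih _ (by simp) _ _ rfl h8 h10 h11
        simp
        omega
    · have h6 := swNr_of_path (A := Set.univ \ {o.1}) h4 fun o' ho' =>
        ⟨trivial, fun h => h5 ⟨o', ho', h⟩⟩
      obtain ⟨e, _ | _⟩ := o
      · exact h e trivial _ h6
      · exact h e trivial _ h6.symm

lemma sw_ball [Fintype V] [Fintype E] {k : ℕ} [DecidableEq V]
    (hk : ∀ a, (Finset.univ.filter fun o => Γ.ini o = a).card ≤ k) (n : ℕ) (a : V) :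
    ∃ s : Finset V, s.card ≤ (k + 1) ^ n ∧ ∀ b, Γ.SwNr A n a b → b ∈ s := by
  induction n generalizing a with
  | zero =>
    refine ⟨{a}, by simp, fun b hb => ?_⟩
    cases hb
    simp
  | succ n ih =>
    choose s hs1 hs2 using ih
    refine ⟨insert a ((Finset.univ.filter fun o => Γ.ini o = a).biUnion fun o => s (Γ.ter o)),
      ?_, fun b hb => ?_⟩
    · have h1 := Finset.card_biUnion_le_card_mul (Finset.univ.filter fun o => Γ.ini o = a)
        (fun o => s (Γ.ter o)) _ fun o _ => hs1 _
      have h2 := Nat.mul_le_mul_right ((k + 1) ^ n) (hk a)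
      have h3 : 1 ≤ (k + 1) ^ n := Nat.one_le_pow _ _ (by omega)
      refine (Finset.card_insert_le _ _).trans ?_
      rw [pow_succ]
      nlinarith
    · cases hb with
      | refl => simp
      | step o _ h =>
        exact Finset.mem_insert_of_mem (Finset.mem_biUnion.mpr ⟨o, by simp, hs2 _ _ h⟩)

end LG

namespace Frame

variable {V E E' S : Type} {F : Frame V E E' S} {β : E ≃ E'} {g : ℕ} {f e : E}

/-- The ends of `e` are far from the ends of `f`. -/
def SwFar (F : Frame V E E' S) (β : E ≃ E') (g : ℕ) (f e : E) : Prop :=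
  ∀ d d', ¬ (F.graph β).SwNr Set.univ g ((F.graph β).ini (f, d)) ((F.graph β).ini (e, d'))

lemma sw_matching [DecidableEq E] (hβ : F.IsMatching β)
    (h1 : F.srt (F.src e) = F.srt (F.src f)) (h2 : F.lab e = F.lab f) :
    F.IsMatching ((Equiv.swap f e).trans β) := by
  intro x
  rw [Equiv.trans_apply, (hβ _).1, (hβ _).2, Equiv.swap_apply_def]
  split_ifs with h3 h4
  · rw [h3]
    exact ⟨h2, h1⟩
  · rw [h4]
    exact ⟨h2.symm, h1.symm⟩
  · exact ⟨rfl, rfl⟩

lemma sw_switch [DecidableEq E] {T : Set E} (hG : (F.graph β).SwG g T) (far : F.SwFar β g f e) :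
    (F.graph ((Equiv.swap f e).trans β)).SwG g (insert f T) := by
  set Γ := F.graph β
  set Γ' := F.graph ((Equiv.swap f e).trans β)
  have agree : ∀ x ∈ T \ {f, e}, Γ'.src x = Γ.src x ∧ Γ'.tgt x = Γ.tgt x := by
    intro x hx
    have h1 : x ≠ f := fun h => hx.2 (.inl h)
    have h2 : x ≠ e := fun h => hx.2 (.inr h)
    exact ⟨rfl, by simp [Γ, Γ', graph, Equiv.swap_apply_of_ne_of_ne h1 h2]⟩
  have back : ∀ {n a b}, Γ'.SwNr (T \ {f, e}) n a b → Γ.SwNr (T \ {f, e}) n a b := fun h =>
    h.congr fun x hx => ⟨(agree x hx).1.symm, (agree x hx).2.symm⟩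
  have far' : ∀ {n} d d', Γ'.SwNr (T \ {f, e}) n (Γ.ini (f, d)) (Γ.ini (e, d')) → g ≤ n := by
    intro n d d' h
    by_contra hn
    exact far d d' ((back h).mono (Set.subset_univ _) (by omega))
  have tf : Γ'.tgt f = Γ.tgt e := by simp [Γ, Γ', graph]
  have te : Γ'.tgt e = Γ.tgt f := by simp [Γ, Γ', graph]
  have G0 : Γ'.SwG g (T \ {f, e}) := (hG.mono Set.sdiff_subset).congr agree
  have G1 : Γ'.SwG g (insert f (T \ {f, e})) := G0.insert f fun n hn => by
    rw [tf] at hn
    exact (far' true false hn).trans (by omega)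
  by_cases he : e ∈ T
  · have G2 : Γ'.SwG g (insert e (insert f (T \ {f, e}))) := G1.insert e fun n hn => by
      rw [te] at hn
      rcases hn.split with h | ⟨_ | _, n₁, n₂, h1, h2, -⟩
      · exact (far' false true h.symm).trans (by omega)
      · have h3 : Γ'.SwNr (T \ {f, e}) n₁ (Γ.src e) (Γ.tgt e) := tf ▸ h2
        have := hG e he n₁ ((back h3).mono (fun x hx => ⟨hx.1, fun h => hx.2 (.inr h)⟩) le_rfl)
        omega
      · exact (far' true true h2.symm).trans (by omega)
    refine G2.mono fun x hx => ?_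
    simp only [Set.mem_insert_iff, Set.mem_sdiff, Set.mem_singleton_iff] at hx ⊢
    tauto
  · refine G1.mono fun x hx => ?_
    simp only [Set.mem_insert_iff, Set.mem_sdiff, Set.mem_singleton_iff] at hx ⊢
    have : x ∈ T → x ≠ e := fun h h' => he (h' ▸ h)
    tauto

lemma sw_inj (hβ : F.IsMatching β) {o o' : E × Bool}
    (h1 : (F.graph β).ini o = (F.graph β).ini o') (h2 : F.lab o.1 = F.lab o'.1) : o = o' := by
  obtain ⟨x, _ | _⟩ := o <;> obtain ⟨y, _ | _⟩ := o'
  · have := F.inj' (β x) (β y) h1 (by rw [(hβ _).1, (hβ _).1, h2])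
    rw [β.injective this]
  · have := congrArg F.side h1
    simp [LG.ini, graph, F.side_src, F.side_tg] at this
  · have := congrArg F.side h1
    simp [LG.ini, graph, F.side_src, F.side_tg] at this
  · rw [F.inj x y h1 h2]

lemma sw_count [Fintype V] [Fintype E] [Fintype S] (hβ : F.IsMatching β) (g : ℕ) (f : E) :
    ∃ N : Finset E, N.card ≤ 4 * (Fintype.card S + 1) ^ g ∧
      ∀ e, F.lab e = F.lab f → e ∉ N → F.SwFar β g f e := by
  classical
  have hk : ∀ a, (Finset.univ.filter fun o => (F.graph β).ini o = a).card ≤ Fintype.card S := by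
    intro a
    refine Finset.card_le_card_of_injOn (t := Finset.univ) (fun o => F.lab o.1) (by simp) ?_
    intro o ho o' ho' h
    simp only [Finset.coe_filter, Finset.mem_univ, true_and, Set.mem_ofPred_eq] at ho ho'
    exact sw_inj hβ (ho.trans ho'.symm) h
  choose s hs1 hs2 using fun d => LG.sw_ball (A := Set.univ) hk g ((F.graph β).ini (f, d))
  let N : Bool × Bool → Finset E := fun d => Finset.univ.filter fun e =>
    F.lab e = F.lab f ∧ (F.graph β).ini (e, d.2) ∈ s d.1
  have hN : ∀ d, (N d).card ≤ (Fintype.card S + 1) ^ g := by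
    intro d
    refine le_trans (Finset.card_le_card_of_injOn (fun e => (F.graph β).ini (e, d.2)) ?_ ?_)
      (hs1 d.1)
    · intro e he
      exact (Finset.mem_filter.mp he).2.2
    · intro e he e' he' h
      exact congrArg Prod.fst (sw_inj hβ h
        ((Finset.mem_filter.mp he).2.1.trans (Finset.mem_filter.mp he').2.1.symm))
  refine ⟨Finset.univ.biUnion N, ?_, fun e h1 h2 d d' h3 => h2 ?_⟩
  · simpa using Finset.card_biUnion_le_card_mul Finset.univ N _ fun d _ => hN d
  · exact Finset.mem_biUnion.mpr ⟨(d, d'), by simp, Finset.mem_filter.mpr ⟨by simp, h1, hs2 _ _ h3⟩⟩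

end Frame

open Classical in
/-- Switching: matchings of large girth exist, and a uniform one contains a given set of edges
with small probability. -/
theorem switching {V E E' S : Type} [Fintype V] [Fintype E] [Fintype E'] [Fintype S]
    (F : Frame V E E' S) {r r' m : ℕ} {D : Finset (S × S)} (hC : F.Counts r r' m D) (g B : ℕ)
    (hB : 4 * (Fintype.card S + 1) ^ g ≤ B) (hr : B < r) :
    (F.good g).Nonempty ∧ ∀ H : Finset (E × E'),
      ((F.good g).filter fun β => ∀ x ∈ H, β x.1 = x.2).card * (r - B - H.card) ^ H.card ≤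
        (F.good g).card := by
  have key : ∀ β, F.IsMatching β → ∀ f, ∃ C : Finset E, r - B ≤ C.card ∧ ∀ e ∈ C,
      F.srt (F.src e) = F.srt (F.src f) ∧ F.lab e = F.lab f ∧ F.SwFar β g f e := by
    intro β hβ f
    obtain ⟨N, h1, h2⟩ := Frame.sw_count hβ g f
    refine ⟨(Finset.univ.filter fun e => F.srt (F.src e) = F.srt (F.src f) ∧ F.lab e = F.lab f) \ N,
      ?_, fun e he => ?_⟩
    · have h3 := hC.lower (F.srt (F.src f)) (F.lab f)
      exact le_trans (by omega) (Finset.le_card_sdiff _ _)
    · simp only [Finset.mem_sdiff, Finset.mem_filter] at he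
      exact ⟨he.1.2.1, he.1.2.2, h2 e he.1.2.2 he.2⟩
  have mem : ∀ β, β ∈ F.good g ↔ F.IsMatching β ∧ (F.graph β).SwG g Set.univ := by
    intro β
    simp only [Frame.good, Finset.mem_filter, Finset.mem_univ, true_and]
    exact and_congr_right fun _ => ⟨LG.swG_of_girth, LG.girth_of_swG⟩
  constructor
  · have h0 : ∀ T : Finset E, ∃ β, F.IsMatching β ∧ (F.graph β).SwG g T := by
      intro T
      induction T using Finset.induction with
      | empty =>
        have h1 : ∀ c : Bool × S, Nonempty ({e // (F.srt (F.src e), F.lab e) = c} ≃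
            {e' // (F.srt (F.tg e'), F.lab' e') = c}) := by
          rintro ⟨b, s⟩
          refine ⟨Fintype.equivOfCardEq ?_⟩
          simpa [Fintype.card_subtype] using hC.eq b s
        refine ⟨Equiv.ofFiberEquiv fun c => (h1 c).some, fun e => ?_, by simp [LG.SwG]⟩
        have := Equiv.ofFiberEquiv_map (fun c => (h1 c).some) e
        exact ⟨congrArg Prod.snd this, congrArg Prod.fst this⟩
      | insert f T _ ih =>
        obtain ⟨β, h1, h2⟩ := ih
        obtain ⟨C, h3, h4⟩ := key β h1 f
        obtain ⟨e, he⟩ : C.Nonempty := Finset.card_pos.mp (by omega)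
        obtain ⟨h5, h6, h7⟩ := h4 e he
        exact ⟨_, Frame.sw_matching h1 h5 h6, Finset.coe_insert f T ▸ Frame.sw_switch h2 h7⟩
    obtain ⟨β, h1, h2⟩ := h0 Finset.univ
    exact ⟨β, (mem β).mpr ⟨h1, by simpa using h2⟩⟩
  · intro H
    induction H using Finset.induction with
    | empty => simp
    | insert x H hx ih =>
      set G₁ := (F.good g).filter fun β => ∀ y ∈ insert x H, β y.1 = y.2
      set G₀ := (F.good g).filter fun β => ∀ y ∈ H, β y.1 = y.2
      have step : G₁.card * (r - B - H.card) ≤ G₀.card := by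
        choose! C hC1 hC2 using fun β hβ => key β hβ x.1
        have h1 : G₁.card * (r - B - H.card) ≤
            (G₁.sigma fun β => C β \ H.image Prod.fst).card := by
          rw [Finset.card_sigma, ← smul_eq_mul]
          refine Finset.card_nsmul_le_sum _ _ _ fun β hβ => ?_
          have h2 := hC1 β ((mem β).mp (Finset.mem_filter.mp hβ).1).1
          have h3 := Finset.card_image_le (s := H) (f := Prod.fst)
          exact le_trans (by omega) (Finset.le_card_sdiff _ _)
        refine h1.trans (Finset.card_le_card_of_injOn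
          (fun p => (Equiv.swap x.1 p.2).trans p.1) ?_ ?_)
        · rintro ⟨β, e⟩ hp
          simp only [Finset.coe_sigma, Set.mem_sigma_iff, Finset.mem_coe, Finset.mem_sdiff, G₁,
            Finset.mem_filter, mem] at hp
          obtain ⟨⟨⟨h2, h3⟩, h4⟩, h5, h6⟩ := hp
          obtain ⟨h7, h8, h9⟩ := hC2 β h2 e h5
          refine Finset.mem_filter.mpr ⟨(mem _).mpr ⟨Frame.sw_matching h2 h7 h8,
            (Frame.sw_switch h3 h9).mono (Set.subset_insert _ _)⟩, fun y hy => ?_⟩
          have h10 := h4 y (Finset.mem_insert_of_mem hy)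
          rw [Equiv.trans_apply, Equiv.swap_apply_of_ne_of_ne, h10]
          · intro h
            refine hx ((Prod.ext h ?_ : y = x) ▸ hy)
            rw [← h10, h, h4 x (Finset.mem_insert_self _ _)]
          · exact fun h => h6 (Finset.mem_image.mpr ⟨y, hy, h⟩)
        · rintro ⟨β, e⟩ hp ⟨β', e'⟩ hp' h
          simp only [Finset.coe_sigma, Set.mem_sigma_iff, Finset.mem_coe, G₁,
            Finset.mem_filter] at hp hp'
          have h2 := hp.1.2 x (Finset.mem_insert_self _ _)
          have h3 := hp'.1.2 x (Finset.mem_insert_self _ _)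
          have h4 : e = e' := by
            have h5 := congrArg (fun γ => γ e) h
            simp only [Equiv.trans_apply, Equiv.swap_apply_right] at h5
            rw [h2, ← h3] at h5
            have h6 := congrArg (Equiv.swap x.1 e') (β'.injective h5)
            rw [Equiv.swap_apply_self, Equiv.swap_apply_left] at h6
            exact h6.symm
          subst h4
          have h5 : β = β' := by
            ext y
            simpa using congrArg (fun γ => γ (Equiv.swap x.1 e y)) h
          rw [h5]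
      rw [Finset.card_insert_of_notMem hx, pow_succ']
      calc _ = G₁.card * (r - B - (H.card + 1)) * (r - B - (H.card + 1)) ^ H.card := by ring
        _ ≤ G₁.card * (r - B - H.card) * (r - B - H.card) ^ H.card := by gcongr <;> omega
        _ ≤ G₀.card * (r - B - H.card) ^ H.card := by gcongr
        _ ≤ _ := ih

end Vale.Agent.Kap
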