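import Vale.Agent.Kap.Defs

namespace Vale.Agent.Kap

section General

variable {G S : Type} [Group G] (gen : S → G)

lemma tor_lift_cons_true (s : S) (w : List (S × Bool)) :
    FreeGroup.lift gen (FreeGroup.mk ((s, true) :: w))
      = gen s * FreeGroup.lift gen (FreeGroup.mk w) := by
  simp [FreeGroup.lift_mk]

lemma tor_lift_cons_false (s : S) (w : List (S × Bool)) :
    FreeGroup.lift gen (FreeGroup.mk ((s, false) :: w))
      = (gen s)⁻¹ * FreeGroup.lift gen (FreeGroup.mk w) := by
  simp [FreeGroup.lift_mk]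

lemma tor_pc_append (u : G) (w₁ w₂ : List (S × Bool)) :
    pc gen u (w₁ ++ w₂) = pc gen u w₁ + pc gen (u * FreeGroup.lift gen (FreeGroup.mk w₁)) w₂ := by
  induction w₁ generalizing u with
  | nil => simp [pc, FreeGroup.lift_mk]
  | cons a w ih =>
    obtain ⟨s, b⟩ := a
    cases b
    · rw [List.cons_append, pc, pc, ih, tor_lift_cons_false, add_assoc, mul_assoc]
    · rw [List.cons_append, pc, pc, ih, tor_lift_cons_true, add_assoc, mul_assoc]

lemma tor_pc_step (u : G) {w w' : List (S × Bool)} (h : FreeGroup.Red.Step w w') :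
    pc gen u w = pc gen u w' := by
  cases h with
  | @not L₁ L₂ x b =>
    rw [tor_pc_append, tor_pc_append]
    congr 1
    cases b
    · simp [pc, ← add_assoc, -Finsupp.single_add]
    · simp [pc, ← add_assoc, -Finsupp.single_add]

/-- The path chain as a function on the free group. -/
noncomputable def torPc (u : G) : FreeGroup S → (G × S) →₀ ℤ :=
  Quot.lift (pc gen u) fun _ _ h => tor_pc_step gen u h

lemma torPc_mk (u : G) (w : List (S × Bool)) : torPc gen u (FreeGroup.mk w) = pc gen u w := rfl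

lemma torPc_one (u : G) : torPc gen u 1 = 0 := rfl

lemma torPc_mul (u : G) (f f' : FreeGroup S) :
    torPc gen u (f * f') = torPc gen u f + torPc gen (u * FreeGroup.lift gen f) f' := by
  induction f using Quot.inductionOn with | h w => ?_
  induction f' using Quot.inductionOn with | h w' => ?_
  exact tor_pc_append gen u w w'

lemma tor_bd_add (z z' : (G × S) →₀ ℤ) : bd gen (z + z') = bd gen z + bd gen z' := by
  classical
  unfold bd
  rw [Finsupp.sum_add_index']
  · intro a; simp
  · intro a b₁ b₂; simp only [Finsupp.single_add]; abel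

lemma tor_bd_single (x : G × S) (n : ℤ) :
    bd gen (Finsupp.single x n) = Finsupp.single (x.1 * gen x.2) n - Finsupp.single x.1 n := by
  unfold bd
  rw [Finsupp.sum_single_index]
  simp

lemma tor_bd_pc (u : G) (w : List (S × Bool)) :
    bd gen (pc gen u w) = Finsupp.single (u * FreeGroup.lift gen (FreeGroup.mk w)) 1
      - Finsupp.single u 1 := by
  induction w generalizing u with
  | nil => simp [pc, bd, FreeGroup.lift_mk]
  | cons a w ih =>
    obtain ⟨s, b⟩ := a
    cases b
    · rw [pc, tor_bd_add, ih, tor_bd_single, tor_lift_cons_false, mul_assoc]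
      simp only [inv_mul_cancel, mul_one, Finsupp.single_neg, mul_assoc]
      abel
    · rw [pc, tor_bd_add, ih, tor_bd_single, tor_lift_cons_true, mul_assoc]
      abel

lemma tor_bd_torPc (u : G) (f : FreeGroup S) :
    bd gen (torPc gen u f) = Finsupp.single (u * FreeGroup.lift gen f) 1 - Finsupp.single u 1 := by
  induction f using Quot.inductionOn with | h w => ?_
  exact tor_bd_pc gen u w

lemma tor_dist_le (A : Set G) (t g : G) :
    (SimpleGraph.mulCayley A).dist t (t * g) ≤ (SimpleGraph.mulCayley A).dist 1 g := by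
  let φ : ∀ d : G, SimpleGraph.mulCayley A →g SimpleGraph.mulCayley A := fun d =>
    ⟨fun x => d * x, fun h => SimpleGraph.mulCayley_adj_mul_iff_right.mpr h⟩
  by_cases h : (SimpleGraph.mulCayley A).Reachable 1 g
  · obtain ⟨p, hp⟩ := h.exists_walk_length_eq_dist
    have := SimpleGraph.dist_le ((p.map (φ t)).copy (mul_one t) rfl)
    rw [SimpleGraph.Walk.length_copy, SimpleGraph.Walk.length_map, hp] at this
    exact this
  · have : ¬ (SimpleGraph.mulCayley A).Reachable t (t * g) := by
      intro h'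
      apply h
      have := h'.map (φ t⁻¹)
      simpa [φ] using this
    rw [SimpleGraph.dist_eq_zero_of_not_reachable this]
    exact Nat.zero_le _

lemma tor_exists_chi (g : G) : ∃ χ : G → ZMod (orderOf g), ∀ t, χ (g * t) = χ t + 1 := by
  let H := Subgroup.zpowers g
  let r : G → G := fun t => (Quotient.mk (QuotientGroup.rightRel H) t).out
  have hr : ∀ t, ∃ k : ℤ, g ^ k = t * (r t)⁻¹ := by
    intro t
    have h1 : (QuotientGroup.rightRel H) (r t) t := Quotient.mk_out (s := QuotientGroup.rightRel H) t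
    rw [QuotientGroup.rightRel_apply] at h1
    exact Subgroup.mem_zpowers_iff.mp h1
  have hrg : ∀ t, r (g * t) = r t := by
    intro t
    have : Quotient.mk (QuotientGroup.rightRel H) (g * t) = Quotient.mk _ t := by
      symm
      apply Quotient.sound
      show (QuotientGroup.rightRel H) t (g * t)
      rw [QuotientGroup.rightRel_apply]
      simp [H]
    simp only [r, this]
  choose k hk using hr
  refine ⟨fun t => (k t : ZMod (orderOf g)), fun t => ?_⟩
  have h1 : g ^ k (g * t) = g ^ (k t + 1) := by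
    rw [hk, hrg, add_comm, zpow_add, zpow_one, hk, mul_assoc]
  rw [zpow_eq_zpow_iff_modEq] at h1
  have := (ZMod.intCast_eq_intCast_iff _ _ _).mpr h1
  push_cast at this
  exact this

end General

variable {V E S : Type} {Γ : LG V E S} {pos : V → Γ.Grp} {C : ℕ}

lemma tor_lift_eq (Γ : LG V E S) (f : FreeGroup S) :
    FreeGroup.lift (fun s => Γ.proj (FreeGroup.of s)) f = Γ.proj f := by
  have : FreeGroup.lift (fun s => Γ.proj (FreeGroup.of s)) = Γ.proj :=
    FreeGroup.ext_hom _ _ fun s => by simp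
  rw [this]

lemma tor_ch_cons (t : Γ.Grp) (o : E × Bool) (l : List (E × Bool)) :
    Γ.ch t (o :: l) = Finsupp.single (t, o.1) (if o.2 = true then (1 : ℤ) else -1) + Γ.ch t l := by
  simp [LG.ch]

lemma tor_ch_append (t : Γ.Grp) (l l' : List (E × Bool)) :
    Γ.ch t (l ++ l') = Γ.ch t l + Γ.ch t l' := by
  simp [LG.ch]

lemma tor_path_append {x y z : V} {l l' : List (E × Bool)} (h : Γ.IsPath x l y)
    (h' : Γ.IsPath y l' z) : Γ.IsPath x (l ++ l') z := by
  induction h with
  | nil x => exact h'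
  | cons o _ ih => exact LG.IsPath.cons o (ih h')

lemma tor_path_rev {x y : V} {l : List (E × Bool)} (h : Γ.IsPath x l y) :
    Γ.IsPath y (l.map rev).reverse x := by
  induction h with
  | nil x => exact LG.IsPath.nil x
  | cons o _ ih =>
    rw [List.map_cons, List.reverse_cons]
    refine tor_path_append ih ?_
    have h1 : Γ.ter o = Γ.ini (rev o) := by
      obtain ⟨e, b⟩ := o; cases b <;> rfl
    have h2 : Γ.ini o = Γ.ter (rev o) := by
      obtain ⟨e, b⟩ := o; cases b <;> rfl
    rw [h1, h2]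
    exact LG.IsPath.cons (rev o) (LG.IsPath.nil _)

lemma tor_ch_rev (t : Γ.Grp) (l : List (E × Bool)) : Γ.ch t (l.map rev).reverse = - Γ.ch t l := by
  induction l with
  | nil => simp [LG.ch]
  | cons o l ih =>
    rw [List.map_cons, List.reverse_cons, tor_ch_append, ih, tor_ch_cons, tor_ch_cons]
    obtain ⟨e, b⟩ := o
    cases b <;> simp [rev, LG.ch, Finsupp.single_neg]

lemma tor_word_rev (l : List (E × Bool)) :
    FreeGroup.mk (Γ.word (l.map rev).reverse) = (FreeGroup.mk (Γ.word l))⁻¹ := by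
  rw [FreeGroup.inv_mk]
  congr 1
  simp [LG.word, FreeGroup.invRev, LG.ltr, rev, Function.comp_def]

lemma tor_fill_proj {f : FreeGroup S} {c : (Γ.Grp × E) →₀ ℤ} (h : Γ.Fill pos f c) :
    Γ.proj f = 1 := by
  induction h with
  | one => exact map_one _
  | rel u x l h =>
    have : Γ.proj (FreeGroup.mk (Γ.word l)) = 1 := PresentedGroup.one_of_mem ⟨x, l, h, rfl⟩
    simp [this]
  | mul _ _ ih ih' => rw [map_mul, ih, ih', one_mul]

lemma tor_fill_inv {f : FreeGroup S} {c : (Γ.Grp × E) →₀ ℤ} (h : Γ.Fill pos f c) :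
    Γ.Fill pos f⁻¹ (-c) := by
  induction h with
  | one => simpa using LG.Fill.one
  | rel u x l h =>
    have := LG.Fill.rel (pos := pos) u x _ (tor_path_rev h)
    rw [tor_word_rev, tor_ch_rev] at this
    simpa [mul_assoc] using this
  | mul _ _ ih ih' =>
    have := LG.Fill.mul ih' ih
    rw [mul_inv_rev, neg_add_rev]
    exact this

lemma tor_fill_exists (pos : V → Γ.Grp) {f : FreeGroup S} (hf : Γ.proj f = 1) :
    ∃ c, Γ.Fill pos f c := by
  have h1 : f ∈ Subgroup.normalClosure Γ.rels := PresentedGroup.mk_eq_one_iff.mp hf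
  clear hf
  unfold Subgroup.normalClosure at h1
  induction h1 using Subgroup.closure_induction with
  | mem y hy =>
    obtain ⟨a, ⟨x, l, hl, rfl⟩, hc⟩ := Group.mem_conjugatesOfSet_iff.mp hy
    obtain ⟨u, rfl⟩ := isConj_iff.mp hc
    exact ⟨_, LG.Fill.rel u x l hl⟩
  | one => exact ⟨0, LG.Fill.one⟩
  | mul x y _ _ hx hy =>
    obtain ⟨c, hc⟩ := hx
    obtain ⟨c', hc'⟩ := hy
    exact ⟨_, hc.mul hc'⟩
  | inv x _ hx =>
    obtain ⟨c, hc⟩ := hx
    exact ⟨_, tor_fill_inv hc⟩

lemma tor_fill_conj (u : FreeGroup S) {f : FreeGroup S} {c : (Γ.Grp × E) →₀ ℤ}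
    (h : Γ.Fill pos f c) :
    Γ.Fill pos (u * f * u⁻¹) (c.mapDomain fun x => (Γ.proj u * x.1, x.2)) := by
  induction h with
  | one => simpa using LG.Fill.one
  | rel v x l h =>
    have h1 := LG.Fill.rel (pos := pos) (u * v) x l h
    have h2 : ∀ (t : Γ.Grp) (l : List (E × Bool)),
        (Γ.ch t l).mapDomain (fun x => (Γ.proj u * x.1, x.2)) = Γ.ch (Γ.proj u * t) l := by
      intro t l
      induction l with
      | nil => simp [LG.ch]
      | cons o l ih => rw [tor_ch_cons, tor_ch_cons, Finsupp.mapDomain_add, ih,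
          Finsupp.mapDomain_single]
    rw [h2]
    simpa [mul_assoc] using h1
  | mul _ _ ih ih' =>
    have := LG.Fill.mul ih ih'
    rw [Finsupp.mapDomain_add]
    simpa [mul_assoc] using this

lemma tor_fill_unique (h : Γ.FillBound pos C) {f : FreeGroup S} {c c' : (Γ.Grp × E) →₀ ℤ}
    (h1 : Γ.Fill pos f c) (h2 : Γ.Fill pos f c') : c = c' := by
  have h3 := h1.mul (tor_fill_inv h2)
  rw [mul_inv_cancel] at h3
  have h4 := h [] _ h3
  simp only [List.length_nil, mul_zero, Nat.le_zero, Finset.sum_eq_zero_iff,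
    Finsupp.mem_support_iff, Int.natAbs_eq_zero] at h4
  ext x
  by_contra hc
  have h5 : (c + -c') x ≠ 0 := by
    simpa [← sub_eq_add_neg, sub_eq_zero] using hc
  exact h5 (h4 x h5)

lemma tor_fill_filter (P : Γ.Grp → Prop) [DecidablePred P] {f : FreeGroup S}
    {c : (Γ.Grp × E) →₀ ℤ} (h : Γ.Fill pos f c) :
    ∃ m, Γ.Fill pos m (c.filter fun x => P x.1) := by
  induction h with
  | one => exact ⟨1, by rw [Finsupp.filter_zero]; exact LG.Fill.one⟩
  | rel u x l h =>
    have h2 : ∀ (t : Γ.Grp) (l : List (E × Bool)),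
        (Γ.ch t l).filter (fun x => P x.1) = if P t then Γ.ch t l else 0 := by
      intro t l
      induction l with
      | nil => simp [LG.ch, Finsupp.filter_zero]
      | cons o l ih =>
        rw [tor_ch_cons, Finsupp.filter_add, ih]
        by_cases ht : P t
        · rw [Finsupp.filter_single_of_pos _ (by exact ht), if_pos ht, if_pos ht]
        · rw [Finsupp.filter_single_of_neg _ (by exact ht), if_neg ht, if_neg ht, zero_add]
    rw [h2]
    split_ifs
    · exact ⟨_, LG.Fill.rel u x l h⟩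
    · exact ⟨1, LG.Fill.one⟩
  | mul _ _ ih ih' =>
    obtain ⟨m, hm⟩ := ih
    obtain ⟨m', hm'⟩ := ih'
    exact ⟨_, by rw [Finsupp.filter_add]; exact hm.mul hm'⟩

lemma tor_push_ch (hpos : Γ.IsPos pos) (t : Γ.Grp) {x y : V} {l : List (E × Bool)}
    (h : Γ.IsPath x l y) :
    (Γ.ch t l).mapDomain (fun z => (z.1 * pos (Γ.src z.2), Γ.lab z.2))
      = pc (fun s => Γ.proj (FreeGroup.of s)) (t * pos x) (Γ.word l) := by
  induction h with
  | nil x => simp [LG.ch, LG.word, pc]
  | cons o _ ih =>
    rw [tor_ch_cons, Finsupp.mapDomain_add, ih, Finsupp.mapDomain_single]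
    obtain ⟨e, b⟩ := o
    have he := hpos e
    cases b
    · simp [LG.word, LG.ltr, pc, LG.ini, LG.ter, he, mul_assoc]
    · simp [LG.word, LG.ltr, pc, LG.ini, LG.ter, he, mul_assoc]

lemma tor_push_fill (hpos : Γ.IsPos pos) {f : FreeGroup S} {c : (Γ.Grp × E) →₀ ℤ}
    (h : Γ.Fill pos f c) :
    c.mapDomain (fun z => (z.1 * pos (Γ.src z.2), Γ.lab z.2))
      = torPc (fun s => Γ.proj (FreeGroup.of s)) 1 f := by
  induction h with
  | one => simp [torPc_one]
  | rel u x l h =>
    have h1 : Γ.proj (FreeGroup.mk (Γ.word l)) = 1 := PresentedGroup.one_of_mem ⟨x, l, h, rfl⟩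
    have h2 := torPc_mul (fun s => Γ.proj (FreeGroup.of s)) 1 u u⁻¹
    rw [mul_inv_cancel, torPc_one] at h2
    rw [tor_push_ch hpos _ h, torPc_mul, torPc_mul, torPc_mk]
    simp only [tor_lift_eq, one_mul, map_mul, h1, mul_one, inv_mul_cancel_right] at h2 ⊢
    rw [add_right_comm, ← h2, zero_add]
  | @mul f f' c c' h1 _ ih ih' =>
    rw [Finsupp.mapDomain_add, ih, ih', torPc_mul, tor_lift_eq, tor_fill_proj h1, one_mul]

/-- Uniqueness of filling chains gives torsion-freeness. -/
theorem torsionFree_of_fillBound (hpos : Γ.IsPos pos) (h : Γ.FillBound pos C) (g : Γ.Grp)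
    (hg : IsOfFinOrder g) : g = 1 := by
  classical
  by_contra hg1
  have hn0 : 0 < orderOf g := hg.orderOf_pos
  have hn1 : orderOf g ≠ 1 := fun h => hg1 (orderOf_eq_one_iff.mp h)
  obtain ⟨χ, hχ⟩ := tor_exists_chi g
  have hgn : g ^ orderOf g = 1 := pow_orderOf_eq_one g
  generalize orderOf g = n at hn0 hn1 χ hχ hgn
  have : NeZero n := ⟨hn0.ne'⟩
  have : Nontrivial (ZMod n) := ZMod.nontrivial_iff.mpr hn1
  obtain ⟨w, rfl⟩ := PresentedGroup.mk_surjective Γ.rels g
  change ∀ t, χ (Γ.proj w * t) = χ t + 1 at hχ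
  change Γ.proj w ^ n = 1 at hgn
  set gen : S → Γ.Grp := fun s => Γ.proj (FreeGroup.of s) with hgen
  let F : Γ.Grp × S → ℤ := fun x => ((χ (x.1 * gen x.2) - χ x.1).val : ℤ)
  let Φ : ((Γ.Grp × S) →₀ ℤ) →ₗ[ℤ] ℤ := Finsupp.linearCombination ℤ F
  have hF : ∀ x : Γ.Grp × S, F (Γ.proj w * x.1, x.2) = F x := by
    intro x
    simp only [F, mul_assoc, hχ]
    congr 2
    ring
  have hΦmod : ∀ (u : Γ.Grp) (f : FreeGroup S),
      ((Φ (torPc gen u f) : ℤ) : ZMod n) = χ (u * Γ.proj f) - χ u := by
    intro u f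
    induction f using Quot.inductionOn with | h l => ?_
    change ((Φ (pc gen u l) : ℤ) : ZMod n) = χ (u * Γ.proj (FreeGroup.mk l)) - χ u
    rw [← tor_lift_eq]
    induction l generalizing u with
    | nil => simp [pc, FreeGroup.lift_mk]
    | cons a l ih =>
      obtain ⟨s, b⟩ := a
      cases b
      · rw [pc, map_add, Int.cast_add, ih, tor_lift_cons_false, ← mul_assoc]
        simp [Φ, F, hgen]
      · rw [pc, map_add, Int.cast_add, ih, tor_lift_cons_true, ← mul_assoc]
        simp [Φ, F, hgen]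
  have hΦinv : ∀ (u : Γ.Grp) (f : FreeGroup S),
      Φ (torPc gen (Γ.proj w * u) f) = Φ (torPc gen u f) := by
    intro u f
    induction f using Quot.inductionOn with | h l => ?_
    change Φ (pc gen (Γ.proj w * u) l) = Φ (pc gen u l)
    induction l generalizing u with
    | nil => simp [pc]
    | cons a l ih =>
      obtain ⟨s, b⟩ := a
      cases b
      · rw [pc, pc, map_add, map_add, mul_assoc, ih]
        simp only [Φ, Finsupp.linearCombination_single]
        rw [hF (u * (gen s)⁻¹, s)]
      · rw [pc, pc, map_add, map_add, mul_assoc, ih]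
        simp only [Φ, Finsupp.linearCombination_single]
        rw [hF (u, s)]
  have hpow : ∀ k : ℕ, Φ (torPc gen 1 (w ^ k)) = k * Φ (torPc gen 1 w) := by
    intro k
    induction k with
    | zero => simp [torPc_one]
    | succ k ih =>
      rw [pow_succ', torPc_mul, map_add, one_mul, hgen, tor_lift_eq, ← hgen]
      have := hΦinv 1 (w ^ k)
      rw [mul_one] at this
      rw [this, ih]
      push_cast; ring
  obtain ⟨c, hc⟩ := tor_fill_exists pos (f := w ^ n) (by rw [map_pow, hgn])
  have hinv : c.mapDomain (fun x => (Γ.proj w * x.1, x.2)) = c := by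
    have h1 := tor_fill_conj w hc
    have h2 : w * w ^ n * w⁻¹ = w ^ n := by group
    rw [h2] at h1
    exact tor_fill_unique h h1 hc
  have hinj : Function.Injective fun x : Γ.Grp × E => (Γ.proj w * x.1, x.2) := by
    intro x y hxy
    simp only [Prod.mk.injEq, mul_right_inj] at hxy
    exact Prod.ext hxy.1 hxy.2
  let Ψ : ((Γ.Grp × E) →₀ ℤ) → ℤ := fun d =>
    Φ (d.mapDomain fun z => (z.1 * pos (Γ.src z.2), Γ.lab z.2))
  have hΨadd : ∀ d d', Ψ (d + d') = Ψ d + Ψ d' := by
    intro d d'; simp only [Ψ, Finsupp.mapDomain_add, map_add]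
  have hΨ0 : Ψ 0 = 0 := by simp [Ψ]
  have hΨinv : ∀ d : (Γ.Grp × E) →₀ ℤ, Ψ (d.mapDomain fun x => (Γ.proj w * x.1, x.2)) = Ψ d := by
    intro d
    induction d using Finsupp.induction_linear with
    | zero => simp
    | add d d' ih ih' => rw [Finsupp.mapDomain_add, hΨadd, hΨadd, ih, ih']
    | single x k =>
      simp only [Ψ, Φ, Finsupp.mapDomain_single, Finsupp.linearCombination_single, mul_assoc]
      rw [hF (x.1 * pos (Γ.src x.2), Γ.lab x.2)]
  have hstep : ∀ a : ZMod n, c.filter (fun x => χ x.1 = a + 1)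
      = (c.filter fun x => χ x.1 = a).mapDomain fun x => (Γ.proj w * x.1, x.2) := by
    intro a
    ext x
    obtain ⟨t, e⟩ := x
    obtain ⟨t', rfl⟩ : ∃ t', t = Γ.proj w * t' := ⟨(Γ.proj w)⁻¹ * t, by group⟩
    have h1 := Finsupp.mapDomain_apply hinj (c.filter fun x => χ x.1 = a) (t', e)
    have h2 := Finsupp.mapDomain_apply hinj c (t', e)
    rw [hinv] at h2
    rw [h1]
    simp only [Finsupp.filter_apply, hχ, add_left_inj]
    rw [h2]
  have hall : ∀ a : ZMod n, Ψ (c.filter fun x => χ x.1 = a) = Ψ (c.filter fun x => χ x.1 = 0) := by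
    intro a
    rw [← ZMod.natCast_zmod_val a]
    induction a.val with
    | zero => simp
    | succ k ih => rw [Nat.cast_succ, hstep, hΨinv, ih]
  have hsum : Ψ c = ∑ a : ZMod n, Ψ (c.filter fun x => χ x.1 = a) := by
    have h1 : c = ∑ a : ZMod n, c.filter fun x => χ x.1 = a := by
      ext x
      simp [Finsupp.finsetSum_apply, Finsupp.filter_apply]
    conv_lhs => rw [h1]
    exact map_sum (AddMonoidHom.mk' Ψ hΨadd) _ _
  obtain ⟨m, hm⟩ := tor_fill_filter (fun t => χ t = 0) hc
  have h1 : Ψ c = n * Φ (torPc gen 1 w) := by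
    simp only [Ψ]; rw [tor_push_fill hpos hc, hpow]
  have h2 : Ψ c = n * Φ (torPc gen 1 m) := by
    rw [hsum]
    simp only [hall, Finset.sum_const, Finset.card_univ, ZMod.card, nsmul_eq_mul]
    simp only [Ψ]; rw [tor_push_fill hpos hm]
  have h3 : Φ (torPc gen 1 w) = Φ (torPc gen 1 m) :=
    mul_left_cancel₀ (by exact_mod_cast hn0.ne') (h1.symm.trans h2)
  have h4 := hΦmod 1 w
  have h5 := hΦmod 1 m
  rw [h3, h5, tor_fill_proj hm, one_mul, one_mul, ← mul_one (Γ.proj w), hχ] at h4
  simp at h4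

/-- The linear bound on filling chains gives a linear homological filling. -/
theorem homFill_of_fillBound [Fintype E] (hpos : Γ.IsPos pos) (h : Γ.FillBound pos C) :
    ∃ ρ : ℕ, HomFill (fun s => Γ.proj (FreeGroup.of s)) C ρ := by
  classical
  refine ⟨Finset.univ.sup fun e : E => (SimpleGraph.mulCayley
    (Set.range fun s => Γ.proj (FreeGroup.of s))).dist 1 (pos (Γ.src e)), fun w hw => ?_⟩
  rw [tor_lift_eq] at hw
  obtain ⟨c, hc⟩ := tor_fill_exists pos hw
  refine ⟨c.support.image Prod.fst, fun t => (c.filter fun x => x.1 = t).mapDomain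
    fun z => (z.1 * pos (Γ.src z.2), Γ.lab z.2), ?_, ?_, ?_, ?_⟩
  · intro t _
    obtain ⟨m, hm⟩ := tor_fill_filter (fun t' => t' = t) hc
    simp only
    rw [tor_push_fill hpos hm, tor_bd_torPc, tor_lift_eq, tor_fill_proj hm]
    simp
  · intro t _ x hx
    obtain ⟨y, hy, rfl⟩ := Finset.mem_image.mp (Finsupp.mapDomain_support hx)
    rw [Finsupp.support_filter, Finset.mem_filter] at hy
    rw [← hy.2]
    exact (tor_dist_le _ _ _).trans (Finset.le_sup (f := fun e : E => (SimpleGraph.mulCayley
      (Set.range fun s => Γ.proj (FreeGroup.of s))).dist 1 (pos (Γ.src e))) (Finset.mem_univ y.2))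
  · refine le_trans ?_ (h w c hc)
    calc ∑ t ∈ c.support.image Prod.fst, ((c.filter fun x => x.1 = t).mapDomain
          fun z => (z.1 * pos (Γ.src z.2), Γ.lab z.2)).support.card
        ≤ ∑ t ∈ c.support.image Prod.fst, (c.support.filter fun x => x.1 = t).card := by
          refine Finset.sum_le_sum fun t _ => ?_
          refine (Finset.card_le_card Finsupp.mapDomain_support).trans ?_
          rw [← Finsupp.support_filter]
          exact Finset.card_image_le
      _ = c.support.card := (Finset.card_eq_sum_card_image Prod.fst c.support).symm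
      _ ≤ ∑ x ∈ c.support, (c x).natAbs := by
          rw [Finset.card_eq_sum_ones]
          refine Finset.sum_le_sum fun x hx => ?_
          exact Int.natAbs_pos.mpr (Finsupp.mem_support_iff.mp hx)
  · rw [← Finsupp.mapDomain_finsetSum, ← torPc_mk, ← tor_push_fill hpos hc]
    congr 1
    ext x
    simp only [Finsupp.finsetSum_apply, Finsupp.filter_apply, Finset.sum_ite_eq,
      Finset.mem_image]
    split_ifs with hx
    · rfl
    · by_contra hc
      exact hx ⟨x, Finsupp.mem_support_iff.mpr (Ne.symm hc), rfl⟩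

theorem closure_gen (Γ : LG V E S) :
    Subgroup.closure (Set.range fun s => Γ.proj (FreeGroup.of s)) = ⊤ :=
  PresentedGroup.closure_range_of Γ.rels

end Vale.Agent.Kap
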